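import Mathlib

/-!
# Definitions for the Euclidean Ramsey hand-ins
-/

namespace Vale.Agent.Lib.P058

open Finset

/-- A subset of Euclidean space is Ramsey: for every number `r ≥ 2` of colours there is a dimension
`D ≥ 1` such that every `r`-colouring of `ℝ^D` is constant on the image of `A` under some map that
preserves all distances between points of `A`. -/
def IsRamsey {d : ℕ} (A : Set (EuclideanSpace ℝ (Fin d))) : Prop :=
  ∀ r : ℕ, 2 ≤ r → ∃ D : ℕ, 1 ≤ D ∧ ∀ c : EuclideanSpace ℝ (Fin D) → Fin r,
    ∃ f : EuclideanSpace ℝ (Fin d) → EuclideanSpace ℝ (Fin D),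
      (∀ a ∈ A, ∀ b ∈ A, dist (f a) (f b) = dist a b) ∧ ∃ k, ∀ a ∈ A, c (f a) = k

/-- The point of `ℝ^N` spelled by a word `w` of length `N` over the three letters `0, 1, 2`,
when the letters have the real values `v 0, v 1, v 2`. -/
noncomputable def wordPoint {N : ℕ} (v : Fin 3 → ℝ) (w : Fin N → Fin 3) :
    EuclideanSpace ℝ (Fin N) :=
  WithLp.toLp 2 (fun p => v (w p))

/-- The `a`-th row of the matrix `x₁ I + x₂ A + x₃ (J - I - A)`, as a point of `ℝ^n`, where `A` is
the adjacency matrix of the digraph whose out-neighbourhood of `a` is `Γ a`: the coordinate at `a`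
is `x₁`, the coordinates at out-neighbours of `a` are `x₂`, all other coordinates are `x₃`. -/
noncomputable def rowPoint {n : ℕ} (x₁ x₂ x₃ : ℝ) (Γ : Fin n → Finset (Fin n)) (a : Fin n) :
    EuclideanSpace ℝ (Fin n) :=
  WithLp.toLp 2 (fun c => if c = a then x₁ else if c ∈ Γ a then x₂ else x₃)

end Vale.Agent.Lib.P058
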