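import Mathlib

/-!
# Finite hypergraph Ramsey theorem (Erdos-Rado proof), in the form of strictly increasing maps.
-/

namespace Vale.Agent.Lib.P058

open Finset

variable {α : Type*}

/-- Pre-homogeneity of a pair `(W, U)`: the colour of `A ∪ {x}`, for `A ⊆ W` of size `M` and
`x ∈ W ∪ U` above `A`, does not depend on `x`. -/
def Good (χ : Finset ℕ → α) (M : ℕ) (W U : Finset ℕ) : Prop :=
  ∀ A ⊆ W, A.card = M → ∀ x ∈ W ∪ U, ∀ y ∈ W ∪ U,
    (∀ a ∈ A, a < x) → (∀ a ∈ A, a < y) → χ (insert x A) = χ (insert y A)

theorem extend [Fintype α] (M : ℕ) : ∀ (l w : ℕ), ∃ u0 : ℕ,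
    ∀ (χ : Finset ℕ → α) (W U : Finset ℕ),
    W.card = w → (∀ a ∈ W, ∀ b ∈ U, a < b) → Good χ M W U → u0 ≤ U.card →
    ∃ W' ⊆ W ∪ U, w + l ≤ W'.card ∧ Good χ M W' ∅ := by
  classical
  intro l
  induction l with
  | zero =>
    intro w
    refine ⟨0, fun χ W U hw _ hg _ => ⟨W, subset_union_left, by simp [hw], ?_⟩⟩
    intro A hA hc x hx y hy hxa hya
    exact hg A hA hc x (mem_union_left _ (by simpa using hx)) y
      (mem_union_left _ (by simpa using hy)) hxa hya
  | succ l ih =>
    intro w
    obtain ⟨u1, hu1⟩ := ih (w + 1)
    refine ⟨(Fintype.card α) ^ (2 ^ w) * u1 + 1, ?_⟩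
    intro χ W U hw hWU hg hU
    have hUne : U.Nonempty := card_pos.mp (by omega)
    set v := U.min' hUne with hv
    have hvU : v ∈ U := min'_mem _ _
    have hvmin : ∀ b ∈ U, v ≤ b := fun b hb => min'_le _ _ hb
    haveI : Nonempty α := ⟨χ ∅⟩
    let φ : ℕ → (↥W.powerset → α) := fun x B => χ (insert x (insert v B.1))
    have hcardU0 : (U.erase v).card = U.card - 1 := card_erase_of_mem hvU
    have hcol : Fintype.card (↥W.powerset → α) = (Fintype.card α) ^ (2 ^ w) := by
      rw [Fintype.card_fun, Fintype.card_coe, card_powerset, hw]
    obtain ⟨f, -, hf⟩ := exists_le_card_fiber_of_mul_le_card_of_maps_to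
      (s := U.erase v) (t := (univ : Finset (↥W.powerset → α))) (f := φ) (n := u1)
      (fun _ _ => mem_univ _) univ_nonempty (by
        rw [card_univ, hcol, hcardU0]; omega)
    set U1 := (U.erase v).filter (fun x => φ x = f) with hU1
    have hU1sub : U1 ⊆ U := (filter_subset _ _).trans (erase_subset _ _)
    have hvW : v ∉ W := fun h => lt_irrefl _ (hWU v h v hvU)
    obtain ⟨W', hW'sub, hW'card, hW'good⟩ := hu1 χ (insert v W) U1
      (by rw [card_insert_of_notMem hvW, hw]) (by
        intro a ha b hb
        rw [mem_insert] at ha
        have hbU := hU1sub hb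
        rcases ha with rfl | ha
        · have hbne : b ≠ v := by
            have := (mem_filter.mp hb).1
            exact (mem_erase.mp this).1
          exact lt_of_le_of_ne (hvmin b hbU) (Ne.symm hbne)
        · exact hWU a ha b hbU) (by
        intro A hA hc x hx y hy hxa hya
        by_cases hvA : v ∈ A
        · -- `v ∈ A`: both `x` and `y` lie in `U1`
          have key : ∀ z ∈ insert v W ∪ U1, (∀ a ∈ A, a < z) → z ∈ U1 := by
            intro z hz hza
            have hvz : v < z := hza v hvA
            rcases mem_union.mp hz with hz | hz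
            · rcases mem_insert.mp hz with rfl | hz
              · exact absurd hvz (lt_irrefl _)
              · exact absurd (hWU z hz v hvU) (not_lt.mpr hvz.le)
            · exact hz
          have hxU := key x hx hxa
          have hyU := key y hy hya
          have hB : A.erase v ∈ W.powerset := by
            rw [mem_powerset]
            intro a ha
            have ha' := mem_erase.mp ha
            rcases mem_insert.mp (hA ha'.2) with h | h
            · exact absurd h ha'.1
            · exact h
          have hx1 : φ x = f := (mem_filter.mp hxU).2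
          have hy1 : φ y = f := (mem_filter.mp hyU).2
          have := congrFun (hx1.trans hy1.symm) ⟨_, hB⟩
          simpa [φ, insert_erase hvA] using this
        · -- `v ∉ A`: use the old property
          have hAW : A ⊆ W := by
            intro a ha
            rcases mem_insert.mp (hA ha) with h | h
            · exact absurd (h ▸ ha) hvA
            · exact h
          have key : ∀ z ∈ insert v W ∪ U1, z ∈ W ∪ U := by
            intro z hz
            rcases mem_union.mp hz with hz | hz
            · rcases mem_insert.mp hz with rfl | hz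
              · exact mem_union_right _ hvU
              · exact mem_union_left _ hz
            · exact mem_union_right _ (hU1sub hz)
          exact hg A hAW hc x (key x hx) y (key y hy) hxa hya) (by exact hf)
    refine ⟨W', ?_, by omega, hW'good⟩
    intro z hz
    rcases mem_union.mp (hW'sub hz) with hz | hz
    · rcases mem_insert.mp hz with rfl | hz
      · exact mem_union_right _ hvU
      · exact mem_union_left _ hz
    · exact mem_union_right _ (hU1sub hz)

/-- Hypergraph Ramsey theorem for subsets of a large finite set of naturals, sets of size `M + 1`. -/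
theorem ramsey_succ [Fintype α] (M m : ℕ) : ∃ L : ℕ, ∀ (χ : Finset ℕ → α) (V : Finset ℕ),
    L ≤ V.card → ∃ Y ⊆ V, m ≤ Y.card ∧ ∃ k, ∀ A ⊆ Y, A.card = M + 1 → χ A = k := by
  classical
  induction M generalizing m with
  | zero =>
    refine ⟨Fintype.card α * m, fun χ V hV => ?_⟩
    haveI : Nonempty α := ⟨χ ∅⟩
    obtain ⟨k, -, hk⟩ := exists_le_card_fiber_of_mul_le_card_of_maps_to
      (s := V) (t := (univ : Finset α)) (f := fun x => χ {x}) (n := m)
      (fun _ _ => mem_univ _) univ_nonempty (by rw [card_univ]; exact hV)
    refine ⟨_, filter_subset _ _, hk, k, ?_⟩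
    intro A hA hc
    obtain ⟨a, rfl⟩ := card_eq_one.mp hc
    have : a ∈ V.filter (fun x => χ {x} = k) := hA (mem_singleton_self a)
    exact (mem_filter.mp this).2
  | succ M ih =>
    obtain ⟨L', hL'⟩ := ih m
    obtain ⟨u0, hu0⟩ := extend (α := α) (M + 1) L' 0
    refine ⟨u0, fun χ V hV => ?_⟩
    obtain ⟨W, hWsub, hWcard, hWgood⟩ := hu0 χ ∅ V rfl (by simp) (by
      intro A hA hc
      have : A = ∅ := subset_empty.mp hA
      simp [this] at hc) hV
    let χ' : Finset ℕ → α := fun A =>
      if h : ∃ x ∈ W, ∀ a ∈ A, a < x then χ (insert h.choose A) else χ ∅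
    obtain ⟨Y, hYW, hYcard, k, hk⟩ := hL' χ' W (by omega)
    refine ⟨Y, fun z hz => ?_, hYcard, k, ?_⟩
    · have := hWsub (hYW hz)
      simpa using this
    · intro B hB hc
      have hBne : B.Nonempty := card_pos.mp (by omega)
      set x := B.max' hBne with hx
      have hxB : x ∈ B := max'_mem _ _
      have hAcard : (B.erase x).card = M + 1 := by rw [card_erase_of_mem hxB, hc]; rfl
      have hASub : B.erase x ⊆ Y := (erase_subset _ _).trans hB
      have hχ' := hk _ hASub hAcard
      have hxa : ∀ a ∈ B.erase x, a < x := by
        intro a ha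
        have ha' := mem_erase.mp ha
        exact lt_of_le_of_ne (le_max' _ _ ha'.2) ha'.1
      have hex : ∃ z ∈ W, ∀ a ∈ B.erase x, a < z := ⟨x, hYW (hB hxB), hxa⟩
      have hval : χ' (B.erase x) = χ (insert hex.choose (B.erase x)) := by
        simp only [χ']
        rw [dif_pos hex]
      have hspec := hex.choose_spec
      have := hWgood (B.erase x) (hASub.trans hYW) hAcard hex.choose
        (mem_union_left _ hspec.1) x (mem_union_left _ (hYW (hB hxB))) hspec.2 hxa
      rw [← hχ', hval, this, insert_erase hxB]

/-- Hypergraph Ramsey theorem, as a strictly increasing map: for every colouring of finite sets of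
naturals with a finite set of colours there is a strictly increasing `e` with `e i < L` for `i < m`
such that all `M`-subsets of `e '' [0,m)` have the same colour. -/
theorem ramsey_mono [Fintype α] [Nonempty α] (M m : ℕ) : ∃ L : ℕ, ∀ χ : Finset ℕ → α,
    ∃ e : ℕ → ℕ, StrictMono e ∧ (∀ i < m, e i < L) ∧
      ∃ k, ∀ A ⊆ range m, A.card = M → χ (A.image e) = k := by
  classical
  cases M with
  | zero =>
    refine ⟨m, fun χ => ⟨id, strictMono_id, fun i hi => hi, χ ∅, ?_⟩⟩
    intro A _ hc
    have : A = ∅ := card_eq_zero.mp hc
    simp [this]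
  | succ M =>
    obtain ⟨L, hL⟩ := ramsey_succ (α := α) M m
    refine ⟨L, fun χ => ?_⟩
    obtain ⟨Y, hYsub, hYcard, k, hk⟩ := hL χ (range L) (by simp)
    let E := Y.orderEmbOfCardLe hYcard
    have hEmem : ∀ i : Fin m, E i ∈ Y := fun i => orderEmbOfCardLe_mem Y hYcard i
    have hElt : ∀ i : Fin m, E i < L := fun i => by
      have := hYsub (hEmem i)
      simpa using this
    let e : ℕ → ℕ := fun i => if h : i < m then E ⟨i, h⟩ else L + i
    have he : StrictMono e := by
      intro i j hij
      simp only [e]
      by_cases hj : j < m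
      · have hi : i < m := by omega
        rw [dif_pos hi, dif_pos hj]
        exact E.strictMono (by simpa [Fin.lt_def] using hij)
      · rw [dif_neg hj]
        by_cases hi : i < m
        · rw [dif_pos hi]
          have := hElt ⟨i, hi⟩
          omega
        · rw [dif_neg hi]
          omega
    refine ⟨e, he, fun i hi => ?_, k, ?_⟩
    · simp only [e]
      rw [dif_pos hi]
      exact hElt _
    · intro A hA hc
      apply hk
      · intro z hz
        obtain ⟨i, hi, rfl⟩ := mem_image.mp hz
        have him : i < m := by simpa using hA hi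
        simp only [e]
        rw [dif_pos him]
        exact hEmem _
      · rw [card_image_of_injective _ he.injective, hc]

end Vale.Agent.Lib.P058
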