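import Mathlib
import Vale.Agent.Lib.P058.HypergraphRamsey
import Vale.Agent.Lib.P058.Defs

/-!
# Three-letter word families are Ramsey
-/

namespace Vale.Agent.Lib.P058

open Finset

/-- A family of points of Euclidean space is Ramsey. -/
def IsRamseyFamily {ι : Type*} {d : ℕ} (x : ι → EuclideanSpace ℝ (Fin d)) : Prop :=
  ∀ r : ℕ, 2 ≤ r → ∃ D : ℕ, 1 ≤ D ∧ ∀ c : EuclideanSpace ℝ (Fin D) → Fin r,
    ∃ f : ι → EuclideanSpace ℝ (Fin D), (∀ i j, dist (f i) (f j) = dist (x i) (x j)) ∧
      ∃ k, ∀ i, c (f i) = k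

theorem IsRamseyFamily.range {ι : Type*} {d : ℕ} {x : ι → EuclideanSpace ℝ (Fin d)}
    (h : IsRamseyFamily x) : IsRamsey (Set.range x) := by
  classical
  intro r hr
  obtain ⟨D, hD, hc⟩ := h r hr
  refine ⟨D, hD, fun c => ?_⟩
  obtain ⟨f, hf, k, hk⟩ := hc c
  have hpick : ∀ a : EuclideanSpace ℝ (Fin d), a ∈ Set.range x → ∃ i, x i = a := fun a ha => ha
  let g : EuclideanSpace ℝ (Fin d) → EuclideanSpace ℝ (Fin D) := fun a =>
    if h : ∃ i, x i = a then f h.choose else 0
  have hg : ∀ i, ∃ j, x j = x i ∧ g (x i) = f j := by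
    intro i
    have h : ∃ j, x j = x i := ⟨i, rfl⟩
    exact ⟨h.choose, h.choose_spec, by simp only [g]; rw [dif_pos h]⟩
  refine ⟨g, ?_, k, ?_⟩
  · rintro _ ⟨i, rfl⟩ _ ⟨j, rfl⟩
    obtain ⟨i', hi', hgi⟩ := hg i
    obtain ⟨j', hj', hgj⟩ := hg j
    rw [hgi, hgj, hf, hi', hj']
  · rintro _ ⟨i, rfl⟩
    obtain ⟨i', hi', hgi⟩ := hg i
    rw [hgi, hk]

/-- Transfer of the Ramsey property along a distance-preserving reindexing. -/
theorem IsRamseyFamily.congr {ι : Type*} {d d' : ℕ} {x : ι → EuclideanSpace ℝ (Fin d)}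
    {x' : ι → EuclideanSpace ℝ (Fin d')} (h : IsRamseyFamily x)
    (hd : ∀ i j, dist (x' i) (x' j) = dist (x i) (x j)) : IsRamseyFamily x' := by
  intro r hr
  obtain ⟨D, hD, hc⟩ := h r hr
  refine ⟨D, hD, fun c => ?_⟩
  obtain ⟨f, hf, hk⟩ := hc c
  exact ⟨f, fun i j => by rw [hf, hd], hk⟩

/-- rank of `i` in `S` -/
def rk (S : Finset ℕ) (i : ℕ) : ℕ := (S.filter (· < i)).card

theorem rk_image {e : ℕ → ℕ} (he : StrictMono e) (S : Finset ℕ) (i : ℕ) :
    rk (S.image e) (e i) = rk S i := by
  unfold rk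
  have : (S.image e).filter (· < e i) = (S.filter (· < i)).image e := by
    ext z
    simp only [mem_filter, mem_image]
    constructor
    · rintro ⟨⟨a, ha, rfl⟩, h⟩
      exact ⟨a, ⟨ha, he.lt_iff_lt.mp h⟩, rfl⟩
    · rintro ⟨a, ⟨ha, h⟩, rfl⟩
      exact ⟨⟨a, ha, rfl⟩, he.lt_iff_lt.mpr h⟩
  rw [this, card_image_of_injective _ he.injective]

theorem rk_lt_of_lt {S : Finset ℕ} {i j : ℕ} (hi : i ∈ S) (hij : i < j) : rk S i < rk S j := by
  unfold rk
  apply card_lt_card
  refine ⟨fun z hz => ?_, fun h => ?_⟩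
  · simp only [mem_filter] at hz ⊢
    exact ⟨hz.1, hz.2.trans hij⟩
  · have : i ∈ S.filter (· < i) := h (by simp [hi, hij])
    simp at this

theorem rk_inj {S : Finset ℕ} {i j : ℕ} (hi : i ∈ S) (hj : j ∈ S) (h : rk S i = rk S j) : i = j := by
  rcases lt_trichotomy i j with hlt | heq | hgt
  · exact absurd h (rk_lt_of_lt hi hlt).ne
  · exact heq
  · exact absurd h.symm (rk_lt_of_lt hj hgt).ne

/-- The layout of positions and rest elements. -/
theorem layout (N R : ℕ) (t cnt : Fin N → ℕ) (ht_lt : ∀ p, t p < R)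
    (ht_gap : ∀ p q, p < q → t p + N ≤ t q) (hcnt_le : ∀ p, cnt p ≤ t p) (hcnt : ∀ p, cnt p ≤ N) :
    ∃ (y : Fin N → ℕ) (Z : Finset ℕ), StrictMono y ∧ (∀ p, y p < N + R) ∧ Z ⊆ range (N + R) ∧
      Z.card = R ∧ (∀ p, y p ∉ Z) ∧
      ∀ (p : Fin N) (Q : Finset (Fin N)), (Q.filter (· < p)).card = cnt p →
        rk (Z ∪ Q.image y) (y p) = t p := by
  classical
  let y : Fin N → ℕ := fun p => p.val + (t p - cnt p)
  have hy : StrictMono y := by
    intro p q hpq
    have h1 := ht_gap p q hpq
    have h2 := hcnt q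
    have h3 : p.val < q.val := hpq
    simp only [y]
    omega
  have hylt : ∀ p, y p < N + R := by
    intro p
    have h1 := ht_lt p
    have h2 := p.isLt
    simp only [y]
    omega
  let Z : Finset ℕ := range (N + R) \ univ.image y
  have hZcard : Z.card = R := by
    have hsub : univ.image y ⊆ range (N + R) := by
      intro z hz
      obtain ⟨p, -, rfl⟩ := mem_image.mp hz
      simpa using hylt p
    simp only [Z]
    rw [card_sdiff_of_subset hsub, card_image_of_injective _ hy.injective]
    simp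
  have hZnot : ∀ p, y p ∉ Z := by
    intro p hp
    exact (mem_sdiff.mp hp).2 (mem_image_of_mem _ (mem_univ _))
  refine ⟨y, Z, hy, hylt, sdiff_subset, hZcard, hZnot, ?_⟩
  intro p Q hQ
  unfold rk
  have hsplit : (Z ∪ Q.image y).filter (· < y p) =
      Z.filter (· < y p) ∪ (Q.filter (· < p)).image y := by
    ext z
    simp only [mem_filter, mem_union, mem_image]
    constructor
    · rintro ⟨h | ⟨a, ha, rfl⟩, hlt⟩
      · exact Or.inl ⟨h, hlt⟩
      · exact Or.inr ⟨a, ⟨ha, hy.lt_iff_lt.mp hlt⟩, rfl⟩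
    · rintro (⟨h, hlt⟩ | ⟨a, ⟨ha, hlt⟩, rfl⟩)
      · exact ⟨Or.inl h, hlt⟩
      · exact ⟨Or.inr ⟨a, ha, rfl⟩, hy.lt_iff_lt.mpr hlt⟩
  have hdisj : Disjoint (Z.filter (· < y p)) ((Q.filter (· < p)).image y) := by
    rw [disjoint_left]
    intro z hz hz'
    obtain ⟨a, -, rfl⟩ := mem_image.mp hz'
    exact hZnot a (mem_filter.mp hz).1
  have hZfilter : Z.filter (· < y p) = range (y p) \ (Iio p).image y := by
    ext z
    simp only [Z, mem_filter, mem_sdiff, mem_range, mem_image, mem_univ, true_and, mem_Iio,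
      not_exists, not_and]
    constructor
    · rintro ⟨⟨_, h⟩, hlt⟩
      exact ⟨hlt, fun a _ => h a⟩
    · rintro ⟨hlt, h⟩
      refine ⟨⟨hlt.trans (hylt p), fun a ha => ?_⟩, hlt⟩
      subst ha
      exact h a (hy.lt_iff_lt.mp hlt) rfl
  have hZcount : (Z.filter (· < y p)).card = y p - p.val := by
    have hsub : (Iio p).image y ⊆ range (y p) := by
      intro z hz
      obtain ⟨a, ha, rfl⟩ := mem_image.mp hz
      simpa using hy (mem_Iio.mp ha)
    rw [hZfilter, card_sdiff_of_subset hsub, card_range, card_image_of_injective _ hy.injective,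
      Fin.card_Iio]
  rw [hsplit, card_union_of_disjoint hdisj, hZcount, card_image_of_injective _ hy.injective, hQ]
  have := hcnt_le p
  simp only [y]
  omega

/-- A strictly increasing map grows at least linearly. -/
theorem strictMono_add {e : ℕ → ℕ} (he : StrictMono e) (a j : ℕ) : e a + j ≤ e (a + j) := by
  induction j with
  | zero => simp
  | succ j ih =>
    have := he (show a + j < a + (j + 1) by omega)
    omega

/-- Auxiliary points. -/
noncomputable def pt (D : ℕ) (v : Fin 3 → ℝ) (S U : Finset ℕ) : EuclideanSpace ℝ (Fin D) :=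
  WithLp.toLp 2 (fun i => if i.val ∈ S then (if rk S i.val ∈ U then v 0 else v 1) else v 2)

theorem three_letter {N : ℕ} (v : Fin 3 → ℝ) (F : Finset (Fin N → Fin 3)) (m1 K : ℕ)
    (hm1 : ∀ w ∈ F, (univ.filter (fun p => w p = 0)).card = m1)
    (hK : ∀ w ∈ F, (univ.filter (fun p => w p ≠ 2)).card = K)
    (hrank : ∀ w ∈ F, ∀ w' ∈ F, ∀ p, w p = 0 → w' p = 0 →
      (univ.filter (fun q => q < p ∧ w q ≠ 2)).card =
        (univ.filter (fun q => q < p ∧ w' q ≠ 2)).card) :
    IsRamseyFamily (fun w : F => wordPoint v w.1) := by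
  classical
  intro r hr
  haveI : Nonempty (Fin r) := ⟨⟨0, by omega⟩⟩
  obtain ⟨R, hR⟩ := ramsey_mono (α := Fin r) m1 (N * N)
  obtain ⟨L, hL⟩ := ramsey_mono (α := Finset (Fin (R + K)) → Fin r) (R + K) (N + R)
  refine ⟨L + 1, by omega, fun c => ?_⟩
  let χ : Finset ℕ → (Finset (Fin (R + K)) → Fin r) := fun S U0 =>
    c (pt (L + 1) v S (U0.image Fin.val))
  obtain ⟨e₁, he₁, he₁lt, g, hg⟩ := hL χ
  let g' : Finset ℕ → Fin r := fun U => g (univ.filter (fun i : Fin (R + K) => i.val ∈ U))
  obtain ⟨e₂, he₂, he₂lt, k, hk⟩ := hR g'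
  -- the sparse ranks
  let t : Fin N → ℕ := fun p => e₂ (p.val * N)
  have hpN : ∀ p : Fin N, p.val * N < N * N := fun p =>
    Nat.mul_lt_mul_of_pos_right p.isLt (by have := p.isLt; omega)
  have ht_lt : ∀ p, t p < R := fun p => he₂lt _ (hpN p)
  have ht_gap : ∀ p q, p < q → t p + N ≤ t q := by
    intro p q hpq
    have h1 : p.val * N + N ≤ q.val * N := by
      have : (p.val + 1) * N ≤ q.val * N := Nat.mul_le_mul_right _ hpq
      linarith [Nat.succ_mul p.val N]
    have h2 := strictMono_add he₂ (p.val * N) N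
    have h3 : e₂ (p.val * N + N) ≤ e₂ (q.val * N) := he₂.monotone h1
    simp only [t]
    omega
  have ht_ge : ∀ p : Fin N, p.val ≤ t p := by
    intro p
    have h1 : p.val * N ≤ t p := he₂.le_apply
    have h2 : p.val ≤ p.val * N := Nat.le_mul_of_pos_right _ (by have := p.isLt; omega)
    omega
  -- the common counts
  have hcntex : ∀ p : Fin N, ∃ n0 : ℕ, n0 ≤ p.val ∧ ∀ w ∈ F, w p = 0 →
      ((univ.filter (fun q => w q ≠ 2)).filter (· < p)).card = n0 := by
    intro p
    have hle : ∀ w : Fin N → Fin 3,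
        ((univ.filter (fun q => w q ≠ 2)).filter (· < p)).card ≤ p.val := by
      intro w
      calc ((univ.filter (fun q => w q ≠ 2)).filter (· < p)).card ≤ (Iio p).card := by
            apply card_le_card
            intro z hz
            simpa using (mem_filter.mp hz).2
        _ = p.val := Fin.card_Iio p
    by_cases hex : ∃ w ∈ F, w p = 0
    · obtain ⟨w0, hw0, hw0p⟩ := hex
      refine ⟨_, hle w0, fun w hw hwp => ?_⟩
      have := hrank w hw w0 hw0 p hwp hw0p
      have e1 : ∀ u : Fin N → Fin 3, (univ.filter (fun q => u q ≠ 2)).filter (· < p) =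
          univ.filter (fun q => q < p ∧ u q ≠ 2) := by
        intro u
        ext a
        simp [and_comm]
      rw [e1, e1]
      exact this
    · refine ⟨0, Nat.zero_le _, fun w hw hwp => absurd ⟨w, hw, hwp⟩ hex⟩
  choose cnt hcnt_le hcnt using hcntex
  obtain ⟨y, Z, hy, hylt, hZsub, hZcard, hZnot, hrk⟩ := layout N R t cnt ht_lt ht_gap
    (fun p => (hcnt_le p).trans (ht_ge p)) (fun p => (hcnt_le p).trans p.isLt.le)
  -- the words
  let Q : (Fin N → Fin 3) → Finset (Fin N) := fun w => univ.filter (fun q => w q ≠ 2)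
  let S0 : (Fin N → Fin 3) → Finset ℕ := fun w => Z ∪ (Q w).image y
  let S : (Fin N → Fin 3) → Finset ℕ := fun w => (S0 w).image e₁
  let U : (Fin N → Fin 3) → Finset ℕ := fun w => (univ.filter (fun p => w p = 0)).image t
  let f : F → EuclideanSpace ℝ (Fin (L + 1)) := fun w => pt (L + 1) v (S w.1) (U w.1)
  have hmemS0 : ∀ w p, y p ∈ S0 w ↔ w p ≠ 2 := by
    intro w p
    simp only [S0, Q, mem_union, mem_image, mem_filter, mem_univ, true_and]
    constructor
    · rintro (h | ⟨a, ha, hap⟩)
      · exact absurd h (hZnot p)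
      · rw [← hy.injective hap]; exact ha
    · intro h
      exact Or.inr ⟨p, h, rfl⟩
  have hmemS : ∀ w p, e₁ (y p) ∈ S w ↔ w p ≠ 2 := by
    intro w p
    simp only [S, he₁.injective.mem_finset_image]
    exact hmemS0 w p
  have hrkS : ∀ w p, w ∈ F → w p = 0 → rk (S w) (e₁ (y p)) = t p := by
    intro w p hw hwp
    simp only [S]
    rw [rk_image he₁]
    exact hrk p (Q w) (hcnt p w hw hwp)
  have hUrange : ∀ w, U w ⊆ range (R + K) := by
    intro w z hz
    obtain ⟨p, -, rfl⟩ := mem_image.mp hz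
    have := ht_lt p
    simp only [mem_range]
    omega
  -- colour of the points
  have hcolor : ∀ w : F, c (f w) = k := by
    rintro ⟨w, hw⟩
    have hS0sub : S0 w ⊆ range (N + R) := by
      intro z hz
      rcases mem_union.mp hz with hz | hz
      · exact hZsub hz
      · obtain ⟨a, -, rfl⟩ := mem_image.mp hz
        simpa using hylt a
    have hdisj : Disjoint Z ((Q w).image y) := by
      rw [disjoint_left]
      intro z hz hz'
      obtain ⟨a, -, rfl⟩ := mem_image.mp hz'
      exact hZnot a hz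
    have hS0card : (S0 w).card = R + K := by
      simp only [S0]
      rw [card_union_of_disjoint hdisj, hZcard, card_image_of_injective _ hy.injective]
      simp only [Q]
      rw [hK w hw]
    have h1 : χ (S w) = g := hg _ hS0sub hS0card
    have hU0 : (univ.filter (fun i : Fin (R + K) => i.val ∈ U w)).image Fin.val = U w := by
      ext z
      simp only [mem_image, mem_filter, mem_univ, true_and]
      constructor
      · rintro ⟨i, hi, rfl⟩
        exact hi
      · intro hz
        exact ⟨⟨z, by simpa using hUrange w hz⟩, hz, rfl⟩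
    have h2 : c (f ⟨w, hw⟩) = g (univ.filter (fun i : Fin (R + K) => i.val ∈ U w)) := by
      rw [← h1]
      simp only [χ, f]
      rw [hU0]
    rw [h2]
    have hA : (univ.filter (fun p => w p = 0)).image (fun p : Fin N => p.val * N) ⊆
        range (N * N) := by
      intro z hz
      obtain ⟨p, -, rfl⟩ := mem_image.mp hz
      simpa using hpN p
    have hinj : Set.InjOn (fun p : Fin N => p.val * N)
        (univ.filter (fun p => w p = 0) : Finset (Fin N)) := by
      intro p hp q _ hpq
      have hNpos : 0 < N := by have := p.isLt; omega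
      exact Fin.ext (Nat.eq_of_mul_eq_mul_right hNpos hpq)
    have hAcard : ((univ.filter (fun p => w p = 0)).image
        (fun p : Fin N => p.val * N)).card = m1 := by
      rw [card_image_of_injOn hinj, hm1 w hw]
    have h3 := hk _ hA hAcard
    have h4 : ((univ.filter (fun p => w p = 0)).image (fun p : Fin N => p.val * N)).image e₂
        = U w := by
      simp only [U, t, image_image]
      rfl
    rw [h4] at h3
    exact h3
  -- coordinates
  have hyD : ∀ p, e₁ (y p) < L + 1 := fun p => (he₁lt _ (hylt p)).trans (Nat.lt_succ_self _)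
  let ι : Fin N → Fin (L + 1) := fun p => ⟨e₁ (y p), hyD p⟩
  have hι : Function.Injective ι := by
    intro p q h
    have : e₁ (y p) = e₁ (y q) := congrArg Fin.val h
    exact hy.injective (he₁.injective this)
  have hcoord1 : ∀ (w : Fin N → Fin 3), w ∈ F → ∀ p,
      (pt (L + 1) v (S w) (U w)).ofLp (ι p) = v (w p) := by
    intro w hw p
    simp only [pt, ι, PiLp.toLp_apply]
    by_cases h2 : w p = 2
    · rw [if_neg (fun h => (hmemS w p).mp h h2), h2]
    · rw [if_pos ((hmemS w p).mpr h2)]
      by_cases h0 : w p = 0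
      · have : rk (S w) (e₁ (y p)) ∈ U w := by
          rw [hrkS w p hw h0]
          exact mem_image_of_mem _ (by simp [h0])
        rw [if_pos this, h0]
      · have h1 : w p = 1 := by
          generalize w p = l at h0 h2
          fin_cases l <;> simp_all
        have : rk (S w) (e₁ (y p)) ∉ U w := by
          intro hmem
          obtain ⟨p', hp', hp'eq⟩ := mem_image.mp hmem
          have hwp' : w p' = 0 := by simpa using hp'
          have hS' : e₁ (y p') ∈ S w := (hmemS w p').mpr (by rw [hwp']; decide)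
          have hS : e₁ (y p) ∈ S w := (hmemS w p).mpr h2
          have := rk_inj hS hS' (by rw [hrkS w p' hw hwp', hp'eq])
          have : p = p' := hy.injective (he₁.injective this)
          subst this
          exact h0 hwp'
        rw [if_neg this, h1]
  have hcoord2 : ∀ (i : Fin (L + 1)), i ∉ Set.range ι → ∀ (w w' : Fin N → Fin 3), w ∈ F → w' ∈ F →
      (pt (L + 1) v (S w) (U w)).ofLp i = (pt (L + 1) v (S w') (U w')).ofLp i := by
    intro i hi
    have hval : ∀ p, i.val ≠ e₁ (y p) := by
      intro p hp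
      exact hi ⟨p, Fin.ext hp.symm⟩
    have key : ∀ w : Fin N → Fin 3, w ∈ F → (pt (L + 1) v (S w) (U w)).ofLp i =
        if i.val ∈ Z.image e₁ then v 1 else v 2 := by
      intro w hw
      simp only [pt, PiLp.toLp_apply]
      by_cases hZ : i.val ∈ Z.image e₁
      · have hS : i.val ∈ S w := by
          obtain ⟨z, hz, hzi⟩ := mem_image.mp hZ
          rw [← hzi]
          exact mem_image_of_mem _ (mem_union_left _ hz)
        have hnot : rk (S w) i.val ∉ U w := by
          intro hmem
          obtain ⟨p', hp', hp'eq⟩ := mem_image.mp hmem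
          have hwp' : w p' = 0 := by simpa using hp'
          have hS' : e₁ (y p') ∈ S w := (hmemS w p').mpr (by rw [hwp']; decide)
          have := rk_inj hS hS' (by rw [hrkS w p' hw hwp', hp'eq])
          exact hval p' this
        rw [if_pos hS, if_neg hnot, if_pos hZ]
      · have hS : i.val ∉ S w := by
          intro hmem
          obtain ⟨s, hs, hsi⟩ := mem_image.mp hmem
          rcases mem_union.mp hs with hs | hs
          · exact hZ (mem_image.mpr ⟨s, hs, hsi⟩)
          · obtain ⟨a, -, rfl⟩ := mem_image.mp hs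
            exact hval a hsi.symm
        rw [if_neg hS, if_neg hZ]
    intro w w' hw hw'
    rw [key w hw, key w' hw']
  refine ⟨f, ?_, k, hcolor⟩
  rintro ⟨w, hw⟩ ⟨w', hw'⟩
  simp only [wordPoint, f]
  rw [EuclideanSpace.dist_eq, EuclideanSpace.dist_eq]
  congr 1
  symm
  apply Fintype.sum_of_injective ι hι
  · intro i hi
    rw [hcoord2 i hi w w' hw hw']
    simp
  · intro p
    rw [hcoord1 w hw p, hcoord1 w' hw' p]

end Vale.Agent.Lib.P058
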