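import Mathlib
import Vale.Agent.Lib.P058.Words

/-!
# Corollaries: rows of out-regular digraph matrices; spherical two-distance tight frames
-/

namespace Vale.Agent.Lib.P058

open Finset

theorem IsRamseyFamily.comp {ι κ : Type*} {d : ℕ} {x : ι → EuclideanSpace ℝ (Fin d)}
    (h : IsRamseyFamily x) (φ : κ → ι) : IsRamseyFamily (fun j => x (φ j)) := by
  intro r hr
  obtain ⟨D, hD, hc⟩ := h r hr
  refine ⟨D, hD, fun c => ?_⟩
  obtain ⟨f, hf, k, hk⟩ := hc c
  exact ⟨fun j => f (φ j), fun i j => hf _ _, k, fun i => hk _⟩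

/-- The Ramsey theorem for three-letter word families, as a statement about sets. -/
theorem three_letter_set {N : ℕ} (v : Fin 3 → ℝ) (F : Finset (Fin N → Fin 3))
    (hcontent : ∀ w ∈ F, ∀ w' ∈ F, ∀ l : Fin 3,
      (univ.filter (fun p => w p = l)).card = (univ.filter (fun p => w' p = l)).card)
    (hrank : ∀ w ∈ F, ∀ w' ∈ F, ∀ p, w p = 0 → w' p = 0 →
      (univ.filter (fun q => q < p ∧ w q ≠ 2)).card =
        (univ.filter (fun q => q < p ∧ w' q ≠ 2)).card) :
    IsRamsey (wordPoint v '' (F : Set (Fin N → Fin 3))) := by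
  classical
  rcases F.eq_empty_or_nonempty with rfl | ⟨w0, hw0⟩
  · intro r hr
    refine ⟨1, le_rfl, fun _ => ⟨fun _ => 0, by simp, ⟨0, by omega⟩, by simp⟩⟩
  · have hfam := three_letter v F (univ.filter (fun p => w0 p = 0)).card
      (univ.filter (fun p => w0 p ≠ 2)).card (fun w hw => hcontent w hw w0 hw0 0) (by
        intro w hw
        have h := hcontent w hw w0 hw0 2
        have e : ∀ u : Fin N → Fin 3, (univ.filter (fun p => u p ≠ 2)).card =
            N - (univ.filter (fun p => u p = 2)).card := by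
          intro u
          have := card_filter_add_card_filter_not (s := (univ : Finset (Fin N)))
            (fun p => u p = 2)
          simp only [card_univ, Fintype.card_fin] at this
          exact Nat.eq_sub_of_add_eq' this
        rw [e, e, h]) hrank
    have := hfam.range
    convert this using 1
    ext y
    simp only [Set.mem_image, Finset.mem_coe, Set.mem_range, Subtype.exists, exists_prop]

theorem rowPoint_family {n : ℕ} (x₁ x₂ x₃ : ℝ) (Γ : Fin n → Finset (Fin n))
    (hΓ : ∀ a, a ∉ Γ a) (hreg : ∀ a b, (Γ a).card = (Γ b).card) :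
    IsRamseyFamily (rowPoint x₁ x₂ x₃ Γ) := by
  classical
  let word : Fin n → (Fin n → Fin 3) := fun a c =>
    if c = a then 0 else if c ∈ Γ a then 1 else 2
  let v : Fin 3 → ℝ := ![x₁, x₂, x₃]
  have hpt : ∀ a, wordPoint v (word a) = rowPoint x₁ x₂ x₃ Γ a := by
    intro a
    simp only [wordPoint, rowPoint]
    congr 1
    funext c
    simp only [word, v]
    by_cases h1 : c = a
    · simp [h1]
    · by_cases h2 : c ∈ Γ a <;> simp [h1, h2]
  let F : Finset (Fin n → Fin 3) := univ.image word
  have hwordF : ∀ w ∈ F, ∃ a, w = word a := by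
    intro w hw
    obtain ⟨a, -, rfl⟩ := mem_image.mp hw
    exact ⟨a, rfl⟩
  have hw0 : ∀ a c, word a c = 0 ↔ c = a := by
    intro a c
    simp only [word]
    by_cases h1 : c = a
    · simp [h1]
    · by_cases h2 : c ∈ Γ a <;> simp [h1, h2]
  have hw2 : ∀ a c, word a c ≠ 2 ↔ c ∈ insert a (Γ a) := by
    intro a c
    simp only [word, mem_insert]
    by_cases h1 : c = a
    · simp [h1]
    · by_cases h2 : c ∈ Γ a <;> simp [h1, h2]
  have hm1 : ∀ a, (univ.filter (fun p => word a p = 0)).card = 1 := by
    intro a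
    have : univ.filter (fun p => word a p = 0) = {a} := by
      ext c
      simp [hw0]
    rw [this, card_singleton]
  have hK : ∀ a, (univ.filter (fun p => word a p ≠ 2)).card = (Γ a).card + 1 := by
    intro a
    have : univ.filter (fun p => word a p ≠ 2) = insert a (Γ a) := by
      ext c
      simp [hw2]
    rw [this, card_insert_of_notMem (hΓ a)]
  rcases isEmpty_or_nonempty (Fin n) with hne | ⟨⟨a0⟩⟩
  · intro r hr
    refine ⟨1, le_rfl, fun _ => ⟨fun a => (hne.false a).elim, fun a => (hne.false a).elim,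
      ⟨0, by omega⟩, fun a => (hne.false a).elim⟩⟩
  · have hfam := three_letter v F 1 ((Γ a0).card + 1) (by
      intro w hw
      obtain ⟨a, rfl⟩ := hwordF w hw
      exact hm1 a) (by
      intro w hw
      obtain ⟨a, rfl⟩ := hwordF w hw
      rw [hK a, hreg a a0]) (by
      intro w hw w' hw' p h h'
      obtain ⟨a, rfl⟩ := hwordF w hw
      obtain ⟨b, rfl⟩ := hwordF w' hw'
      have h1 := (hw0 a p).mp h
      have h2 := (hw0 b p).mp h'
      rw [show a = b from h1.symm.trans h2])
    have := hfam.comp (fun a : Fin n => (⟨word a, mem_image_of_mem _ (mem_univ _)⟩ : F))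
    simp only [hpt] at this
    exact this

/-- Sum of a row with three kinds of entries. -/
theorem sum_row {n : ℕ} (i : Fin n) (Γ : Finset (Fin n)) (hi : i ∉ Γ) (u s t : ℝ) :
    (∑ p, (if p = i then u else if p ∈ Γ then s else t)) =
      n * t + (u - t) + Γ.card * (s - t) := by
  classical
  have h : ∀ p : Fin n, (if p = i then u else if p ∈ Γ then s else t) =
      t + (if p = i then u - t else 0) + (if p ∈ Γ then s - t else 0) := by
    intro p
    by_cases h1 : p = i
    · subst h1
      simp [hi]
    · by_cases h2 : p ∈ Γ <;> simp [h1, h2]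
  simp only [h, sum_add_distrib, sum_const, card_univ, Fintype.card_fin, nsmul_eq_mul,
    sum_ite_eq', mem_univ, if_true, sum_ite_mem, univ_inter]

/-- Spherical two-distance tight frames with constant row sums (or `a + b ≠ 0`) are Ramsey. -/
theorem two_distance_family {n d : ℕ} (x : Fin n → EuclideanSpace ℝ (Fin d)) (ρ a b c : ℝ)
    (hc : 0 < c) (hnorm : ∀ i, ‖x i‖ = ρ)
    (htwo : ∀ i j, i ≠ j → inner ℝ (x i) (x j) = a ∨ inner ℝ (x i) (x j) = b)
    (htight : ∀ v : EuclideanSpace ℝ (Fin d), ∑ i, inner ℝ (x i) v • x i = c • v)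
    (hreg : a + b ≠ 0 ∨ ∀ i k, inner ℝ (x i) (∑ j, x j) = inner ℝ (x k) (∑ j, x j)) :
    IsRamseyFamily x := by
  classical
  have hsc : 0 < Real.sqrt c := Real.sqrt_pos.mpr hc
  set sc := Real.sqrt c with hscdef
  have hsc2 : sc * sc = c := Real.mul_self_sqrt hc.le
  -- the digraph
  let Γ : Fin n → Finset (Fin n) := fun i =>
    if a = b then ∅ else univ.filter (fun p => p ≠ i ∧ inner ℝ (x i) (x p) = a)
  have hΓ : ∀ i, i ∉ Γ i := by
    intro i
    simp only [Γ]
    split_ifs <;> simp
  have hself : ∀ i, inner ℝ (x i) (x i) = ρ ^ 2 := by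
    intro i
    rw [real_inner_self_eq_norm_sq, hnorm]
  have hentry : ∀ i p, inner ℝ (x i) (x p) =
      if p = i then ρ ^ 2 else if p ∈ Γ i then a else b := by
    intro i p
    by_cases h1 : p = i
    · subst h1
      rw [if_pos rfl]
      exact hself p
    · rw [if_neg h1]
      by_cases hab : a = b
      · have hne : ¬ (p ∈ Γ i) := by
          simp [Γ, hab]
        rw [if_neg hne]
        rcases htwo i p (Ne.symm h1) with h | h
        · rw [h, hab]
        · exact h
      · by_cases h2 : inner ℝ (x i) (x p) = a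
        · have hmem : p ∈ Γ i := by
            simp only [Γ, if_neg hab]
            simp [h1, h2]
          rw [if_pos hmem, h2]
        · have hmem : p ∉ Γ i := by
            simp only [Γ, if_neg hab]
            simp [h2]
          rw [if_neg hmem]
          rcases htwo i p (Ne.symm h1) with h | h
          · exact absurd h h2
          · exact h
  -- the square sum identity
  have hsq : ∀ v : EuclideanSpace ℝ (Fin d), ∑ p, (inner ℝ (x p) v) ^ 2 = c * ‖v‖ ^ 2 := by
    intro v
    have h1 : inner ℝ (∑ i, inner ℝ (x i) v • x i) v = inner ℝ (c • v) v := by rw [htight]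
    rw [sum_inner] at h1
    simp only [inner_smul_left, conj_trivial] at h1
    rw [real_inner_self_eq_norm_sq] at h1
    rw [← h1]
    apply sum_congr rfl
    intro p _
    ring
  have hrowsq : ∀ i, ∑ p, (if p = i then (ρ ^ 2) ^ 2 else if p ∈ Γ i then a ^ 2 else b ^ 2) =
      c * ρ ^ 2 := by
    intro i
    rw [← hnorm i, ← hsq (x i)]
    apply sum_congr rfl
    intro p _
    rw [real_inner_comm, hentry i p, hnorm i]
    split_ifs <;> rfl
  have hrowsum : ∀ i, ∑ p, (if p = i then (ρ ^ 2) else if p ∈ Γ i then a else b) =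
      inner ℝ (x i) (∑ j, x j) := by
    intro i
    rw [inner_sum]
    apply sum_congr rfl
    intro p _
    rw [hentry i p]
  -- constant out-degree
  have hdeg : ∀ i k, (Γ i).card = (Γ k).card := by
    intro i k
    by_cases hab : a = b
    · simp [Γ, hab]
    · have hcast : ((Γ i).card : ℝ) = (Γ k).card := by
        by_cases hs : a + b ≠ 0
        · have h1 := hrowsq i
          have h2 := hrowsq k
          rw [sum_row i _ (hΓ i)] at h1
          rw [sum_row k _ (hΓ k)] at h2
          have h3 : ((Γ i).card : ℝ) * (a ^ 2 - b ^ 2) = (Γ k).card * (a ^ 2 - b ^ 2) := by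
            linarith
          have h4 : a ^ 2 - b ^ 2 ≠ 0 := by
            have : a ^ 2 - b ^ 2 = (a - b) * (a + b) := by ring
            rw [this]
            exact mul_ne_zero (sub_ne_zero.mpr hab) hs
          exact mul_right_cancel₀ h4 h3
        · have hreg' := hreg.resolve_left hs i k
          rw [← hrowsum i, ← hrowsum k, sum_row i _ (hΓ i), sum_row k _ (hΓ k)] at hreg'
          have h3 : ((Γ i).card : ℝ) * (a - b) = (Γ k).card * (a - b) := by
            linarith
          exact mul_right_cancel₀ (sub_ne_zero.mpr hab) h3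
      exact_mod_cast hcast
  have hfam := rowPoint_family (ρ ^ 2 / sc) (a / sc) (b / sc) Γ hΓ hdeg
  refine hfam.congr ?_
  intro i k
  have hcoord : ∀ i p, (rowPoint (ρ ^ 2 / sc) (a / sc) (b / sc) Γ i).ofLp p =
      inner ℝ (x i) (x p) / sc := by
    intro i p
    simp only [rowPoint, PiLp.toLp_apply]
    rw [hentry i p]
    split_ifs <;> rfl
  have hd : dist (rowPoint (ρ ^ 2 / sc) (a / sc) (b / sc) Γ i)
      (rowPoint (ρ ^ 2 / sc) (a / sc) (b / sc) Γ k) ^ 2 = ‖x i - x k‖ ^ 2 := by
    rw [EuclideanSpace.dist_eq, Real.sq_sqrt (sum_nonneg fun _ _ => sq_nonneg _)]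
    have h1 := hsq (x i - x k)
    have hne : c ≠ 0 := hc.ne'
    have hsne : sc ≠ 0 := hsc.ne'
    have h2 : ∀ p, dist ((rowPoint (ρ ^ 2 / sc) (a / sc) (b / sc) Γ i).ofLp p)
        ((rowPoint (ρ ^ 2 / sc) (a / sc) (b / sc) Γ k).ofLp p) ^ 2 =
        (inner ℝ (x p) (x i - x k)) ^ 2 / c := by
      intro p
      rw [hcoord, hcoord, Real.dist_eq, sq_abs, inner_sub_right, real_inner_comm (x i) (x p),
        real_inner_comm (x k) (x p), ← hsc2]
      field_simp
    simp only [h2]
    rw [← sum_div, h1]
    field_simp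
  have hnn1 := dist_nonneg (x := rowPoint (ρ ^ 2 / sc) (a / sc) (b / sc) Γ i)
    (y := rowPoint (ρ ^ 2 / sc) (a / sc) (b / sc) Γ k)
  rw [dist_eq_norm (x i) (x k)]
  have := (sq_eq_sq₀ hnn1 (norm_nonneg (x i - x k))).mp hd
  exact this.symm

end Vale.Agent.Lib.P058
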