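import Mathlib
import Vale.Agent.Lib.P058.Corollaries

/-!
# Word Ramsey families and the cell reduction
-/

set_option linter.unusedVariables false
set_option linter.unusedSectionVars false

namespace Vale.Agent.Lib.P058

open Finset

section Defs

variable {ι P Λ : Type}

/-- The host word spelled by a word `w` on labels `P` through a labelling `τ` of the host positions:
a position labelled by `p` carries the letter `w p`, a position labelled by a letter carries that
letter. -/
def hostWord {n : ℕ} (w : P → Λ) (τ : Fin n → P ⊕ Λ) : Fin n → Λ :=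
  fun q => Sum.elim w id (τ q)

/-- A family `W` of words on positions `P` over the alphabet `Λ` is word Ramsey with multiplicity
`M`: for every number of colours there are a host length `n` and a content `K` such that for every
colouring of the host words some labelling of the host positions, with every label used exactly `M`
times, spells host words of content `K` all of the same colour. -/
def WordRamsey [DecidableEq P] [DecidableEq Λ] (W : ι → P → Λ) (M : ℕ) : Prop :=
  ∀ r : ℕ, 0 < r → ∃ (n : ℕ) (K : Λ → ℕ), ∀ c : (Fin n → Λ) → Fin r,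
    ∃ τ : Fin n → P ⊕ Λ,
      (∀ p, (univ.filter (fun q => τ q = Sum.inl p)).card = M) ∧
      (∀ i l, (univ.filter (fun q => hostWord (W i) τ q = l)).card = K l) ∧
      ∃ k, ∀ i, c (hostWord (W i) τ) = k

/-- A family consisting of one word is word Ramsey. -/
theorem WordRamsey.const [Fintype P] [DecidableEq P] [DecidableEq Λ] (W : ι → P → Λ) (W₀ : P → Λ)
    (h : ∀ i, W i = W₀) : WordRamsey W 1 := by
  classical
  intro r hr
  let e := Fintype.equivFin P
  let τ : Fin (Fintype.card P) → P ⊕ Λ := fun q => Sum.inl (e.symm q)
  refine ⟨Fintype.card P, fun l => (univ.filter (fun q => hostWord W₀ τ q = l)).card, fun c =>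
    ⟨τ, ?_, ?_, c (hostWord W₀ τ), ?_⟩⟩
  · intro p
    have : univ.filter (fun q => τ q = Sum.inl p) = {e p} := by
      ext q
      simp only [mem_filter, mem_univ, true_and, mem_singleton, τ, Sum.inl.injEq]
      constructor
      · intro hq
        rw [← hq]
        simp
      · intro hq
        rw [hq]
        simp
    rw [this, card_singleton]
  · intro i l
    rw [h i]
  · intro i
    rw [h i]

end Defs

section Lists

variable {α : Type}

/-- Positions of a list satisfying a predicate are counted by `countP`. -/
theorem card_filter_getD (l : List α) (d : α) (Q : α → Bool) :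
    ((range l.length).filter (fun j => Q (l.getD j d) = true)).card = l.countP Q := by
  induction l with
  | nil => simp
  | cons x xs ih =>
    rw [card_filter, List.length_cons, sum_range_succ', List.countP_cons, ← ih, card_filter]
    simp

/-- The entries of a filtered list, indexed by rank. -/
theorem getD_filter_rk (l : List α) (d : α) (Q : α → Bool) (j : ℕ) (hj : j < l.length)
    (hQ : Q (l.getD j d) = true) :
    (l.filter Q).getD (rk ((range l.length).filter (fun j => Q (l.getD j d) = true)) j) d =
      l.getD j d := by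
  induction l using List.reverseRecOn generalizing j with
  | nil => simp at hj
  | append_singleton xs x ih =>
    have hlen : (xs ++ [x]).length = xs.length + 1 := by simp
    rcases Nat.lt_or_ge j xs.length with hlt | hge
    · -- `j` lies in the initial part
      have hget : (xs ++ [x]).getD j d = xs.getD j d := by
        simp [List.getD_eq_getElem?_getD, List.getElem?_append_left hlt]
      rw [hget] at hQ ⊢
      have hrk : rk ((range (xs ++ [x]).length).filter (fun j => Q ((xs ++ [x]).getD j d) = true)) j
          = rk ((range xs.length).filter (fun j => Q (xs.getD j d) = true)) j := by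
        unfold rk
        congr 1
        ext z
        simp only [mem_filter, mem_range]
        constructor
        · rintro ⟨⟨hz1, hz2⟩, hz3⟩
          have hzlt : z < xs.length := by omega
          have : (xs ++ [x]).getD z d = xs.getD z d := by
            simp [List.getD_eq_getElem?_getD, List.getElem?_append_left hzlt]
          rw [this] at hz2
          exact ⟨⟨hzlt, hz2⟩, hz3⟩
        · rintro ⟨⟨hz1, hz2⟩, hz3⟩
          have : (xs ++ [x]).getD z d = xs.getD z d := by
            simp [List.getD_eq_getElem?_getD, List.getElem?_append_left hz1]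
          refine ⟨⟨by rw [hlen]; omega, by rw [this]; exact hz2⟩, hz3⟩
      rw [hrk]
      have hfil : (xs ++ [x]).filter Q = xs.filter Q ++ [x].filter Q := List.filter_append ..
      have hrklt : rk ((range xs.length).filter (fun j => Q (xs.getD j d) = true)) j <
          (xs.filter Q).length := by
        have hcard : ((range xs.length).filter (fun j => Q (xs.getD j d) = true)).card =
            (xs.filter Q).length := by
          rw [card_filter_getD, List.countP_eq_length_filter]
        rw [← hcard]
        exact card_lt_card ⟨fun z hz => (mem_filter.mp hz).1, fun h => by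
          have hmem : j ∈ (range xs.length).filter (fun j => Q (xs.getD j d) = true) :=
            mem_filter.mpr ⟨mem_range.mpr hlt, hQ⟩
          have := h hmem
          simp at this⟩
      rw [hfil]
      have := ih j hlt hQ
      rw [← this, List.getD_eq_getElem?_getD, List.getElem?_append_left hrklt,
        ← List.getD_eq_getElem?_getD]
    · -- `j` is the last entry
      have hj' : j = xs.length := by
        rw [hlen] at hj
        omega
      subst hj'
      have hget : (xs ++ [x]).getD xs.length d = x := by
        simp [List.getD_eq_getElem?_getD]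
      rw [hget] at hQ ⊢
      have hrk : rk ((range (xs ++ [x]).length).filter (fun j => Q ((xs ++ [x]).getD j d) = true))
          xs.length = (xs.filter Q).length := by
        unfold rk
        have hfilter : ((range (xs ++ [x]).length).filter
            (fun j => Q ((xs ++ [x]).getD j d) = true)).filter (· < xs.length) =
            (range xs.length).filter (fun j => Q (xs.getD j d) = true) := by
          ext z
          simp only [mem_filter, mem_range]
          constructor
          · rintro ⟨⟨hz1, hz2⟩, hz3⟩
            have : (xs ++ [x]).getD z d = xs.getD z d := by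
              simp [List.getD_eq_getElem?_getD, List.getElem?_append_left hz3]
            rw [this] at hz2
            exact ⟨hz3, hz2⟩
          · rintro ⟨hz1, hz2⟩
            have : (xs ++ [x]).getD z d = xs.getD z d := by
              simp [List.getD_eq_getElem?_getD, List.getElem?_append_left hz1]
            refine ⟨⟨by rw [hlen]; omega, by rw [this]; exact hz2⟩, hz1⟩
        rw [hfilter, card_filter_getD, List.countP_eq_length_filter]
      rw [hrk, List.filter_append]
      simp [hQ, List.getD_eq_getElem?_getD]

end Lists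

section Reduction

variable {ι P Λ C Θ : Type}

/-- The word with non-`e` letters on `S` spelled by `str`. -/
def mkW [DecidableEq Λ] {a : ℕ} (e : Λ) (n : ℕ) (S : Finset ℕ) (str : Fin a → Λ) : Fin n → Λ :=
  fun q => if q.val ∈ S then (if h : rk S q.val < a then str ⟨_, h⟩ else e) else e

/-- Counting the values of a host word through the fibres of the letters. -/
theorem sum_fiber_count {n : ℕ} [Fintype Θ] [DecidableEq Θ] (y : Fin n → Θ) (K : Θ → ℕ)
    (hK : ∀ θ, (univ.filter (fun q => y q = θ)).card = K θ) (f : Θ → ℕ) :
    ∑ q, f (y q) = ∑ θ, K θ * f θ := by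
  have h := sum_fiberwise (s := (univ : Finset (Fin n))) (g := y) (f := fun q => f (y q))
  rw [← h]
  refine sum_congr rfl fun θ _ => ?_
  rw [← hK θ, sum_congr rfl (g := fun _ => f θ), sum_const, smul_eq_mul]
  intro q hq
  rw [(mem_filter.mp hq).2]

/-- **The cell reduction.** Let `W` be a family of words on `P` over `Λ`, let `e` be a letter, and
let `σ` be a list of cells (sequences over `P`) covering every position `R` times.  Reading a word
along a cell and deleting `e` gives the letters (strings `fl θ`) of a new family `W'` on the set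
of cells.  If `W'` is word Ramsey then so is `W`. -/
theorem WordRamsey.of_cells [Nonempty ι] [Fintype P] [DecidableEq P] [Fintype Λ] [DecidableEq Λ]
    [Fintype C] [DecidableEq C] [Fintype Θ] [DecidableEq Θ]
    (W : ι → P → Λ) (e : Λ) (σ : C → List P) (R : ℕ) (hR : ∀ p, ∑ s, (σ s).count p = R)
    (fl : Θ → List Λ) (hfl : ∀ θ, e ∉ fl θ) (W' : ι → C → Θ)
    (hW' : ∀ i s, fl (W' i s) = ((σ s).map (W i)).filter (· ≠ e))
    {M' : ℕ} (h : WordRamsey W' M') : WordRamsey W (M' * R) := by
  classical
  intro r hr
  obtain ⟨n', K', hhost⟩ := h r hr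
  haveI : Nonempty (Fin r) := ⟨⟨0, hr⟩⟩
  let a : ℕ := ∑ θ, K' θ * (fl θ).length
  let Lσ : ℕ := ∑ s, (σ s).length
  let Nmax : ℕ := a + n' * Lσ
  obtain ⟨L, hL⟩ := ramsey_mono (α := (Fin a → Λ) → Fin r) a Nmax
  refine ⟨L, fun l => if l = e then L - a else ∑ θ, K' θ * (fl θ).count l, fun c => ?_⟩
  obtain ⟨ε, hε, hεlt, g, hg⟩ := hL (fun S str => c (mkW e L S str))
  let flat : (Fin n' → Θ) → List Λ := fun y => (List.ofFn y).flatMap fl
  let strOf : List Λ → Fin a → Λ := fun l k => l.getD k.val e
  obtain ⟨τ', hlab, hcont, k, hk⟩ := hhost (fun y => g (strOf (flat y)))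
  -- the tokens
  let gt : C ⊕ Θ → List (P ⊕ Λ) :=
    Sum.elim (fun s => (σ s).map Sum.inl) (fun θ => (fl θ).map Sum.inr)
  let tok : List (P ⊕ Λ) := (List.ofFn τ').flatMap gt
  have hcountP : ∀ Q : P ⊕ Λ → Bool, tok.countP Q = ∑ q, (gt (τ' q)).countP Q := by
    intro Q
    simp only [tok]
    rw [List.countP_flatMap, List.map_ofFn, List.sum_ofFn]
    rfl
  let y : ι → Fin n' → Θ := fun i => hostWord (W' i) τ'
  let ev : ι → P ⊕ Λ → Λ := fun i => Sum.elim (W i) id
  have hflat : ∀ i, flat (y i) = (tok.map (ev i)).filter (· ≠ e) := by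
    intro i
    have h1 : y i = (Sum.elim (W' i) id) ∘ τ' := rfl
    simp only [flat, tok]
    rw [h1, ← List.map_ofFn, List.flatMap_map, List.map_flatMap, List.filter_flatMap]
    congr 1
    funext t
    rcases t with s | θ
    · simp only [gt, Sum.elim_inl, hW', List.map_map]
      rfl
    · simp only [gt, Sum.elim_inr, List.map_map]
      have : ev i ∘ Sum.inr = (id : Λ → Λ) := rfl
      rw [this, List.map_id]
      symm
      show List.filter _ (fl θ) = fl θ
      rw [List.filter_eq_self]
      intro x hx
      have hxe : x ≠ e := fun h => hfl θ (h ▸ hx)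
      simpa using hxe
  have hlen_y : ∀ i, ∑ q, (fl (y i q)).length = a := fun i =>
    sum_fiber_count (y i) K' (hcont i) (fun θ => (fl θ).length)
  have hflatlen : ∀ i, (flat (y i)).length = a := by
    intro i
    simp only [flat]
    rw [List.length_flatMap, List.map_ofFn, List.sum_ofFn]
    exact hlen_y i
  have hNt : tok.length ≤ Nmax := by
    let i0 : ι := Classical.arbitrary ι
    have h1 : tok.length = ∑ q, (gt (τ' q)).length := by
      simp only [tok]
      rw [List.length_flatMap, List.map_ofFn, List.sum_ofFn]
      rfl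
    have h2 : ∀ q, (gt (τ' q)).length ≤ Lσ + (fl (y i0 q)).length := by
      intro q
      have hyq : y i0 q = Sum.elim (W' i0) id (τ' q) := rfl
      rcases ht : τ' q with s | θ
      · simp only [gt, Sum.elim_inl, List.length_map]
        have : (σ s).length ≤ Lσ :=
          single_le_sum (f := fun s => (σ s).length) (fun _ _ => Nat.zero_le _) (mem_univ s)
        omega
      · simp only [gt, Sum.elim_inr, List.length_map]
        rw [hyq, ht]
        simp
    rw [h1]
    calc ∑ q, (gt (τ' q)).length ≤ ∑ q, (Lσ + (fl (y i0 q)).length) := sum_le_sum fun q _ => h2 q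
      _ = n' * Lσ + a := by
        rw [sum_add_distrib, hlen_y i0]
        simp
      _ = Nmax := by
        simp only [Nmax]
        omega
  -- the labelling of the host
  let tokF : ℕ → P ⊕ Λ := fun j => tok.getD j (Sum.inr e)
  have hεL : ∀ j, j < tok.length → ε j < L := fun j hj => hεlt j (lt_of_lt_of_le hj hNt)
  let τ : Fin L → P ⊕ Λ := fun q =>
    if h : ∃ j, j < tok.length ∧ ε j = q.val then tokF h.choose else Sum.inr e
  have hτ1 : ∀ j (hj : j < tok.length), τ ⟨ε j, hεL j hj⟩ = tokF j := by
    intro j hj
    have hex : ∃ j', j' < tok.length ∧ ε j' = (⟨ε j, hεL j hj⟩ : Fin L).val := ⟨j, hj, rfl⟩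
    simp only [τ]
    rw [dif_pos hex]
    have := hε.injective hex.choose_spec.2
    rw [this]
  have hτ2 : ∀ q : Fin L, (¬∃ j, j < tok.length ∧ ε j = q.val) → τ q = Sum.inr e := by
    intro q hq
    simp only [τ]
    rw [dif_neg hq]
  have hcard : ∀ Q : P ⊕ Λ → Bool, Q (Sum.inr e) = false →
      (univ.filter (fun q => Q (τ q) = true)).card = tok.countP Q := by
    intro Q hQ
    rw [← card_filter_getD tok (Sum.inr e) Q]
    symm
    refine card_bij (fun j hj => (⟨ε j, hεL j (mem_range.mp (mem_filter.mp hj).1)⟩ : Fin L))
      ?_ ?_ ?_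
    · intro j hj
      have hj1 := mem_range.mp (mem_filter.mp hj).1
      simp only [mem_filter, mem_univ, true_and]
      rw [hτ1 j hj1]
      exact (mem_filter.mp hj).2
    · intro j hj j' hj' hjj
      exact hε.injective (Fin.mk.inj_iff.mp hjj)
    · intro q hq
      have hq' : Q (τ q) = true := (mem_filter.mp hq).2
      by_cases hex : ∃ j, j < tok.length ∧ ε j = q.val
      · obtain ⟨j, hj, hjq⟩ := hex
        have hqe : q = ⟨ε j, hεL j hj⟩ := Fin.ext hjq.symm
        refine ⟨j, mem_filter.mpr ⟨mem_range.mpr hj, ?_⟩, hqe.symm⟩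
        have := hτ1 j hj
        rw [← hqe] at this
        rw [this] at hq'
        exact hq'
      · rw [hτ2 q hex, hQ] at hq'
        exact absurd hq' (by simp)
  have hlabels : ∀ p, (univ.filter (fun q => τ q = Sum.inl p)).card = M' * R := by
    intro p
    have h1 := hcard (fun t => decide (t = Sum.inl p)) (by simp)
    simp only [decide_eq_true_eq] at h1
    rw [h1, hcountP]
    have h2 : ∀ t : C ⊕ Θ, (gt t).countP (fun t => decide (t = Sum.inl p)) =
        ∑ s, if t = Sum.inl s then (σ s).count p else 0 := by
      intro t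
      rcases t with s | θ
      · simp only [gt, Sum.elim_inl, Sum.inl.injEq]
        rw [sum_ite_eq]
        simp only [mem_univ, if_true, List.countP_map, List.count, Function.comp_def]
        congr 1
        funext x
        simp only [Sum.inl.injEq, beq_eq_decide]
      · simp only [gt, Sum.elim_inr, reduceCtorEq, if_false, sum_const_zero]
        rw [List.countP_eq_zero]
        intro x hx
        obtain ⟨b, -, rfl⟩ := List.mem_map.mp hx
        simp
    simp only [h2]
    rw [sum_comm, ← hR p, mul_sum]
    refine sum_congr rfl fun s _ => ?_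
    rw [← sum_filter, sum_const, hlab s, smul_eq_mul]
  have hne : ∀ i, (univ.filter (fun q => hostWord (W i) τ q ≠ e)).card = a := by
    intro i
    have h1 := hcard (fun t => decide (ev i t ≠ e)) (by simp [ev])
    simp only [decide_eq_true_eq] at h1
    have h2 : tok.countP (fun t => decide (ev i t ≠ e)) = (flat (y i)).length := by
      rw [hflat, ← List.countP_eq_length_filter, List.countP_map]
      rfl
    rw [h2, hflatlen] at h1
    exact h1
  have hcount : ∀ i l, (univ.filter (fun q => hostWord (W i) τ q = l)).card =
      if l = e then L - a else ∑ θ, K' θ * (fl θ).count l := by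
    intro i l
    split_ifs with hl
    · subst hl
      have h1 := card_filter_add_card_filter_not (s := (univ : Finset (Fin L)))
        (fun q => hostWord (W i) τ q = l)
      simp only [card_univ, Fintype.card_fin] at h1
      have h2 := hne i
      simp only [ne_eq] at h2
      omega
    · have h1 := hcard (fun t => decide (ev i t = l)) (by
        simp only [ev, Sum.elim_inr, id_eq]
        exact decide_eq_false (fun h : e = l => hl h.symm))
      simp only [decide_eq_true_eq] at h1
      have h2 : tok.countP (fun t => decide (ev i t = l)) = (flat (y i)).count l := by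
        rw [hflat, List.count_filter (by simpa using hl), List.count, List.countP_map]
        congr 1
      rw [h2] at h1
      have h3 : (flat (y i)).count l = ∑ q, (fl (y i q)).count l := by
        simp only [flat]
        rw [List.count_flatMap, List.map_ofFn, List.sum_ofFn]
        rfl
      rw [h3, sum_fiber_count (y i) K' (hcont i) (fun θ => (fl θ).count l)] at h1
      exact h1
  refine ⟨τ, hlabels, hcount, k, fun i => ?_⟩
  -- the colour
  let lst : List Λ := tok.map (ev i)
  have hlstD : ∀ j, lst.getD j e = ev i (tokF j) := by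
    intro j
    simp only [lst, tokF]
    rcases Nat.lt_or_ge j tok.length with hj | hj
    · simp [List.getD_eq_getElem?_getD, List.getElem?_map, hj]
    · simp [List.getD_eq_getElem?_getD, List.getElem?_map, hj, ev]
  let U : Finset ℕ := (range tok.length).filter (fun j => ev i (tokF j) ≠ e)
  have hU : (range lst.length).filter (fun j => (decide (lst.getD j e ≠ e) : Bool) = true) = U := by
    ext j
    simp only [mem_filter, mem_range, decide_eq_true_eq, U, hlstD, lst, List.length_map]
  have hUcard : U.card = a := by
    rw [← hU, card_filter_getD lst e (fun x => decide (x ≠ e)), List.countP_eq_length_filter]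
    have := hflatlen i
    rw [hflat] at this
    exact this
  have hUsub : U ⊆ range Nmax := by
    intro j hj
    have := mem_range.mp (mem_filter.mp hj).1
    exact mem_range.mpr (lt_of_lt_of_le this hNt)
  have hgU := hg U hUsub hUcard
  have hword : hostWord (W i) τ = mkW e L (U.image ε) (strOf (flat (y i))) := by
    funext q
    simp only [mkW]
    by_cases hex : ∃ j, j < tok.length ∧ ε j = q.val
    · obtain ⟨j, hj, hjq⟩ := hex
      have hqe : q = ⟨ε j, hεL j hj⟩ := Fin.ext hjq.symm
      have hq1 : τ q = tokF j := by rw [hqe, hτ1 j hj]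
      have hv : hostWord (W i) τ q = ev i (tokF j) := by
        simp only [hostWord, hq1, ev]
      rw [hv, ← hjq]
      by_cases hjU : j ∈ U
      · rw [if_pos (mem_image_of_mem ε hjU), rk_image hε]
        have hrk : rk U j < a := by
          rw [← hUcard]
          refine card_lt_card ⟨fun z hz => (mem_filter.mp hz).1, fun h => ?_⟩
          have := h hjU
          simp at this
        rw [dif_pos hrk]
        simp only [strOf]
        rw [hflat]
        have hQ : (decide (lst.getD j e ≠ e) : Bool) = true := by
          rw [hlstD]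
          simpa using (mem_filter.mp hjU).2
        have := getD_filter_rk lst e (fun x => decide (x ≠ e)) j (by simpa [lst] using hj) hQ
        rw [hU, hlstD] at this
        exact this.symm
      · have hmem : ε j ∉ U.image ε := by
          rw [hε.injective.mem_finset_image]
          exact hjU
        rw [if_neg hmem]
        by_contra hce
        exact hjU (mem_filter.mpr ⟨mem_range.mpr hj, hce⟩)
    · have hq1 := hτ2 q hex
      have hv : hostWord (W i) τ q = e := by
        simp only [hostWord, hq1, Sum.elim_inr, id_eq]
      rw [hv]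
      have hmem : q.val ∉ U.image ε := by
        intro h
        obtain ⟨j, hj, hjq⟩ := mem_image.mp h
        exact hex ⟨j, mem_range.mp (mem_filter.mp hj).1, hjq⟩
      rw [if_neg hmem]
  rw [hword]
  have h3 := congrFun hgU (strOf (flat (y i)))
  rw [h3]
  exact hk i

end Reduction

section Euclid

variable {ι P Λ : Type}

/-- Host labellings turn word Ramsey families into monochromatic configurations of points: the
squared distances of the host points are `M` times those of the words, letter by letter. -/
theorem WordRamsey.points [Fintype P] [DecidableEq P] [DecidableEq Λ] (W : ι → P → Λ) {M : ℕ}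
    (h : WordRamsey W M) {d : ℕ} (val : Λ → Fin d → ℝ) (r : ℕ) (hr : 0 < r) :
    ∃ D : ℕ, 1 ≤ D ∧ ∀ c : EuclideanSpace ℝ (Fin D) → Fin r,
      ∃ f : ι → EuclideanSpace ℝ (Fin D),
        (∀ i j, dist (f i) (f j) ^ 2 =
          M * ∑ p, ∑ k, (val (W i p) k - val (W j p) k) ^ 2) ∧ ∃ k, ∀ i, c (f i) = k := by
  classical
  obtain ⟨n, K, hn⟩ := h r hr
  let e : ((Fin n × Fin d) ⊕ Unit) ≃ Fin (n * d + 1) :=
    Fintype.equivFinOfCardEq (by simp [Fintype.card_prod])
  let Pt : (Fin n → Λ) → EuclideanSpace ℝ (Fin (n * d + 1)) := fun z =>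
    WithLp.toLp 2 (fun a => Sum.elim (fun qk : Fin n × Fin d => val (z qk.1) qk.2) (fun _ => 0)
      (e.symm a))
  refine ⟨n * d + 1, by omega, fun c => ?_⟩
  obtain ⟨τ, hlab, -, k, hk⟩ := hn (fun z => c (Pt z))
  refine ⟨fun i => Pt (hostWord (W i) τ), fun i j => ?_, k, hk⟩
  rw [EuclideanSpace.dist_eq, Real.sq_sqrt (Finset.sum_nonneg fun _ _ => sq_nonneg _)]
  simp only [Real.dist_eq, sq_abs, Pt]
  let F : ((Fin n × Fin d) ⊕ Unit) → ℝ := fun t =>
    (Sum.elim (fun qk : Fin n × Fin d => val (hostWord (W i) τ qk.1) qk.2) (fun _ => 0) t -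
      Sum.elim (fun qk : Fin n × Fin d => val (hostWord (W j) τ qk.1) qk.2) (fun _ => 0) t) ^ 2
  have h1 : ∑ a, F (e.symm a) = ∑ t, F t := Equiv.sum_comp e.symm F
  refine h1.trans ?_
  rw [Fintype.sum_sum_type, Fintype.sum_prod_type]
  simp only [F, Sum.elim_inl, Sum.elim_inr, sub_self, ne_eq, OfNat.ofNat_ne_zero, not_false_eq_true,
    zero_pow, sum_const_zero, add_zero]
  let A : P → ℝ := fun p => ∑ k, (val (W i p) k - val (W j p) k) ^ 2
  have h2 : ∀ q, ∑ k, (val (hostWord (W i) τ q) k - val (hostWord (W j) τ q) k) ^ 2 =
      ∑ p, if τ q = Sum.inl p then A p else 0 := by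
    intro q
    rcases hq : τ q with p | b
    · simp only [hostWord, hq, Sum.elim_inl, Sum.inl.injEq]
      rw [sum_ite_eq]
      simp [A]
    · simp [hostWord, hq]
  simp only [h2]
  rw [sum_comm, mul_sum]
  refine sum_congr rfl fun p _ => ?_
  rw [← sum_filter, sum_const, hlab p, nsmul_eq_mul]

end Euclid

section Groups

variable {G : Type} [Group G] [Fintype G] [DecidableEq G]

/-- The orbit family of the word `u` on the group `G`: positions and indices are the elements of
`G`, and the word of `g` is `x ↦ u (g⁻¹ x)`. -/
def orbitFamily {Λ : Type} (u : G → Λ) : G → G → Λ := fun g x => u (g⁻¹ * x)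

/-- The game on words on a group: `GReach u M` says that `u` can be brought to a constant word by
repeated moves: pick a letter `a` and a nonempty list `τ` of elements, and replace `u` by a word
`u'` recording, at `y`, the word `u` read along `y τ` with the letter `a` deleted. -/
inductive GReach : {L : ℕ} → (G → Fin L) → ℕ → Prop
  | const {L : ℕ} (u : G → Fin L) (hc : ∀ x y, u x = u y) : GReach u 1
  | step {L L' : ℕ} (u : G → Fin L) (a : Fin L) (τ : List G) (hτ : τ ≠ []) (u' : G → Fin L')
      (fl : Fin L' → List (Fin L)) (hfl : ∀ θ, a ∉ fl θ)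
      (hu' : ∀ y, fl (u' y) = (τ.map (fun t => u (y * t))).filter (· ≠ a)) {M : ℕ}
      (h : GReach u' M) : GReach u (M * τ.length)

theorem GReach.pos {L : ℕ} {u : G → Fin L} {M : ℕ} (h : GReach u M) : 0 < M := by
  induction h with
  | const u hc => exact Nat.one_pos
  | step u a τ hτ u' fl hfl hu' h ih =>
    exact Nat.mul_pos ih (List.length_pos_iff.mpr hτ)

theorem sum_count_translate (τ : List G) (p : G) :
    ∑ x : G, (τ.map (fun t => x * t)).count p = τ.length := by
  induction τ with
  | nil => simp
  | cons t τ ih =>
    simp only [List.map_cons, List.count_cons, sum_add_distrib, ih, List.length_cons]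
    congr 1
    rw [sum_congr rfl (g := fun x => if x = p * t⁻¹ then 1 else 0)]
    · simp
    · intro x _
      by_cases hx : x = p * t⁻¹
      · simp [hx]
      · have : ¬ (x * t = p) := fun h => hx (by rw [← h]; simp)
        simp [hx, this]

/-- Moves of the game are instances of the cell reduction. -/
theorem GReach.wordRamsey {L : ℕ} {u : G → Fin L} {M : ℕ} (h : GReach u M) :
    WordRamsey (orbitFamily u) M := by
  induction h with
  | @const L u hc =>
    refine WordRamsey.const _ (orbitFamily u 1) fun i => ?_
    funext x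
    exact hc _ _
  | @step L L' u a τ hτ u' fl hfl hu' M h ih =>
    haveI : Nonempty G := ⟨1⟩
    refine WordRamsey.of_cells (orbitFamily u) a (C := G) (Θ := Fin L')
      (fun x => τ.map (fun t => x * t)) τ.length (fun p => sum_count_translate τ p) fl hfl
      (orbitFamily u') (fun g x => ?_) ih
    simp only [orbitFamily]
    rw [hu', List.map_map]
    congr 1
    apply List.map_congr_left
    intro t _
    simp [orbitFamily, mul_assoc]

/-- If the injective word `u` on `G` reaches a constant word, then every family of points indexed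
by `G` whose distances are invariant under left translation is a Ramsey family. -/
theorem GReach.isRamseyFamily {L : ℕ} {u : G → Fin L} {M : ℕ} (h : GReach u M)
    (hu : Function.Injective u) {d : ℕ} (x : G → EuclideanSpace ℝ (Fin d))
    (hinv : ∀ g a b, dist (x (g * a)) (x (g * b)) = dist (x a) (x b)) :
    IsRamseyFamily x := by
  classical
  intro r hr
  have hM := h.pos
  have hWR := h.wordRamsey
  have hcardpos : 0 < Fintype.card G := Fintype.card_pos
  let s : ℝ := Real.sqrt (1 / (M * Fintype.card G))
  have hs : s ^ 2 = 1 / (M * Fintype.card G) := Real.sq_sqrt (by positivity)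
  let dec : Fin L → G := Function.invFun u
  have hdec : ∀ y, dec (u y) = y := Function.leftInverse_invFun hu
  let val : Fin L → Fin d → ℝ := fun l k => s * (x (dec l)⁻¹) k
  obtain ⟨D, hD, hc⟩ := WordRamsey.points _ hWR val r (by omega)
  refine ⟨D, hD, fun c => ?_⟩
  obtain ⟨f, hf, k, hk⟩ := hc c
  refine ⟨f, fun g g' => ?_, k, hk⟩
  have h1 : ∀ p : G, ∑ k, (val (orbitFamily u g p) k - val (orbitFamily u g' p) k) ^ 2 =
      s ^ 2 * dist (x g) (x g') ^ 2 := by
    intro p
    have hinv' := hinv p⁻¹ g g'
    rw [← hinv', EuclideanSpace.dist_eq, Real.sq_sqrt (Finset.sum_nonneg fun _ _ => sq_nonneg _),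
      mul_sum]
    refine sum_congr rfl fun k _ => ?_
    simp only [val, orbitFamily, hdec, Real.dist_eq, sq_abs, mul_inv_rev, inv_inv]
    ring
  have h2 := hf g g'
  simp only [h1, sum_const, card_univ, nsmul_eq_mul] at h2
  have h3 : dist (f g) (f g') ^ 2 = dist (x g) (x g') ^ 2 := by
    rw [h2, hs]
    have hM' : (M : ℝ) ≠ 0 := by positivity
    have hG' : (Fintype.card G : ℝ) ≠ 0 := by positivity
    field_simp
  have h4 := (pow_left_inj₀ dist_nonneg dist_nonneg (two_ne_zero)).mp h3
  exact h4

end Groups

section Arrangements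

variable {G : Type} [Group G] [Fintype G] [DecidableEq G]

/-- Two-letter words: read the whole group with one letter deleted. -/
theorem GReach.binary (u : G → Fin 2) : GReach u (1 * (univ : Finset G).toList.length) := by
  classical
  let m : ℕ := (univ.filter (fun x => u x ≠ 0)).card
  have hτ : (univ : Finset G).toList ≠ [] := by
    intro h
    have : (1 : G) ∈ (univ : Finset G).toList := by simp
    rw [h] at this
    simp at this
  refine GReach.step u 0 (univ : Finset G).toList hτ (fun _ : G => (0 : Fin 1))
    (fun _ => List.replicate m (1 : Fin 2)) ?_ ?_ (GReach.const _ fun _ _ => rfl)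
  · intro θ h
    have := List.eq_of_mem_replicate h
    exact absurd this (by decide)
  · intro y
    symm
    rw [List.eq_replicate_iff]
    constructor
    · rw [← List.countP_eq_length_filter, List.countP_map]
      have h1 : ∀ l : List G, l.Nodup → l.countP ((fun x : Fin 2 => decide (x ≠ 0)) ∘ fun t => u (y * t))
          = (l.toFinset.filter (fun t => u (y * t) ≠ 0)).card := by
        intro l hl
        induction l with
        | nil => simp
        | cons z zs ih =>
          have hz : z ∉ zs := (List.nodup_cons.mp hl).1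
          rw [List.countP_cons, ih (List.nodup_cons.mp hl).2, List.toFinset_cons, filter_insert]
          by_cases hc : u (y * z) ≠ 0
          · have hnot : z ∉ zs.toFinset.filter (fun t => u (y * t) ≠ 0) := by
              simp [hz]
            simp [hc, card_insert_of_notMem hnot]
          · simp [hc]
      rw [h1 _ (Finset.nodup_toList _), Finset.toList_toFinset]
      simp only [m]
      refine card_bij (fun t _ => y * t) ?_ ?_ ?_
      · intro t ht
        simpa using ht
      · intro a _ b _ hab
        exact mul_left_cancel hab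
      · intro x hx
        exact ⟨y⁻¹ * x, by simpa using hx, by simp⟩
    · intro b hb
      have hb' := (List.mem_filter.mp hb).2
      have : b ≠ 0 := by simpa using hb'
      omega

end Arrangements

section Rearrange

variable {N : ℕ}

/-- Reading an order backwards. -/
theorem ofFn_rev {α : Type} (s : Fin N → α) :
    List.ofFn (fun i => s (Fin.rev i)) = (List.ofFn s).reverse := by
  apply List.ext_getElem
  · simp
  · intro i h1 h2
    simp only [List.getElem_ofFn, List.getElem_reverse, List.length_ofFn]
    congr 1
    apply Fin.ext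
    simp only [Fin.val_rev]
    omega

/-- The word `w₀` read along the order `y`, with the letter `2` deleted. -/
def readOrder (w₀ : Fin N → Fin 3) (y : Equiv.Perm (Fin N)) : List (Fin 3) :=
  ((List.ofFn y).map w₀).filter (· ≠ 2)

theorem readOrder_rev (w₀ : Fin N → Fin 3) (y : Equiv.Perm (Fin N)) :
    readOrder w₀ (y * Fin.revPerm) = (readOrder w₀ y).reverse := by
  have h : List.ofFn (y * Fin.revPerm : Equiv.Perm (Fin N)) = (List.ofFn y).reverse := by
    rw [← ofFn_rev]
    rfl
  simp only [readOrder, h, List.map_reverse, List.filter_reverse]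

theorem countP_ofFn {α : Type} {n : ℕ} (f : Fin n → α) (Q : α → Bool) :
    (List.ofFn f).countP Q = (univ.filter (fun i => Q (f i) = true)).card := by
  induction n with
  | zero => simp
  | succ n ih =>
    rw [List.ofFn_succ, List.countP_cons, ih, card_filter, card_filter, Fin.sum_univ_succ]
    omega

theorem readOrder_count (w₀ : Fin N → Fin 3) (y : Equiv.Perm (Fin N)) (l : Fin 3) (hl : l ≠ 2) :
    (readOrder w₀ y).count l = (univ.filter (fun p => w₀ p = l)).card := by
  simp only [readOrder]
  rw [List.count_filter (by simpa using hl), List.map_ofFn, List.count, countP_ofFn]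
  refine card_bij (fun i _ => y i) ?_ ?_ ?_
  · intro i hi
    simpa using hi
  · intro a _ b _ hab
    exact y.injective hab
  · intro p hp
    refine ⟨y.symm p, ?_, by simp⟩
    simpa using hp

theorem readOrder_two (w₀ : Fin N → Fin 3) (y : Equiv.Perm (Fin N)) :
    (readOrder w₀ y).count 2 = 0 := by
  simp only [readOrder]
  rw [List.count_eq_zero]
  intro h
  simpa using (List.mem_filter.mp h).2

/-- The strings of the words of content `(1, 2, *)`. -/
def fl12 : Fin 3 → List (Fin 3) := ![[0, 1, 1], [1, 0, 1], [1, 1, 0]]

/-- The strings of the words of content `(1, 3, *)`. -/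
def fl13 : Fin 4 → List (Fin 3) := ![[0, 1, 1, 1], [1, 0, 1, 1], [1, 1, 0, 1], [1, 1, 1, 0]]

/-- The strings of the words of content `(1, 1, *)`. -/
def fl11 : Fin 2 → List (Fin 3) := ![[0, 1], [1, 0]]

theorem length_eq_counts (l : List (Fin 3)) : l.length = l.count 0 + l.count 1 + l.count 2 := by
  induction l with
  | nil => simp
  | cons x xs ih =>
    fin_cases x <;> simp [List.count_cons, ih] <;> omega

theorem list_form2 (l : List (Fin 3)) (h0 : l.count 0 = 1) (h1 : l.count 1 = 1)
    (h2 : l.count 2 = 0) : ∃ r, fl11 r = l := by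
  have hlen : l.length = 2 := by rw [length_eq_counts]; omega
  match l, hlen with
  | [a, b], _ =>
    revert a b
    decide

theorem list_form3 (l : List (Fin 3)) (h0 : l.count 0 = 1) (h1 : l.count 1 = 2)
    (h2 : l.count 2 = 0) : ∃ r, fl12 r = l := by
  have hlen : l.length = 3 := by rw [length_eq_counts]; omega
  match l, hlen with
  | [a, b, c], _ =>
    revert a b c
    decide

theorem list_form4 (l : List (Fin 3)) (h0 : l.count 0 = 1) (h1 : l.count 1 = 3)
    (h2 : l.count 2 = 0) : ∃ r, fl13 r = l := by
  have hlen : l.length = 4 := by rw [length_eq_counts]; omega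
  match l, hlen with
  | [a, b, c, d], _ =>
    revert a b c d
    decide

/-- From the group game to the family of all rearrangements of a word. -/
theorem rearrangement_wordRamsey (w₀ : Fin N → Fin 3) {L : ℕ} (r : Equiv.Perm (Fin N) → Fin L)
    (fl : Fin L → List (Fin 3)) (hfl : ∀ θ, (2 : Fin 3) ∉ fl θ)
    (hr : ∀ y, fl (r y) = readOrder w₀ y) {M : ℕ} (h : GReach r M) :
    WordRamsey (fun π : Equiv.Perm (Fin N) => w₀ ∘ ⇑π⁻¹) (M * Fintype.card (Equiv.Perm (Fin N))) := by
  classical
  refine WordRamsey.of_cells (fun π : Equiv.Perm (Fin N) => w₀ ∘ ⇑π⁻¹) (2 : Fin 3)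
    (C := Equiv.Perm (Fin N)) (Θ := Fin L) (fun s => List.ofFn s) _ (fun p => ?_) fl hfl
    (orbitFamily r) (fun π s => ?_) h.wordRamsey
  · have h1 : ∀ s : Equiv.Perm (Fin N), (List.ofFn s).count p = 1 := by
      intro s
      apply List.count_eq_one_of_mem (List.nodup_ofFn.mpr s.injective)
      rw [List.mem_ofFn]
      exact ⟨s.symm p, by simp⟩
    simp only [h1]
    simp
  · simp only [orbitFamily]
    rw [hr]
    simp only [readOrder, List.map_ofFn]
    rfl

/-- Word Ramsey rearrangement families give Ramsey sets. -/
theorem rearrangement_ramsey (w₀ : Fin N → Fin 3) (v : Fin 3 → ℝ) {M : ℕ} (hM : 0 < M)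
    (h : WordRamsey (fun π : Equiv.Perm (Fin N) => w₀ ∘ ⇑π⁻¹) M) :
    IsRamsey (Set.range fun π : Equiv.Perm (Fin N) => wordPoint v (w₀ ∘ π)) := by
  classical
  have hfam : IsRamseyFamily (fun π : Equiv.Perm (Fin N) => wordPoint v (w₀ ∘ ⇑π⁻¹)) := by
    intro r hr
    let s : ℝ := Real.sqrt (1 / M)
    have hs : s ^ 2 = 1 / M := Real.sq_sqrt (by positivity)
    let val : Fin 3 → Fin 1 → ℝ := fun l _ => s * v l
    obtain ⟨D, hD, hc⟩ := WordRamsey.points _ h val r (by omega)
    refine ⟨D, hD, fun c => ?_⟩
    obtain ⟨f, hf, k, hk⟩ := hc c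
    refine ⟨f, fun i j => ?_, k, hk⟩
    have h2 := hf i j
    have h3 : dist (wordPoint v (w₀ ∘ ⇑i⁻¹)) (wordPoint v (w₀ ∘ ⇑j⁻¹)) ^ 2 =
        ∑ p, (v (w₀ (i⁻¹ p)) - v (w₀ (j⁻¹ p))) ^ 2 := by
      rw [EuclideanSpace.dist_eq, Real.sq_sqrt (Finset.sum_nonneg fun _ _ => sq_nonneg _)]
      simp [wordPoint, Real.dist_eq, sq_abs]
    have h4 : dist (f i) (f j) ^ 2 =
        dist (wordPoint v (w₀ ∘ ⇑i⁻¹)) (wordPoint v (w₀ ∘ ⇑j⁻¹)) ^ 2 := by
      rw [h2, h3, mul_sum]
      refine sum_congr rfl fun p _ => ?_
      simp only [val, Fin.sum_univ_one, Function.comp_apply]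
      have hM' : (M : ℝ) ≠ 0 := by positivity
      calc (M : ℝ) * (s * v (w₀ (i⁻¹ p)) - s * v (w₀ (j⁻¹ p))) ^ 2
          = M * s ^ 2 * (v (w₀ (i⁻¹ p)) - v (w₀ (j⁻¹ p))) ^ 2 := by ring
        _ = _ := by rw [hs]; field_simp
    exact (pow_left_inj₀ dist_nonneg dist_nonneg two_ne_zero).mp h4
  have hrange := IsRamseyFamily.range (IsRamseyFamily.comp hfam (fun π : Equiv.Perm (Fin N) => π⁻¹))
  convert hrange using 2
  funext π
  simp

/-- The words of content `(1, 1, *)`. -/
theorem reach_11 (w₀ : Fin N → Fin 3) (h0 : (univ.filter (fun p => w₀ p = 0)).card = 1)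
    (h1 : (univ.filter (fun p => w₀ p = 1)).card = 1) :
    ∃ M, 0 < M ∧ WordRamsey (fun π : Equiv.Perm (Fin N) => w₀ ∘ ⇑π⁻¹) M := by
  classical
  have hex : ∀ y, ∃ r, fl11 r = readOrder w₀ y := fun y =>
    list_form2 _ (by rw [readOrder_count _ _ _ (by decide), h0])
      (by rw [readOrder_count _ _ _ (by decide), h1]) (readOrder_two _ _)
  choose r hr using hex
  have hG := GReach.binary r
  exact ⟨_, Nat.mul_pos hG.pos (Fintype.card_pos),
    rearrangement_wordRamsey w₀ r fl11 (by decide) hr hG⟩

/-- The words of content `(1, 2, *)`. -/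
theorem reach_12 (w₀ : Fin N → Fin 3) (h0 : (univ.filter (fun p => w₀ p = 0)).card = 1)
    (h1 : (univ.filter (fun p => w₀ p = 1)).card = 2) :
    ∃ M, 0 < M ∧ WordRamsey (fun π : Equiv.Perm (Fin N) => w₀ ∘ ⇑π⁻¹) M := by
  classical
  have hex : ∀ y, ∃ r, fl12 r = readOrder w₀ y := fun y =>
    list_form3 _ (by rw [readOrder_count _ _ _ (by decide), h0])
      (by rw [readOrder_count _ _ _ (by decide), h1]) (readOrder_two _ _)
  choose r hr using hex
  have hrel : ∀ y, fl12 (r (y * Fin.revPerm)) = (fl12 (r y)).reverse := by
    intro y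
    rw [hr, hr, readOrder_rev]
  have hdec : ∀ a b : Fin 3, fl12 b = (fl12 a).reverse →
      (![([2] : List (Fin 3)), [1, 1]] (if a = 1 then 1 else 0) =
        ([a, b] : List (Fin 3)).filter (· ≠ 0)) := by decide
  let r₂ : Equiv.Perm (Fin N) → Fin 2 := fun y => if r y = 1 then 1 else 0
  have hstep : GReach r ((1 * (univ : Finset (Equiv.Perm (Fin N))).toList.length) *
      ([1, Fin.revPerm] : List (Equiv.Perm (Fin N))).length) := by
    refine GReach.step r 0 [1, Fin.revPerm] (by simp) r₂ ![[2], [1, 1]] (by decide) (fun y => ?_)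
      (GReach.binary r₂)
    have := hdec (r y) (r (y * Fin.revPerm)) (hrel y)
    simpa [r₂] using this
  exact ⟨_, Nat.mul_pos hstep.pos Fintype.card_pos,
    rearrangement_wordRamsey w₀ r fl12 (by decide) hr hstep⟩

/-- The words of content `(1, 3, *)`. -/
theorem reach_13 (w₀ : Fin N → Fin 3) (h0 : (univ.filter (fun p => w₀ p = 0)).card = 1)
    (h1 : (univ.filter (fun p => w₀ p = 1)).card = 3) :
    ∃ M, 0 < M ∧ WordRamsey (fun π : Equiv.Perm (Fin N) => w₀ ∘ ⇑π⁻¹) M := by
  classical
  have hex : ∀ y, ∃ r, fl13 r = readOrder w₀ y := fun y =>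
    list_form4 _ (by rw [readOrder_count _ _ _ (by decide), h0])
      (by rw [readOrder_count _ _ _ (by decide), h1]) (readOrder_two _ _)
  choose r hr using hex
  have hrel : ∀ y, fl13 (r (y * Fin.revPerm)) = (fl13 (r y)).reverse := by
    intro y
    rw [hr, hr, readOrder_rev]
  let c₂ : Fin 4 → Fin 3 := ![0, 1, 2, 0]
  let c₃ : Fin 3 → Fin 2 := ![0, 1, 1]
  have hdec : ∀ a b : Fin 4, fl13 b = (fl13 a).reverse →
      ((![([3] : List (Fin 4)), [1, 2], [2, 1]] (c₂ a) = ([a, b] : List (Fin 4)).filter (· ≠ 0)) ∧
       (![([0, 0] : List (Fin 3)), [2]] (c₃ (c₂ a)) =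
          ([c₂ a, c₂ b] : List (Fin 3)).filter (· ≠ 1))) := by decide
  let r₂ : Equiv.Perm (Fin N) → Fin 3 := fun y => c₂ (r y)
  let r₃ : Equiv.Perm (Fin N) → Fin 2 := fun y => c₃ (r₂ y)
  have hstep3 : GReach r₂ ((1 * (univ : Finset (Equiv.Perm (Fin N))).toList.length) *
      ([1, Fin.revPerm] : List (Equiv.Perm (Fin N))).length) := by
    refine GReach.step r₂ 1 [1, Fin.revPerm] (by simp) r₃ ![[0, 0], [2]] (by decide) (fun y => ?_)
      (GReach.binary r₃)
    have := (hdec (r y) (r (y * Fin.revPerm)) (hrel y)).2
    simpa [r₃, r₂] using this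
  have hstep : GReach r (((1 * (univ : Finset (Equiv.Perm (Fin N))).toList.length) *
      ([1, Fin.revPerm] : List (Equiv.Perm (Fin N))).length) *
      ([1, Fin.revPerm] : List (Equiv.Perm (Fin N))).length) := by
    refine GReach.step r 0 [1, Fin.revPerm] (by simp) r₂ ![[3], [1, 2], [2, 1]] (by decide)
      (fun y => ?_) hstep3
    have := (hdec (r y) (r (y * Fin.revPerm)) (hrel y)).1
    simpa [r₂] using this
  exact ⟨_, Nat.mul_pos hstep.pos Fintype.card_pos,
    rearrangement_wordRamsey w₀ r fl13 (by decide) hr hstep⟩

end Rearrange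

end Vale.Agent.Lib.P058
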