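import Mathlib
import Vale.Agent.Lib.P058.Defs

/-!
# A spherical set which is not Ramsey

For a transcendental real `t` there is an additive map `Δ : ℝ → ℝ` with `Δ (t s) = t Δ s + s`.
With it we colour `ℝ^D` by the integer part of `∑ (Δ y_q)^2` modulo `64`.
-/

open Polynomial Module

namespace Vale.Agent.Lib.P058

section Weyl

variable (t : ℝ)

/-- `ℝ` as a module over `ℚ[X]`, with `X` acting as multiplication by `t`. -/
abbrev QM : Type := AEval ℚ ℝ t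

/-- The map `(r, s) ↦ (t r + s, t s)` of `ℝ × ℝ`. -/
noncomputable def weylMap : (ℝ × ℝ) →ₗ[ℚ] (ℝ × ℝ) where
  toFun x := (t * x.1 + x.2, t * x.2)
  map_add' x y := by
    ext <;> simp <;> ring
  map_smul' c x := by
    ext <;> simp [Rat.smul_def] <;> ring

/-- `ℝ × ℝ` as a module over `ℚ[X]`, with `X` acting by `weylMap`. -/
abbrev NM : Type := AEval' (weylMap t)

variable {t}

/-- A nonzero polynomial acts invertibly, so `ℝ` is an injective `ℚ[X]`-module. -/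
theorem baer_QM (ht : Transcendental ℚ t) : Module.Baer ℚ[X] (QM t) := by
  classical
  intro I g
  obtain ⟨p, hI⟩ := (IsPrincipalIdealRing.principal I).principal
  subst hI
  have hp : p ∈ Submodule.span ℚ[X] {p} := Submodule.mem_span_singleton_self p
  by_cases hp0 : p = 0
  · refine ⟨0, fun x hx => ?_⟩
    have hx0 : x = 0 := by
      obtain ⟨q, rfl⟩ := Submodule.mem_span_singleton.mp hx
      simp [hp0]
    subst hx0
    have : (⟨0, hx⟩ : Submodule.span ℚ[X] {p}) = 0 := rfl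
    rw [this, map_zero, map_zero]
  · have ha : (aeval t p : ℝ) ≠ 0 := fun h => hp0 ((transcendental_iff.mp ht) p h)
    let v : ℝ := (AEval.of ℚ ℝ t).symm (g ⟨p, hp⟩)
    refine ⟨LinearMap.toSpanSingleton ℚ[X] (QM t) (AEval.of ℚ ℝ t (v / aeval t p)), fun x hx => ?_⟩
    obtain ⟨q, rfl⟩ := Submodule.mem_span_singleton.mp hx
    have h1 : (⟨q • p, hx⟩ : Submodule.span ℚ[X] {p}) = q • ⟨p, hp⟩ := rfl
    rw [h1, map_smul, map_smul, LinearMap.toSpanSingleton_apply]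
    have h2 : g ⟨p, hp⟩ = AEval.of ℚ ℝ t v := by simp [v]
    have h3 : p • AEval.of ℚ ℝ t (v / aeval t p) = AEval.of ℚ ℝ t v := by
      rw [← AEval.of_aeval_smul]
      congr 1
      simp only [smul_eq_mul]
      field_simp
    rw [h2, h3]

/-- **The twisted derivation.**  For transcendental `t` there is an additive `Δ : ℝ → ℝ` with
`Δ (t s) = t Δ s + s`. -/
theorem exists_delta (ht : Transcendental ℚ t) :
    ∃ Δ : ℝ →+ ℝ, ∀ s, Δ (t * s) = t * Δ s + s := by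
  classical
  let ofN := AEval'.of (weylMap t)
  let f : ℝ →ₗ[ℚ] NM t :=
    { toFun := fun r => ofN (r, 0)
      map_add' := fun x y => by
        rw [← map_add]
        simp
      map_smul' := fun c x => by
        simp only [RingHom.id_apply]
        rw [← map_smul]
        simp }
  have hf : ∀ m : ℝ, f (t • m) = (X : ℚ[X]) • f m := by
    intro m
    change ofN (t • m, 0) = (X : ℚ[X]) • ofN (m, 0)
    rw [AEval'.X_smul_of]
    congr 1
    simp [weylMap]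
  let i : QM t →ₗ[ℚ[X]] NM t := LinearMap.ofAEval t f hf
  have hi : ∀ r : ℝ, i (AEval.of ℚ ℝ t r) = ofN (r, 0) := fun r => by
    simp [i, LinearMap.ofAEval, f]
  have hinj : Function.Injective i := by
    intro x y hxy
    have hx : x = AEval.of ℚ ℝ t ((AEval.of ℚ ℝ t).symm x) := by simp
    have hy : y = AEval.of ℚ ℝ t ((AEval.of ℚ ℝ t).symm y) := by simp
    rw [hx, hy, hi, hi] at hxy
    have h2 := ofN.injective hxy
    have h3 : (AEval.of ℚ ℝ t).symm x = (AEval.of ℚ ℝ t).symm y := congrArg Prod.fst h2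
    exact (AEval.of ℚ ℝ t).symm.injective h3
  obtain ⟨π, hπ⟩ := (baer_QM ht).extension_property i hinj LinearMap.id
  let G : ℝ × ℝ → ℝ := fun x => (AEval.of ℚ ℝ t).symm (π (ofN x))
  have Gadd : ∀ x y, G (x + y) = G x + G y := by
    intro x y
    simp only [G]
    rw [map_add, map_add, map_add]
  have G1 : ∀ r, G (r, 0) = r := by
    intro r
    have := congrArg (fun l => l (AEval.of ℚ ℝ t r)) hπ
    simp only [LinearMap.comp_apply, LinearMap.id_apply, hi] at this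
    simp only [G]
    rw [this]
    simp
  have G2 : ∀ s, G (s, t * s) = t * G (0, s) := by
    intro s
    have h1 : ofN (s, t * s) = (X : ℚ[X]) • ofN (0, s) := by
      rw [AEval'.X_smul_of]
      congr 1
      simp [weylMap]
    simp only [G]
    rw [h1, map_smul]
    have h2 : π (ofN (0, s)) =
        AEval.of ℚ ℝ t ((AEval.of ℚ ℝ t).symm (π (ofN (0, s)))) := by simp
    rw [h2, AEval.X_smul_of]
    simp
  let Δ : ℝ →+ ℝ :=
    { toFun := fun s => - G (0, s)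
      map_zero' := by
        have := Gadd 0 0
        simp only [add_zero] at this
        have h0 : G 0 = 0 := by linarith
        have : ((0 : ℝ), (0 : ℝ)) = 0 := rfl
        rw [this, h0, neg_zero]
      map_add' := fun x y => by
        have := Gadd (0, x) (0, y)
        have h3 : ((0 : ℝ), x) + (0, y) = (0, x + y) := by simp
        rw [h3] at this
        rw [this]
        ring }
  refine ⟨Δ, fun s => ?_⟩
  change - G (0, t * s) = t * (- G (0, s)) + s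
  have h4 := Gadd (s, 0) (0, t * s)
  have h5 : (s, (0 : ℝ)) + (0, t * s) = (s, t * s) := by simp
  rw [h5, G2, G1] at h4
  linarith

end Weyl

section Geometry

open Finset

/-- Euclidean space of dimension `D`. -/
abbrev E (D : ℕ) : Type := EuclideanSpace ℝ (Fin D)

/-- The point `(x, y)` of the plane. -/
noncomputable def pt (x y : ℝ) : E 2 := WithLp.toLp 2 ![x, y]

/-- The twelve points `(±(1-t²), ±2t)`, `(±2t, ±(1-t²))`, `(±(1+t²), 0)`, `(0, ±(1+t²))`. -/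
noncomputable def twelve (t : ℝ) : Set (E 2) :=
  { pt (1 - t ^ 2) (2 * t), pt (1 - t ^ 2) (-(2 * t)),
    pt (-(1 - t ^ 2)) (2 * t), pt (-(1 - t ^ 2)) (-(2 * t)),
    pt (2 * t) (1 - t ^ 2), pt (2 * t) (-(1 - t ^ 2)),
    pt (-(2 * t)) (1 - t ^ 2), pt (-(2 * t)) (-(1 - t ^ 2)),
    pt (1 + t ^ 2) 0, pt (-(1 + t ^ 2)) 0, pt 0 (1 + t ^ 2), pt 0 (-(1 + t ^ 2)) }

theorem dist_sq_eq {D : ℕ} (x y : E D) : dist x y ^ 2 = ∑ q, (x q - y q) ^ 2 := by
  rw [EuclideanSpace.dist_eq, Real.sq_sqrt (sum_nonneg fun _ _ => sq_nonneg _)]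
  simp [Real.dist_eq, sq_abs]

theorem dist_pt_sq (a b c d : ℝ) : dist (pt a b) (pt c d) ^ 2 = (a - c) ^ 2 + (b - d) ^ 2 := by
  rw [dist_sq_eq, Fin.sum_univ_two]
  simp [pt]

theorem norm_pt (x y r : ℝ) (hr : 0 ≤ r) (h : x ^ 2 + y ^ 2 = r ^ 2) : ‖pt x y‖ = r := by
  have h1 : ‖pt x y‖ ^ 2 = r ^ 2 := by
    rw [EuclideanSpace.norm_sq_eq, Fin.sum_univ_two, ← h]
    simp [pt, sq_abs]
  exact (pow_left_inj₀ (norm_nonneg _) hr two_ne_zero).mp h1

/-- The squared distance of a point to an affine combination depends only on distances. -/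
theorem norm_combo {V : Type*} [NormedAddCommGroup V] [InnerProductSpace ℝ V] {n : ℕ} (v : V)
    (r : Fin n → V) (lam : Fin n → ℝ) (h : ∑ j, lam j = 1) :
    ‖v - ∑ j, lam j • r j‖ ^ 2 = ∑ j, ∑ l, lam j * lam l *
      ((dist v (r j) ^ 2 + dist v (r l) ^ 2 - dist (r j) (r l) ^ 2) / 2) := by
  have h1 : v - ∑ j, lam j • r j = ∑ j, lam j • (v - r j) := by
    simp only [smul_sub, sum_sub_distrib, ← sum_smul, h, one_smul]
  rw [h1, ← real_inner_self_eq_norm_sq, sum_inner]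
  refine sum_congr rfl fun j _ => ?_
  rw [inner_sum]
  refine sum_congr rfl fun l _ => ?_
  rw [real_inner_smul_left, real_inner_smul_right,
    real_inner_eq_norm_mul_self_add_norm_mul_self_sub_norm_sub_mul_self_div_two]
  have h2 : v - r j - (v - r l) = r l - r j := by abel
  rw [h2, dist_eq_norm, dist_eq_norm, dist_comm (r j) (r l), dist_eq_norm]
  ring

/-- Distance-preserving maps preserve affine dependencies. -/
theorem affine_preserved {d D n : ℕ} (q : Fin n → E d) (p : Fin n → E D) (x : E d) (y : E D)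
    (lam : Fin n → ℝ) (hlam : ∑ j, lam j = 1)
    (hq : ∀ j l, dist (p j) (p l) = dist (q j) (q l)) (hx : ∀ j, dist y (p j) = dist x (q j))
    (hcombo : x = ∑ j, lam j • q j) : y = ∑ j, lam j • p j := by
  have h1 := norm_combo y p lam hlam
  have h2 := norm_combo x q lam hlam
  simp only [hq, hx] at h1
  rw [← h2, ← hcombo, sub_self, norm_zero] at h1
  have h3 : ‖y - ∑ j, lam j • p j‖ = 0 := by
    have : ‖y - ∑ j, lam j • p j‖ ^ 2 = 0 := by rw [h1]; norm_num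
    exact pow_eq_zero_iff (two_ne_zero) |>.mp this
  exact sub_eq_zero.mp (norm_eq_zero.mp h3)

/-- The coordinates of the image of a point. -/
theorem coord_formula {D : ℕ} {A : Set (E 2)} {ρ : ℝ} (hρ : 0 < ρ) (f : E 2 → E D)
    (hf : ∀ a ∈ A, ∀ b ∈ A, dist (f a) (f b) = dist a b)
    (h1 : pt ρ 0 ∈ A) (h2 : pt (-ρ) 0 ∈ A) (h3 : pt 0 ρ ∈ A) (h4 : pt 0 (-ρ) ∈ A)
    (x1 x2 : ℝ) (hx : pt x1 x2 ∈ A) (q : Fin D) :
    f (pt x1 x2) q = (f (pt ρ 0) q + f (pt (-ρ) 0) q) / 2 +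
      x1 * ((f (pt ρ 0) q - f (pt (-ρ) 0) q) / (2 * ρ)) +
      x2 * ((f (pt 0 ρ) q - f (pt 0 (-ρ)) q) / (2 * ρ)) := by
  let Q : Fin 4 → E 2 := ![pt ρ 0, pt (-ρ) 0, pt 0 ρ, pt 0 (-ρ)]
  have hQ : ∀ j, Q j ∈ A := by
    intro j
    fin_cases j
    · exact h1
    · exact h2
    · exact h3
    · exact h4
  let lam : Fin 4 → ℝ := ![1 / 2 + x1 / (2 * ρ), 1 / 2 - x1 / (2 * ρ), x2 / (2 * ρ), -(x2 / (2 * ρ))]
  have hlam : ∑ j, lam j = 1 := by
    rw [Fin.sum_univ_four]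
    simp only [lam, Matrix.cons_val]
    ring
  have hc : pt x1 x2 = ∑ j, lam j • Q j := by
    rw [Fin.sum_univ_four]
    ext i
    fin_cases i
    · simp [lam, Q, pt]
      field_simp
      ring
    · simp [lam, Q, pt]
      field_simp
      ring
  have hy := affine_preserved Q (fun j => f (Q j)) (pt x1 x2) (f (pt x1 x2)) lam hlam
    (fun j l => hf _ (hQ j) _ (hQ l)) (fun j => hf _ hx _ (hQ j)) hc
  rw [hy, Fin.sum_univ_four]
  simp [lam, Q]
  ring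

/-- `Δ` differentiates multiplication by `x` with derivative `x'`. -/
def HasD (Δ : ℝ →+ ℝ) (x x' : ℝ) : Prop := ∀ r, Δ (x * r) = x * Δ r + x' * r

theorem hasD_zero (Δ : ℝ →+ ℝ) : HasD Δ 0 0 := fun r => by simp

theorem HasD.neg {Δ : ℝ →+ ℝ} {x x' : ℝ} (h : HasD Δ x x') : HasD Δ (-x) (-x') := fun r => by
  rw [neg_mul, map_neg, h r]
  ring

theorem hasD_sq {Δ : ℝ →+ ℝ} {t : ℝ} (hΔ : ∀ s, Δ (t * s) = t * Δ s + s) (r : ℝ) :
    Δ (t ^ 2 * r) = t ^ 2 * Δ r + 2 * t * r := by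
  have : t ^ 2 * r = t * (t * r) := by ring
  rw [this, hΔ, hΔ]
  ring

theorem hasD_a {Δ : ℝ →+ ℝ} {t : ℝ} (hΔ : ∀ s, Δ (t * s) = t * Δ s + s) :
    HasD Δ (1 - t ^ 2) (-(2 * t)) := fun r => by
  have : (1 - t ^ 2) * r = r - t ^ 2 * r := by ring
  rw [this, map_sub, hasD_sq hΔ]
  ring

theorem hasD_b {Δ : ℝ →+ ℝ} {t : ℝ} (hΔ : ∀ s, Δ (t * s) = t * Δ s + s) :
    HasD Δ (2 * t) 2 := fun r => by
  have : 2 * t * r = t * r + t * r := by ring
  rw [this, map_add, hΔ]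
  ring

theorem hasD_rho {Δ : ℝ →+ ℝ} {t : ℝ} (hΔ : ∀ s, Δ (t * s) = t * Δ s + s) :
    HasD Δ (1 + t ^ 2) (2 * t) := fun r => by
  have : (1 + t ^ 2) * r = r + t ^ 2 * r := by ring
  rw [this, map_add, hasD_sq hΔ]
  ring

/-- The wild function whose values are coloured: `z y = ∑ (Δ y_q)²`. -/
def zfun {D : ℕ} (Δ : ℝ →+ ℝ) (y : E D) : ℝ := ∑ q, (Δ (y q)) ^ 2

theorem z_formula {D : ℕ} {Δ : ℝ →+ ℝ} {x1 x1' x2 x2' : ℝ} (h1 : HasD Δ x1 x1') (h2 : HasD Δ x2 x2')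
    (y : E D) (τ u v : Fin D → ℝ) (hy : ∀ q, y q = τ q + x1 * u q + x2 * v q) :
    zfun Δ y = ∑ q, (Δ (τ q) + x1 * Δ (u q) + x1' * u q + x2 * Δ (v q) + x2' * v q) ^ 2 := by
  refine sum_congr rfl fun q _ => ?_
  rw [hy, map_add, map_add, h1, h2]
  ring

/-- The colouring. -/
noncomputable def colour {D : ℕ} (Δ : ℝ →+ ℝ) (y : E D) : Fin 64 :=
  ⟨(⌊zfun Δ y⌋ % 64).toNat, by
    have h1 := Int.emod_nonneg ⌊zfun Δ y⌋ (by norm_num : (64 : ℤ) ≠ 0)
    have h2 := Int.emod_lt_of_pos ⌊zfun Δ y⌋ (by norm_num : (0 : ℤ) < 64)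
    omega⟩

theorem colour_eq {D : ℕ} {Δ : ℝ →+ ℝ} {y : E D} {k : Fin 64} (h : colour Δ y = k) :
    ⌊zfun Δ y⌋ % 64 = (k.val : ℤ) := by
  have h0 := congrArg Fin.val h
  simp only [colour] at h0
  have h1 := Int.emod_nonneg ⌊zfun Δ y⌋ (by norm_num : (64 : ℤ) ≠ 0)
  omega

theorem floor_form {z : ℝ} {κ : ℤ} (h : ⌊z⌋ % 64 = κ) :
    ∃ n : ℤ, (64 * n + κ : ℝ) ≤ z ∧ z < 64 * n + κ + 1 := by
  refine ⟨⌊z⌋ / 64, ?_, ?_⟩
  · have h1 : ((64 * (⌊z⌋ / 64) + κ : ℤ) : ℝ) ≤ z := by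
      have : 64 * (⌊z⌋ / 64) + κ = ⌊z⌋ := by
        rw [← h]
        exact Int.mul_ediv_add_emod _ _
      rw [this]
      exact Int.floor_le z
    push_cast at h1
    exact h1
  · have h1 : z < ((64 * (⌊z⌋ / 64) + κ : ℤ) : ℝ) + 1 := by
      have : 64 * (⌊z⌋ / 64) + κ = ⌊z⌋ := by
        rw [← h]
        exact Int.mul_ediv_add_emod _ _
      rw [this]
      exact Int.lt_floor_add_one z
    push_cast at h1
    exact h1

/-- Twelve numbers with the same integer part modulo `64` cannot satisfy the weighted equation. -/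
theorem no_solution (z1 z2 z3 z4 z5 z6 z7 z8 z9 z10 z11 z12 : ℝ) (κ : ℤ)
    (h1 : ⌊z1⌋ % 64 = κ) (h2 : ⌊z2⌋ % 64 = κ) (h3 : ⌊z3⌋ % 64 = κ) (h4 : ⌊z4⌋ % 64 = κ)
    (h5 : ⌊z5⌋ % 64 = κ) (h6 : ⌊z6⌋ % 64 = κ) (h7 : ⌊z7⌋ % 64 = κ) (h8 : ⌊z8⌋ % 64 = κ)
    (h9 : ⌊z9⌋ % 64 = κ) (h10 : ⌊z10⌋ % 64 = κ) (h11 : ⌊z11⌋ % 64 = κ) (h12 : ⌊z12⌋ % 64 = κ)
    (hs : z1 + z2 + z3 + z4 + z5 + z6 + z7 + z8 - 2 * (z9 + z10 + z11 + z12) = 32) : False := by
  obtain ⟨n1, a1, b1⟩ := floor_form h1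
  obtain ⟨n2, a2, b2⟩ := floor_form h2
  obtain ⟨n3, a3, b3⟩ := floor_form h3
  obtain ⟨n4, a4, b4⟩ := floor_form h4
  obtain ⟨n5, a5, b5⟩ := floor_form h5
  obtain ⟨n6, a6, b6⟩ := floor_form h6
  obtain ⟨n7, a7, b7⟩ := floor_form h7
  obtain ⟨n8, a8, b8⟩ := floor_form h8
  obtain ⟨n9, a9, b9⟩ := floor_form h9
  obtain ⟨n10, a10, b10⟩ := floor_form h10
  obtain ⟨n11, a11, b11⟩ := floor_form h11
  obtain ⟨n12, a12, b12⟩ := floor_form h12
  let N : ℤ := n1 + n2 + n3 + n4 + n5 + n6 + n7 + n8 - 2 * (n9 + n10 + n11 + n12)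
  have hN : (N : ℝ) = n1 + n2 + n3 + n4 + n5 + n6 + n7 + n8 - 2 * (n9 + n10 + n11 + n12) := by
    simp [N]
  have l1 : (24 : ℝ) < 64 * N := by
    rw [hN]
    linarith
  have l2 : (64 * N : ℝ) < 40 := by
    rw [hN]
    linarith
  have l1' : (24 : ℤ) < 64 * N := by exact_mod_cast l1
  have l2' : 64 * N < (40 : ℤ) := by exact_mod_cast l2
  omega

/-- **The twelve points are not Ramsey**: `64` colours suffice in every dimension. -/
theorem twelve_not_ramsey {t : ℝ} (ht : Transcendental ℚ t) : ¬ IsRamsey (twelve t) := by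
  intro hR
  obtain ⟨Δ, hΔ⟩ := exists_delta ht
  obtain ⟨D, -, h⟩ := hR 64 (by norm_num)
  obtain ⟨f, hf, k, hk⟩ := h (colour Δ)
  have hρ : 0 < 1 + t ^ 2 := by positivity
  have m1 : pt (1 - t ^ 2) (2 * t) ∈ twelve t := by simp [twelve]
  have m2 : pt (1 - t ^ 2) (-(2 * t)) ∈ twelve t := by simp [twelve]
  have m3 : pt (-(1 - t ^ 2)) (2 * t) ∈ twelve t := by simp [twelve]
  have m4 : pt (-(1 - t ^ 2)) (-(2 * t)) ∈ twelve t := by simp [twelve]
  have m5 : pt (2 * t) (1 - t ^ 2) ∈ twelve t := by simp [twelve]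
  have m6 : pt (2 * t) (-(1 - t ^ 2)) ∈ twelve t := by simp [twelve]
  have m7 : pt (-(2 * t)) (1 - t ^ 2) ∈ twelve t := by simp [twelve]
  have m8 : pt (-(2 * t)) (-(1 - t ^ 2)) ∈ twelve t := by simp [twelve]
  have m9 : pt (1 + t ^ 2) 0 ∈ twelve t := by simp [twelve]
  have m10 : pt (-(1 + t ^ 2)) 0 ∈ twelve t := by simp [twelve]
  have m11 : pt 0 (1 + t ^ 2) ∈ twelve t := by simp [twelve]
  have m12 : pt 0 (-(1 + t ^ 2)) ∈ twelve t := by simp [twelve]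
  let τ : Fin D → ℝ := fun q => (f (pt (1 + t ^ 2) 0) q + f (pt (-(1 + t ^ 2)) 0) q) / 2
  let u : Fin D → ℝ := fun q =>
    (f (pt (1 + t ^ 2) 0) q - f (pt (-(1 + t ^ 2)) 0) q) / (2 * (1 + t ^ 2))
  let v : Fin D → ℝ := fun q =>
    (f (pt 0 (1 + t ^ 2)) q - f (pt 0 (-(1 + t ^ 2))) q) / (2 * (1 + t ^ 2))
  have hc : ∀ x1 x2, pt x1 x2 ∈ twelve t → ∀ q, f (pt x1 x2) q = τ q + x1 * u q + x2 * v q :=
    fun x1 x2 hx q => coord_formula hρ f hf m9 m10 m11 m12 x1 x2 hx q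
  have da := hasD_a hΔ
  have db := hasD_b hΔ
  have dr := hasD_rho hΔ
  have d0 := hasD_zero Δ
  have e1 := z_formula da db _ τ u v (hc _ _ m1)
  have e2 := z_formula da db.neg _ τ u v (hc _ _ m2)
  have e3 := z_formula da.neg db _ τ u v (hc _ _ m3)
  have e4 := z_formula da.neg db.neg _ τ u v (hc _ _ m4)
  have e5 := z_formula db da _ τ u v (hc _ _ m5)
  have e6 := z_formula db da.neg _ τ u v (hc _ _ m6)
  have e7 := z_formula db.neg da _ τ u v (hc _ _ m7)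
  have e8 := z_formula db.neg da.neg _ τ u v (hc _ _ m8)
  have e9 := z_formula dr d0 _ τ u v (hc _ _ m9)
  have e10 := z_formula dr.neg d0 _ τ u v (hc _ _ m10)
  have e11 := z_formula d0 dr _ τ u v (hc _ _ m11)
  have e12 := z_formula d0 dr.neg _ τ u v (hc _ _ m12)
  have hu : ∑ q, u q ^ 2 = 1 := by
    have h1 := hf _ m9 _ m10
    have h2 : dist (f (pt (1 + t ^ 2) 0)) (f (pt (-(1 + t ^ 2)) 0)) ^ 2 = (2 * (1 + t ^ 2)) ^ 2 := by
      rw [h1, dist_pt_sq]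
      ring
    rw [dist_sq_eq] at h2
    have h3 : ∑ q, u q ^ 2 =
        (∑ q, (f (pt (1 + t ^ 2) 0) q - f (pt (-(1 + t ^ 2)) 0) q) ^ 2) / (2 * (1 + t ^ 2)) ^ 2 := by
      rw [sum_div]
      refine sum_congr rfl fun q _ => ?_
      simp only [u]
      rw [div_pow]
    rw [h3, h2]
    field_simp
  have hv : ∑ q, v q ^ 2 = 1 := by
    have h1 := hf _ m11 _ m12
    have h2 : dist (f (pt 0 (1 + t ^ 2))) (f (pt 0 (-(1 + t ^ 2)))) ^ 2 = (2 * (1 + t ^ 2)) ^ 2 := by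
      rw [h1, dist_pt_sq]
      ring
    rw [dist_sq_eq] at h2
    have h3 : ∑ q, v q ^ 2 =
        (∑ q, (f (pt 0 (1 + t ^ 2)) q - f (pt 0 (-(1 + t ^ 2))) q) ^ 2) / (2 * (1 + t ^ 2)) ^ 2 := by
      rw [sum_div]
      refine sum_congr rfl fun q _ => ?_
      simp only [v]
      rw [div_pow]
    rw [h3, h2]
    field_simp
  have hsum : zfun Δ (f (pt (1 - t ^ 2) (2 * t))) + zfun Δ (f (pt (1 - t ^ 2) (-(2 * t)))) +
      zfun Δ (f (pt (-(1 - t ^ 2)) (2 * t))) + zfun Δ (f (pt (-(1 - t ^ 2)) (-(2 * t)))) +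
      zfun Δ (f (pt (2 * t) (1 - t ^ 2))) + zfun Δ (f (pt (2 * t) (-(1 - t ^ 2)))) +
      zfun Δ (f (pt (-(2 * t)) (1 - t ^ 2))) + zfun Δ (f (pt (-(2 * t)) (-(1 - t ^ 2)))) -
      2 * (zfun Δ (f (pt (1 + t ^ 2) 0)) + zfun Δ (f (pt (-(1 + t ^ 2)) 0)) +
        zfun Δ (f (pt 0 (1 + t ^ 2))) + zfun Δ (f (pt 0 (-(1 + t ^ 2))))) = 32 := by
    rw [e1, e2, e3, e4, e5, e6, e7, e8, e9, e10, e11, e12]
    have h16 : (32 : ℝ) = ∑ q, 16 * (u q ^ 2 + v q ^ 2) := by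
      rw [← mul_sum, sum_add_distrib, hu, hv]
      norm_num
    rw [h16]
    simp only [← sum_add_distrib, mul_sum, ← sum_sub_distrib]
    refine sum_congr rfl fun q _ => ?_
    ring
  exact no_solution _ _ _ _ _ _ _ _ _ _ _ _ (k.val : ℤ)
    (colour_eq (hk _ m1)) (colour_eq (hk _ m2)) (colour_eq (hk _ m3)) (colour_eq (hk _ m4))
    (colour_eq (hk _ m5)) (colour_eq (hk _ m6)) (colour_eq (hk _ m7)) (colour_eq (hk _ m8))
    (colour_eq (hk _ m9)) (colour_eq (hk _ m10)) (colour_eq (hk _ m11)) (colour_eq (hk _ m12)) hsum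

/-- The twelve points lie on the circle of radius `1 + t²` around the origin. -/
theorem twelve_on_circle (t : ℝ) : ∀ x ∈ twelve t, ‖x‖ = 1 + t ^ 2 := by
  intro x hx
  have hr : (0 : ℝ) ≤ 1 + t ^ 2 := by positivity
  simp only [twelve, Set.mem_insert_iff, Set.mem_singleton_iff] at hx
  rcases hx with rfl | rfl | rfl | rfl | rfl | rfl | rfl | rfl | rfl | rfl | rfl | rfl <;>
    exact norm_pt _ _ _ hr (by ring)

theorem twelve_finite (t : ℝ) : (twelve t).Finite := by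
  simp only [twelve]
  exact Set.toFinite _

theorem exists_transcendental : ∃ t : ℝ, Transcendental ℚ t := by
  by_contra h
  have h1 : (Set.univ : Set ℝ) ⊆ {x : ℝ | IsAlgebraic ℚ x} := fun x _ => by
    by_contra hx
    exact h ⟨x, hx⟩
  exact Cardinal.not_countable_real ((Algebraic.countable ℚ ℝ).mono h1)

end Geometry

end Vale.Agent.Lib.P058
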