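import Mathlib
import Vale.Agent.Lib.P058.Cells

/-!
# Subtransitive sets embed, up to scale, in one coordinate permutation orbit

A finite transitive set `X` of Euclidean space, with `Γ` the group of its distance preserving
permutations, is mapped by `x ↦ ((γ x) i)_{γ, i}` to a single orbit of the group of coordinate
permutations of `ℝ^(Γ × n)`, and this map multiplies all distances by `√|Γ|`.
So if every permutation orbit of a vector is a Ramsey family, every subtransitive set is Ramsey.
-/

set_option linter.unusedVariables false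
set_option linter.unusedSectionVars false

namespace Vale.Agent.Lib.P058

open Finset

/-- A finite subset `X` of `ℝ^n` is transitive: the isometries of `ℝ^n` mapping `X` onto itself act
transitively on `X`. -/
def IsTransitiveSet {n : ℕ} (X : Set (EuclideanSpace ℝ (Fin n))) : Prop :=
  X.Finite ∧ ∀ x ∈ X, ∀ y ∈ X,
    ∃ φ : EuclideanSpace ℝ (Fin n) ≃ᵢ EuclideanSpace ℝ (Fin n), φ '' X = X ∧ φ x = y

/-- A finite set `A` is subtransitive: it is congruent to a subset of a finite transitive set (of
any ambient dimension). -/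
def IsSubtransitive {d : ℕ} (A : Set (EuclideanSpace ℝ (Fin d))) : Prop :=
  A.Finite ∧ ∃ (n : ℕ) (X : Set (EuclideanSpace ℝ (Fin n))), IsTransitiveSet X ∧
    ∃ f : EuclideanSpace ℝ (Fin d) → EuclideanSpace ℝ (Fin n),
      (∀ a ∈ A, ∀ b ∈ A, dist (f a) (f b) = dist a b) ∧ ∀ a ∈ A, f a ∈ X

/-- The permutation orbit of a vector `v` as a family of points of `ℝ^N`. -/
noncomputable def permFamily {N : ℕ} (v : Fin N → ℝ) :
    Equiv.Perm (Fin N) → EuclideanSpace ℝ (Fin N) :=
  fun σ => WithLp.toLp 2 (fun q => v (σ q))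

/-- Ramsey families can be rescaled. -/
theorem IsRamseyFamily.of_scale {ι : Type*} {d d' : ℕ} {x : ι → EuclideanSpace ℝ (Fin d)}
    {x' : ι → EuclideanSpace ℝ (Fin d')} (h : IsRamseyFamily x) {s : ℝ} (hs : 0 < s)
    (hd : ∀ i j, dist (x i) (x j) = s * dist (x' i) (x' j)) : IsRamseyFamily x' := by
  intro r hr
  obtain ⟨D, hD, hc⟩ := h r hr
  refine ⟨D, hD, fun c => ?_⟩
  obtain ⟨f, hf, k, hk⟩ := hc (fun y => c (s⁻¹ • y))
  refine ⟨fun i => s⁻¹ • f i, fun i j => ?_, k, hk⟩
  rw [dist_smul₀, hf, hd, Real.norm_of_nonneg (inv_pos.mpr hs).le, ← mul_assoc,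
    inv_mul_cancel₀ hs.ne', one_mul]

section Orbit

variable {n : ℕ} (X : Set (EuclideanSpace ℝ (Fin n)))

/-- The group of distance preserving permutations of `X`. -/
def distPerm : Subgroup (Equiv.Perm X) where
  carrier := {γ | ∀ x y : X, dist (γ x : EuclideanSpace ℝ (Fin n)) (γ y) = dist (x : EuclideanSpace ℝ (Fin n)) y}
  mul_mem' := by
    intro a b ha hb x y
    simp only [Equiv.Perm.coe_mul, Function.comp_apply]
    rw [ha, hb]
  one_mem' := by
    intro x y
    rfl
  inv_mem' := by
    intro a ha x y
    have := ha (a⁻¹ x) (a⁻¹ y)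
    simpa using this.symm

end Orbit

/-- If all permutation orbits of vectors are Ramsey families, then every subtransitive set is
Ramsey. -/
theorem isRamsey_of_isSubtransitive
    (R : ∀ (N : ℕ) (v : Fin N → ℝ), IsRamseyFamily (permFamily v))
    {d : ℕ} {A : Set (EuclideanSpace ℝ (Fin d))} (hA : IsSubtransitive A) : IsRamsey A := by
  classical
  obtain ⟨hAfin, n, X, ⟨hXfin, hXtr⟩, f, hf, hfX⟩ := hA
  -- it suffices to treat the family of points of `A`
  have key : IsRamseyFamily (fun a : A => (a : EuclideanSpace ℝ (Fin d))) := by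
    have : Finite X := hXfin
    letI : Fintype X := Fintype.ofFinite X
    by_cases hne : IsEmpty A
    · -- empty family
      intro r hr
      refine ⟨1, le_rfl, fun c => ⟨fun a => (hne.false a).elim, fun i => (hne.false i).elim,
        ⟨0, by omega⟩, fun i => (hne.false i).elim⟩⟩
    · rw [not_isEmpty_iff] at hne
      obtain ⟨a0⟩ := hne
      let x0 : X := ⟨f a0, hfX a0 a0.2⟩
      let Γ := distPerm X
      letI : Fintype Γ := Fintype.ofFinite Γ
      have : Nonempty Γ := ⟨1⟩
      let N := Fintype.card (Γ × Fin n)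
      let e : (Γ × Fin n) ≃ Fin N := Fintype.equivFin _
      let v : Fin N → ℝ := fun q =>
        ((e.symm q).1.1 x0 : EuclideanSpace ℝ (Fin n)) (e.symm q).2
      -- the permutation of coordinates attached to `g`
      let σ : Γ → Equiv.Perm (Fin N) := fun g =>
        e.symm.trans ((Equiv.prodCongr (Equiv.mulRight g) (Equiv.refl _)).trans e)
      -- transitivity
      have htr : ∀ x : X, ∃ g : Γ, g.1 x0 = x := by
        intro x
        obtain ⟨φ, hφ, hφx⟩ := hXtr x0 x0.2 x x.2
        have hmem : ∀ y : X, φ y ∈ X := by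
          intro y
          have hy : φ y ∈ φ '' X := ⟨y, y.2, rfl⟩
          rwa [hφ] at hy
        have hsurj : ∀ y : X, ∃ z : X, φ z = y := by
          intro y
          have hy : (y : EuclideanSpace ℝ (Fin n)) ∈ φ '' X := by
            rw [hφ]
            exact y.2
          obtain ⟨z, hz, hzy⟩ := hy
          exact ⟨⟨z, hz⟩, hzy⟩
        let p : X → X := fun y => ⟨φ y, hmem y⟩
        have hinj : Function.Injective p := by
          intro a b hab
          have : φ a = φ b := congrArg Subtype.val hab
          exact Subtype.ext (φ.injective this)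
        have hbij : Function.Bijective p := by
          refine ⟨hinj, fun y => ?_⟩
          obtain ⟨z, hz⟩ := hsurj y
          exact ⟨z, Subtype.ext hz⟩
        let γ : Equiv.Perm X := Equiv.ofBijective p hbij
        have hγ : γ ∈ distPerm X := by
          intro a b
          show dist (φ a) (φ b) = _
          exact φ.dist_eq _ _
        exact ⟨⟨γ, hγ⟩, Subtype.ext hφx⟩
      choose G hG using htr
      -- the points of the family are the orbit points
      have hval : ∀ (g : Γ) (q : Fin N), v (σ g q) =
          ((e.symm q).1.1 (g.1 x0) : EuclideanSpace ℝ (Fin n)) (e.symm q).2 := by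
        intro g q
        simp [v, σ]
      have hdist2 : ∀ g h : Γ, dist (permFamily v (σ g)) (permFamily v (σ h)) ^ 2 =
          (Fintype.card Γ : ℝ) *
            dist (g.1 x0 : EuclideanSpace ℝ (Fin n)) (h.1 x0) ^ 2 := by
        intro g h
        rw [EuclideanSpace.dist_eq, Real.sq_sqrt (Finset.sum_nonneg fun _ _ => sq_nonneg _)]
        simp only [permFamily, Real.dist_eq, sq_abs, hval]
        let F : Γ × Fin n → ℝ := fun t =>
          (((t.1.1 (g.1 x0) : EuclideanSpace ℝ (Fin n)) t.2) -
            ((t.1.1 (h.1 x0) : EuclideanSpace ℝ (Fin n)) t.2)) ^ 2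
        have h1 : ∑ q, F (e.symm q) = ∑ t, F t := Equiv.sum_comp e.symm F
        refine h1.trans ?_
        rw [Fintype.sum_prod_type]
        have h2 : ∀ γ : Γ, ∑ i, F (γ, i) =
            dist (g.1 x0 : EuclideanSpace ℝ (Fin n)) (h.1 x0) ^ 2 := by
          intro γ
          have := γ.2 (g.1 x0) (h.1 x0)
          rw [← this, EuclideanSpace.dist_eq,
            Real.sq_sqrt (Finset.sum_nonneg fun _ _ => sq_nonneg _)]
          simp [F, Real.dist_eq, sq_abs]
        simp only [h2, sum_const, card_univ, nsmul_eq_mul]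
      have hcard : (0 : ℝ) < Fintype.card Γ := by
        exact_mod_cast Fintype.card_pos
      let s : ℝ := Real.sqrt (Fintype.card Γ)
      have hs : 0 < s := Real.sqrt_pos.mpr hcard
      have hfam := IsRamseyFamily.comp (R N v) (fun a : A => σ (G ⟨f a, hfX a a.2⟩))
      refine IsRamseyFamily.of_scale hfam hs ?_
      intro a b
      have h3 := hdist2 (G ⟨f a, hfX a a.2⟩) (G ⟨f b, hfX b b.2⟩)
      rw [hG, hG] at h3
      have h4 : dist (f a) (f b) = dist (a : EuclideanSpace ℝ (Fin d)) b := hf a a.2 b b.2
      simp only at h3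
      rw [h4] at h3
      have h5 : (s * dist (a : EuclideanSpace ℝ (Fin d)) b) ^ 2 =
          dist (permFamily v (σ (G ⟨f a, hfX a a.2⟩))) (permFamily v (σ (G ⟨f b, hfX b b.2⟩))) ^ 2 := by
        rw [h3, mul_pow, Real.sq_sqrt hcard.le]
      have h6 := (pow_left_inj₀ (mul_nonneg hs.le dist_nonneg) dist_nonneg (two_ne_zero)).mp h5
      exact h6.symm
  have := key.range
  rwa [Subtype.range_coe] at this

end Vale.Agent.Lib.P058
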