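import Mathlib
import Vale.Agent.Lib.P058.Cells

/-!
# Every word on a finite 2-group reaches a constant word
-/

namespace Vale.Agent.Lib.P058

open Finset

set_option linter.unusedSectionVars false

variable {G : Type} [Group G] [Fintype G] [DecidableEq G]

/-- One merging round: `u` is invariant under `H`, the element `z` normalises `H` and `z ^ 2 ∈ H`;
if all words invariant under `H` and `z` reach a constant word then so does `u`. -/
theorem merge_round (H : Subgroup G) (z : G) (hz2 : z * z ∈ H)
    (hzH : ∀ h ∈ H, z⁻¹ * h * z ∈ H)
    (hnext : ∀ (L : ℕ) (v : G → Fin L), (∀ y, ∀ h ∈ H, v (y * h) = v y) →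
      (∀ y, v (y * z) = v y) → ∃ M, GReach v M) :
    ∀ (m L : ℕ) (u : G → Fin L), (∀ y, ∀ h ∈ H, u (y * h) = u y) →
      (univ.filter (fun y => u (y * z) ≠ u y)).card = m → ∃ M, GReach u M := by
  intro m
  induction m using Nat.strong_induction_on with
  | _ m ih =>
    intro L u hu hm
    by_cases h0 : ∀ y, u (y * z) = u y
    · exact hnext L u hu h0
    · simp only [not_forall] at h0
      obtain ⟨y₀, hy₀⟩ := h0
      let a := u y₀
      let R : G → List (Fin L) := fun y => ([u y, u (y * z)] : List (Fin L)).filter (· ≠ a)
      let S : Finset (List (Fin L)) := univ.image R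
      let e : {l // l ∈ S} ≃ Fin S.card := S.equivFin
      have hR : ∀ y, R y ∈ S := fun y => mem_image_of_mem R (mem_univ y)
      let u' : G → Fin S.card := fun y => e ⟨R y, hR y⟩
      let fl : Fin S.card → List (Fin L) := fun θ => (e.symm θ).1
      have hfl' : ∀ y, fl (u' y) = R y := by
        intro y
        simp [fl, u']
      have hu'eq : ∀ y y', R y = R y' → u' y = u' y' := by
        intro y y' h
        simp only [u', h]
      have hu'eq' : ∀ y y', u' y = u' y' → R y = R y' := by
        intro y y' h
        rw [← hfl' y, ← hfl' y', h]
      have hRinv : ∀ y, ∀ h ∈ H, R (y * h) = R y := by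
        intro y h hh
        have h1 : u (y * h) = u y := hu y h hh
        have h2 : u (y * h * z) = u (y * z) := by
          have : y * h * z = y * z * (z⁻¹ * h * z) := by group
          rw [this]
          exact hu _ _ (hzH h hh)
        simp only [R, h1, h2]
      have hsq : ∀ y, u (y * z * z) = u y := by
        intro y
        have : y * z * z = y * (z * z) := by group
        rw [this]
        exact hu _ _ hz2
      have hsub : univ.filter (fun y => u' (y * z) ≠ u' y) ⊂
          univ.filter (fun y => u (y * z) ≠ u y) := by
        refine Finset.ssubset_iff_subset_ne.mpr ⟨?_, ?_⟩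
        · intro y hy
          simp only [mem_filter, mem_univ, true_and] at hy ⊢
          intro hc
          apply hy
          apply hu'eq
          simp only [R, hsq, hc]
        · intro hEq
          have hmem : y₀ ∈ univ.filter (fun y => u (y * z) ≠ u y) := by
            simp only [mem_filter, mem_univ, true_and]
            exact hy₀
          rw [← hEq] at hmem
          simp only [mem_filter, mem_univ, true_and] at hmem
          apply hmem
          apply hu'eq
          simp only [R, hsq]
          have hne : u (y₀ * z) ≠ a := hy₀
          have haa : u y₀ = a := rfl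
          simp [haa, hne]
      have hlt : (univ.filter (fun y => u' (y * z) ≠ u' y)).card < m := by
        rw [← hm]
        exact card_lt_card hsub
      obtain ⟨M, hM⟩ := ih _ hlt S.card u' (fun y h hh => hu'eq _ _ (hRinv y h hh)) rfl
      refine ⟨M * ([1, z] : List G).length, GReach.step u a [1, z] (by simp) u' fl ?_ ?_ hM⟩
      · intro θ hθ
        have hmem := (e.symm θ).2
        obtain ⟨y, -, hy⟩ := mem_image.mp hmem
        have : a ∈ R y := by
          rw [hy]
          exact hθ
        simp only [R, List.mem_filter] at this
        simp at this
      · intro y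
        rw [hfl' y]
        simp [R]

/-- Words invariant under a subgroup of a finite 2-group reach a constant word. -/
theorem reach_of_invariant (hG : IsPGroup 2 G) :
    ∀ (H : Subgroup G) (L : ℕ) (u : G → Fin L), (∀ y, ∀ h ∈ H, u (y * h) = u y) →
      ∃ M, GReach u M := by
  intro H
  induction H using WellFoundedGT.induction with
  | _ H ih =>
    intro L u hu
    by_cases hH : H = ⊤
    · subst hH
      refine ⟨1, GReach.const u fun x y => ?_⟩
      have h1 : ∀ x, u x = u 1 := by
        intro x
        have := hu 1 x (Subgroup.mem_top x)
        rw [one_mul] at this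
        exact this
      rw [h1 x, h1 y]
    · -- a new element normalising `H` with square in `H`
      have := hG.isNilpotent
      have hlt : H < Subgroup.normalizer (H : Set G) := by
        have hcond := Group.normalizerCondition_of_isNilpotent (G := G)
        exact hcond H (lt_top_iff_ne_top.mpr hH)
      obtain ⟨w, hwN, hwH⟩ := SetLike.exists_of_lt hlt
      obtain ⟨k, hk⟩ := hG w
      have hex : ∃ j, w ^ (2 ^ j) ∈ H := ⟨k, by rw [hk]; exact H.one_mem⟩
      classical
      let j := Nat.find hex
      have hj : w ^ (2 ^ j) ∈ H := Nat.find_spec hex
      have hjpos : j ≠ 0 := by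
        intro h0
        have : w ^ (2 ^ 0) ∈ H := by
          rw [← h0]
          exact hj
        simp at this
        exact hwH this
      obtain ⟨i, hi⟩ := Nat.exists_eq_succ_of_ne_zero hjpos
      have hzn : w ^ (2 ^ i) ∉ H := by
        apply Nat.find_min hex
        show i < j
        omega
      let z := w ^ (2 ^ i)
      have hzN : z ∈ Subgroup.normalizer (H : Set G) := Subgroup.pow_mem _ hwN _
      have hz2 : z * z ∈ H := by
        have : z * z = w ^ (2 ^ j) := by
          simp only [z]
          rw [hi, ← pow_add]
          congr 1
          rw [pow_succ]
          ring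
        rw [this]
        exact hj
      have hzH : ∀ h ∈ H, z⁻¹ * h * z ∈ H := by
        intro h hh
        have := (Subgroup.mem_normalizer_iff.mp (Subgroup.inv_mem _ hzN) h).mp hh
        simpa using this
      let H' : Subgroup G := H ⊔ Subgroup.zpowers z
      have hHH' : H < H' := by
        refine lt_of_le_of_ne le_sup_left ?_
        intro hEq
        apply hzn
        have : z ∈ H' := Subgroup.mem_sup_right (Subgroup.mem_zpowers z)
        rw [← hEq] at this
        exact this
      refine merge_round H z hz2 hzH (fun L' v hv1 hv2 => ?_) _ L u hu rfl
      refine ih H' hHH' L' v ?_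
      -- invariance under the join
      let St : Subgroup G :=
        { carrier := {g | ∀ y, v (y * g) = v y}
          mul_mem' := by
            intro a b ha hb y
            rw [← mul_assoc, hb, ha]
          one_mem' := by
            intro y
            rw [mul_one]
          inv_mem' := by
            intro a ha y
            have := ha (y * a⁻¹)
            rw [inv_mul_cancel_right] at this
            exact this.symm }
      have hle : H' ≤ St := by
        refine sup_le ?_ ?_
        · intro h hh y
          exact hv1 y h hh
        · rw [Subgroup.zpowers_le]
          intro y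
          exact hv2 y
      intro y h hh
      exact hle hh y

/-- Every word on a finite 2-group reaches a constant word. -/
theorem reach_of_isPGroup (hG : IsPGroup 2 G) {L : ℕ} (u : G → Fin L) : ∃ M, GReach u M :=
  reach_of_invariant hG ⊥ L u (fun y h hh => by
    rw [Subgroup.mem_bot.mp hh, mul_one])

/-- Families of points indexed by a finite 2-group, with left-invariant distances, are Ramsey. -/
theorem isRamseyFamily_of_isPGroup (hG : IsPGroup 2 G) {d : ℕ}
    (x : G → EuclideanSpace ℝ (Fin d))
    (hinv : ∀ g a b, dist (x (g * a)) (x (g * b)) = dist (x a) (x b)) : IsRamseyFamily x := by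
  obtain ⟨M, hM⟩ := reach_of_isPGroup hG (Fintype.equivFin G)
  exact hM.isRamseyFamily (Fintype.equivFin G).injective x hinv

end Vale.Agent.Lib.P058
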