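import Mathlib
import Vale.Agent.Lib.P058.Subtransitive
import Vale.Agent.Lib.P058.TwoGroupReach

/-!
# From symmetrising formulas to Ramsey permutation orbits
-/

set_option linter.unusedVariables false
set_option linter.unusedSectionVars false

namespace Vale.Agent.Lib.P058

open Finset

/-- A symmetrising formula for words of length `N` over the alphabet `S`: a labelling `F` of a finite
set `P` of leaves by variables and constants, each variable used `b ≥ 1` times, and a 2-group `A`
of permutations of the leaves, such that rearranging the variables of any word acts on the labelled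
leaves through an element of `A`. -/
def FormulaStmt (N : ℕ) (S : Type) [DecidableEq S] : Prop :=
  ∃ (P : Type) (_ : Fintype P) (_ : DecidableEq P) (A : Subgroup (Equiv.Perm P))
    (F : P → Fin N ⊕ S) (b : ℕ), 0 < b ∧ IsPGroup 2 A ∧
    (∀ i, (univ.filter (fun x => F x = Sum.inl i)).card = b) ∧
    ∀ (w : Fin N → S) (π : Equiv.Perm (Fin N)),
      ∃ g ∈ A, ∀ x, Sum.elim (w ∘ π) id (F (g x)) = Sum.elim w id (F x)

/-- The point with coordinates `y ∘ g⁻¹`. -/
noncomputable def orbitPoint {P : Type} [Fintype P] (y : P → ℝ) (g : Equiv.Perm P) :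
    EuclideanSpace ℝ (Fin (Fintype.card P)) :=
  WithLp.toLp 2 (fun q => y (g⁻¹ ((Fintype.equivFin P).symm q)))

theorem dist_orbitPoint_sq {P : Type} [Fintype P] (y : P → ℝ) (g g' : Equiv.Perm P) :
    dist (orbitPoint y g) (orbitPoint y g') ^ 2 = ∑ x : P, (y (g⁻¹ x) - y (g'⁻¹ x)) ^ 2 := by
  rw [EuclideanSpace.dist_eq, Real.sq_sqrt (Finset.sum_nonneg fun _ _ => sq_nonneg _)]
  simp only [Real.dist_eq, sq_abs, orbitPoint]
  exact Equiv.sum_comp (Fintype.equivFin P).symm (fun x => (y (g⁻¹ x) - y (g'⁻¹ x)) ^ 2)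

/-- Points of a coordinate orbit of a 2-group are a Ramsey family. -/
theorem orbit_isRamseyFamily {P : Type} [Fintype P] [DecidableEq P] (A : Subgroup (Equiv.Perm P))
    (hA : IsPGroup 2 A) (y : P → ℝ) :
    IsRamseyFamily (fun g : A => orbitPoint y (g : Equiv.Perm P)) := by
  classical
  have : Fintype A := Fintype.ofFinite A
  refine isRamseyFamily_of_isPGroup hA _ fun h a b => ?_
  have hsq : dist (orbitPoint y ((h * a : A) : Equiv.Perm P))
      (orbitPoint y ((h * b : A) : Equiv.Perm P)) ^ 2 =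
      dist (orbitPoint y (a : Equiv.Perm P)) (orbitPoint y (b : Equiv.Perm P)) ^ 2 := by
    rw [dist_orbitPoint_sq, dist_orbitPoint_sq]
    let t : P ≃ P := (h : Equiv.Perm P)⁻¹
    refine Eq.trans ?_ (Equiv.sum_comp t (fun x => (y ((a : Equiv.Perm P)⁻¹ x) -
      y ((b : Equiv.Perm P)⁻¹ x)) ^ 2))
    refine Finset.sum_congr rfl fun x _ => ?_
    simp only [Subgroup.coe_mul, mul_inv_rev, Equiv.Perm.coe_mul, Function.comp_apply, t]
  exact (pow_left_inj₀ dist_nonneg dist_nonneg two_ne_zero).mp hsq

/-- Symmetrising formulas make permutation orbits Ramsey. -/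
theorem permFamily_of_formula {N : ℕ} (h : FormulaStmt N (Fin N)) (v : Fin N → ℝ) :
    IsRamseyFamily (permFamily v) := by
  classical
  obtain ⟨P, _, _, A, F, b, hb, hA, hcount, hF⟩ := h
  choose g hgA hg using fun σ : Equiv.Perm (Fin N) => hF id σ
  let y : P → ℝ := fun x => v (Sum.elim id id (F x))
  have hfam := IsRamseyFamily.comp (orbit_isRamseyFamily A hA y)
    (fun σ : Equiv.Perm (Fin N) => (⟨g σ, hgA σ⟩ : A))
  refine IsRamseyFamily.of_scale hfam (s := Real.sqrt b)
    (Real.sqrt_pos.mpr (by exact_mod_cast hb)) fun σ τ => ?_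
  -- the leaf word of `σ`
  have hleaf : ∀ (σ : Equiv.Perm (Fin N)) (x : P),
      y ((g σ)⁻¹ x) = v (Sum.elim σ id (F x)) := by
    intro σ x
    have h1 := hg σ ((g σ)⁻¹ x)
    rw [show g σ ((g σ)⁻¹ x) = x from (g σ).apply_symm_apply x] at h1
    simp only [y]
    have h2 : Sum.elim (id : Fin N → Fin N) id (F ((g σ)⁻¹ x)) = Sum.elim (id ∘ σ) id (F x) :=
      h1.symm
    rw [h2]
    rfl
  have hsq : dist (orbitPoint y (g σ)) (orbitPoint y (g τ)) ^ 2 =
      b * dist (permFamily v σ) (permFamily v τ) ^ 2 := by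
    rw [dist_orbitPoint_sq, EuclideanSpace.dist_eq,
      Real.sq_sqrt (Finset.sum_nonneg fun _ _ => sq_nonneg _)]
    simp only [Real.dist_eq, sq_abs, permFamily, hleaf]
    have hsplit : ∀ x : P, (v (Sum.elim σ id (F x)) - v (Sum.elim τ id (F x))) ^ 2 =
        ∑ i, if F x = Sum.inl i then (v (σ i) - v (τ i)) ^ 2 else 0 := by
      intro x
      rcases hx : F x with i | c
      · simp
      · simp
    simp only [hsplit]
    rw [Finset.sum_comm, Finset.mul_sum]
    refine Finset.sum_congr rfl fun i _ => ?_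
    rw [← Finset.sum_filter, Finset.sum_const, hcount i, nsmul_eq_mul]
  have hfinal : dist (orbitPoint y (g σ)) (orbitPoint y (g τ)) =
      Real.sqrt b * dist (permFamily v σ) (permFamily v τ) := by
    have h3 : (Real.sqrt b * dist (permFamily v σ) (permFamily v τ)) ^ 2 =
        b * dist (permFamily v σ) (permFamily v τ) ^ 2 := by
      rw [mul_pow, Real.sq_sqrt (by positivity)]
    exact (pow_left_inj₀ dist_nonneg (by positivity) two_ne_zero).mp (hsq.trans h3.symm)
  exact hfinal

/-- Symmetrising formulas make every subtransitive set Ramsey. -/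
theorem isRamsey_of_formulas (h : ∀ N, FormulaStmt N (Fin N)) {d : ℕ}
    {A : Set (EuclideanSpace ℝ (Fin d))} (hA : IsSubtransitive A) : IsRamsey A :=
  isRamsey_of_isSubtransitive (fun N v => permFamily_of_formula (h N) v) hA

end Vale.Agent.Lib.P058
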