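import Mathlib

/-!
# Tree formulas whose unordered type depends only on the content (paper proof by helper71)

For every `N` and every finite set `F` of letters there is a perfect binary tree whose leaves are
variables `x_p` (`p : Fin N`) and constants, each variable occurring equally often, such that
substituting two rearrangements of a word over `F` gives isomorphic unordered trees.
-/

set_option linter.unusedVariables false
set_option linter.unusedSectionVars false

open Classical

namespace Vale.Agent.Lib.P058.TF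

/-- Binary trees with leaves in `α`. -/
inductive Tr (α : Type) : Type where
  | leaf : α → Tr α
  | node : Tr α → Tr α → Tr α

namespace Tr

variable {α β γ : Type}

/-- Substitution. -/
def sb : Tr α → (α → Tr β) → Tr β
  | leaf a, f => f a
  | node l r, f => node (sb l f) (sb r f)

/-- Relabelling of leaves. -/
def map (f : α → β) : Tr α → Tr β
  | leaf a => leaf (f a)
  | node l r => node (map f l) (map f r)

/-- Perfect of depth `k`. -/
def Perf : Tr α → ℕ → Prop
  | leaf _, k => k = 0
  | node _ _, 0 => False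
  | node l r, k + 1 => Perf l k ∧ Perf r k

/-- Isomorphism of unordered rooted trees with labelled leaves. -/
def Iso : Tr α → Tr α → Prop
  | leaf a, leaf b => a = b
  | leaf _, node _ _ => False
  | node _ _, leaf _ => False
  | node l r, node l' r' => (Iso l l' ∧ Iso r r') ∨ (Iso l r' ∧ Iso r l')

theorem Iso.refl : ∀ t : Tr α, Iso t t
  | leaf _ => rfl
  | node l r => Or.inl ⟨Iso.refl l, Iso.refl r⟩

theorem Iso.symm : ∀ {s t : Tr α}, Iso s t → Iso t s
  | leaf _, leaf _, h => Eq.symm h
  | leaf _, node _ _, h => h.elim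
  | node _ _, leaf _, h => h.elim
  | node _ _, node _ _, Or.inl ⟨h1, h2⟩ => Or.inl ⟨Iso.symm h1, Iso.symm h2⟩
  | node _ _, node _ _, Or.inr ⟨h1, h2⟩ => Or.inr ⟨Iso.symm h2, Iso.symm h1⟩

theorem Iso.trans : ∀ {s t u : Tr α}, Iso s t → Iso t u → Iso s u
  | leaf _, leaf _, leaf _, h1, h2 => Eq.trans h1 h2
  | leaf _, leaf _, node _ _, _, h2 => h2.elim
  | leaf _, node _ _, _, h1, _ => h1.elim
  | node _ _, leaf _, _, h1, _ => h1.elim
  | node _ _, node _ _, leaf _, _, h2 => h2.elim
  | node _ _, node _ _, node _ _, Or.inl ⟨a, b⟩, Or.inl ⟨c, d⟩ =>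
      Or.inl ⟨Iso.trans a c, Iso.trans b d⟩
  | node _ _, node _ _, node _ _, Or.inl ⟨a, b⟩, Or.inr ⟨c, d⟩ =>
      Or.inr ⟨Iso.trans a c, Iso.trans b d⟩
  | node _ _, node _ _, node _ _, Or.inr ⟨a, b⟩, Or.inl ⟨c, d⟩ =>
      Or.inr ⟨Iso.trans a d, Iso.trans b c⟩
  | node _ _, node _ _, node _ _, Or.inr ⟨a, b⟩, Or.inr ⟨c, d⟩ =>
      Or.inl ⟨Iso.trans a d, Iso.trans b c⟩

theorem Perf.map {f : α → β} : ∀ {t : Tr α} {k : ℕ}, Perf t k → Perf (map f t) k
  | leaf _, _, h => h
  | node _ _, 0, h => h.elim
  | node _ _, _ + 1, h => ⟨Perf.map h.1, Perf.map h.2⟩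

theorem Perf.sb {f : α → Tr β} {d : ℕ} (hf : ∀ a, Perf (f a) d) :
    ∀ {t : Tr α} {k : ℕ}, Perf t k → Perf (sb t f) (k + d)
  | leaf a, k, h => by
      have : k = 0 := h
      subst this
      simpa [Tr.sb] using hf a
  | node _ _, 0, h => h.elim
  | node l r, k + 1, h => by
      have : k + 1 + d = (k + d) + 1 := by omega
      rw [this]
      exact ⟨Perf.sb hf h.1, Perf.sb hf h.2⟩

theorem map_bind (g : β → γ) (f : α → Tr β) :
    ∀ t : Tr α, map g (sb t f) = sb t (fun a => map g (f a))
  | leaf _ => rfl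
  | node l r => by simp [sb, map, map_bind g f l, map_bind g f r]

theorem map_map (g : β → γ) (f : α → β) : ∀ t : Tr α, map g (map f t) = map (g ∘ f) t
  | leaf _ => rfl
  | node l r => by simp [map, map_map g f l, map_map g f r]

theorem map_id' (h : α → α) (hh : ∀ a, h a = a) : ∀ t : Tr α, map h t = t
  | leaf a => by simp [map, hh]
  | node l r => by simp [map, map_id' h hh l, map_id' h hh r]

theorem bind_map (g : α → β) (f : β → Tr γ) :
    ∀ t : Tr α, sb (map g t) f = sb t (fun a => f (g a))
  | leaf _ => rfl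
  | node l r => by simp [sb, map, bind_map g f l, bind_map g f r]

/-- Pointwise isomorphic substitutions give isomorphic results. -/
theorem iso_bind_congr {f g : α → Tr β} (h : ∀ a, Iso (f a) (g a)) :
    ∀ t : Tr α, Iso (sb t f) (sb t g)
  | leaf a => h a
  | node l r => Or.inl ⟨iso_bind_congr h l, iso_bind_congr h r⟩

/-- Isomorphic trees stay isomorphic after substitution. -/
theorem iso_bind_of_iso (f : α → Tr β) :
    ∀ {s t : Tr α}, Iso s t → Iso (sb s f) (sb t f)
  | leaf _, leaf _, h => by
      have h' : _ = _ := h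
      subst h'
      exact Iso.refl _
  | leaf _, node _ _, h => h.elim
  | node _ _, leaf _, h => h.elim
  | node _ _, node _ _, Or.inl ⟨a, b⟩ => Or.inl ⟨iso_bind_of_iso f a, iso_bind_of_iso f b⟩
  | node _ _, node _ _, Or.inr ⟨a, b⟩ => Or.inr ⟨iso_bind_of_iso f a, iso_bind_of_iso f b⟩

end Tr

open Tr

variable {N : ℕ} {A : Type}

/-- Number of occurrences of the variable `p`. -/
def cnt {N : ℕ} {B : Type} (p : Fin N) : Tr (Fin N ⊕ B) → ℕ
  | leaf (Sum.inl q) => if q = p then 1 else 0
  | leaf (Sum.inr _) => 0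
  | node l r => cnt p l + cnt p r

/-- Substitution of a word for the variables. -/
def ev {N : ℕ} {B : Type} (w : Fin N → B) (t : Tr (Fin N ⊕ B)) : Tr B := map (Sum.elim w id) t

theorem cnt_bind {M N : ℕ} {B C : Type} (r : Fin N) (f : Fin M ⊕ C → Tr (Fin N ⊕ B))
    (hf : ∀ c, cnt r (f (Sum.inr c)) = 0) :
    ∀ t : Tr (Fin M ⊕ C), cnt r (sb t f) = ∑ i, cnt i t * cnt r (f (Sum.inl i))
  | leaf (Sum.inl j) => by
      simp only [sb, cnt, ite_mul, one_mul, zero_mul]
      rw [Finset.sum_ite_eq]
      simp
  | leaf (Sum.inr c) => by simp [sb, cnt, hf]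
  | node l r' => by
      simp only [sb, cnt, add_mul, Finset.sum_add_distrib]
      rw [cnt_bind r f hf l, cnt_bind r f hf r']

/-- The content of a word, as a multiset. -/
def content {M : ℕ} {B : Type} (w : Fin M → B) : Multiset B := Multiset.map w Finset.univ.val

theorem content_succAbove {M : ℕ} {B : Type} (w : Fin (M + 1) → B) (p : Fin (M + 1)) :
    content w = w p ::ₘ content (w ∘ p.succAbove) := by
  unfold content
  rw [Fin.univ_succAbove _ p, Finset.cons_val, Multiset.map_cons, Finset.map_val, Multiset.map_map]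
  rfl

theorem content_erase {M : ℕ} {B : Type} (w : Fin M → B) (i : Fin M) :
    content w = w i ::ₘ Multiset.map w (Finset.univ.erase i).val := by
  unfold content
  have : (Finset.univ : Finset (Fin M)).val = i ::ₘ (Finset.univ.erase i).val := by
    rw [Finset.erase_val, Multiset.cons_erase (Finset.mem_univ_val i)]
  rw [this, Multiset.map_cons]

theorem content_update {M : ℕ} {B : Type} (w : Fin M → B) (i : Fin M) (x : B) :
    content (Function.update w i x) = x ::ₘ Multiset.map w (Finset.univ.erase i).val := by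
  rw [content_erase _ i, Function.update_self]
  congr 1
  apply Multiset.map_congr rfl
  intro j hj
  have : j ≠ i := by
    have hj' : j ∈ Finset.univ.erase i := hj
    exact (Finset.mem_erase.mp hj').1
  simp [Function.update_of_ne this]

/-- The statement `P(N)`. -/
def PN (N : ℕ) : Prop :=
  ∀ (A : Type) (F : Finset A), F.Nonempty →
    ∃ (k b : ℕ) (t : Tr (Fin N ⊕ A)), 0 < b ∧ Perf t k ∧ (∀ p, cnt p t = b) ∧
      ∀ w w' : Fin N → A, (∀ p, w p ∈ F) → (∀ p, w' p ∈ F) → content w = content w' →
        Iso (ev w t) (ev w' t)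

section Letters

variable (A) (d : ℕ)

/-- Perfect trees of depth `d`. -/
def PT : Type := {t : Tr A // Perf t d}

/-- Isomorphism as a setoid. -/
def isoSetoid : Setoid (PT A d) where
  r s t := Iso s.1 t.1
  iseqv := ⟨fun s => Iso.refl s.1, fun h => Iso.symm h, fun h1 h2 => Iso.trans h1 h2⟩

/-- Letters of stage `d`: isomorphism classes of perfect trees of depth `d`. -/
def Lt : Type := Quotient (isoSetoid A d)

variable {A d}

/-- A representative of a letter. -/
noncomputable def rep (x : Lt A d) : Tr A := (Quotient.out x : PT A d).1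

theorem rep_perf (x : Lt A d) : Perf (rep x) d := (Quotient.out x : PT A d).2

/-- The letter of a perfect tree. -/
def letterOf (t : Tr A) (h : Perf t d) : Lt A d := Quotient.mk (isoSetoid A d) ⟨t, h⟩

theorem rep_letterOf (t : Tr A) (h : Perf t d) : Iso (rep (letterOf t h)) t := by
  have := Quotient.mk_out (s := isoSetoid A d) (⟨t, h⟩ : PT A d)
  exact this

theorem letterOf_eq_iff {s t : Tr A} (hs : Perf s d) (ht : Perf t d) :
    letterOf s hs = letterOf t ht ↔ Iso s t := by
  constructor
  · intro h
    exact Quotient.exact (s := isoSetoid A d) h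
  · intro h
    exact Quotient.sound (s := isoSetoid A d) h

end Letters

/-- A constant tree. -/
noncomputable def constTree {N d : ℕ} (x : Lt A d) : Tr (Fin N ⊕ A) := map Sum.inr (rep x)

theorem constTree_perf {N d : ℕ} (x : Lt A d) : Perf (constTree (N := N) x) d :=
  Perf.map (rep_perf x)

theorem ev_constTree {N d : ℕ} (w : Fin N → A) (x : Lt A d) : ev w (constTree x) = rep x := by
  unfold ev constTree
  rw [map_map]
  exact map_id' _ (fun _ => rfl) _

theorem cnt_map_inr {N : ℕ} (r : Fin N) : ∀ t : Tr A, cnt r (map (Sum.inr : A → Fin N ⊕ A) t) = 0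
  | leaf _ => rfl
  | node l r' => by simp [map, cnt, cnt_map_inr r l, cnt_map_inr r r']

theorem cnt_constTree {N d : ℕ} (r : Fin N) (x : Lt A d) : cnt r (constTree x : Tr (Fin N ⊕ A)) = 0 :=
  cnt_map_inr r _

theorem ev_perf {N d : ℕ} (w : Fin N → A) {t : Tr (Fin N ⊕ A)} (h : Perf t d) : Perf (ev w t) d :=
  Perf.map h

/-- The value of a formula `S'` over letters at a word of letters, as a tree over `A`. -/
noncomputable def val {M d : ℕ} (S' : Tr (Fin M ⊕ Lt A d)) (W : Fin M → Lt A d) : Tr A :=
  sb (ev W S') rep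

/-- If each variable substitution represents `W i`, the substitution is isomorphic to `val`. -/
theorem iso_val {M d : ℕ} (S' : Tr (Fin M ⊕ Lt A d)) (W : Fin M → Lt A d)
    (g : Fin M ⊕ Lt A d → Tr A) (h1 : ∀ i, Iso (g (Sum.inl i)) (rep (W i)))
    (h2 : ∀ c, g (Sum.inr c) = rep c) : Iso (sb S' g) (val S' W) := by
  unfold val ev
  rw [bind_map]
  apply iso_bind_congr
  rintro (i | c)
  · exact h1 i
  · rw [h2]; exact Iso.refl _

/-- The step of the induction. -/
theorem step {M : ℕ} (hP : PN M) {F : Finset A} (hF : F.Nonempty) {d : ℕ}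
    (T : Fin (M + 1) → Tr (Fin (M + 1) ⊕ A)) (hT : ∀ p, Perf (T p) d)
    (hInv : ∀ w w' : Fin (M + 1) → A, (∀ p, w p ∈ F) → (∀ p, w' p ∈ F) → content w = content w' →
      ∀ p p', w p = w' p' → Iso (ev w (T p)) (ev w' (T p')))
    (w0 : Fin (M + 1) → A) (hw0 : ∀ p, w0 p ∈ F) (p0 q0 : Fin (M + 1)) (hpq : p0 ≠ q0) :
    ∃ (d' b' : ℕ) (T' : Fin (M + 1) → Tr (Fin (M + 1) ⊕ A)), 0 < b' ∧ (∀ p, Perf (T' p) d') ∧
      (∀ p r, cnt r (T' p) = b' * ∑ q, cnt r (T q)) ∧
      (∀ w w' : Fin (M + 1) → A, (∀ p, w p ∈ F) → (∀ p, w' p ∈ F) → content w = content w' →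
        ∀ p p', Iso (ev w (T p)) (ev w' (T p')) → Iso (ev w (T' p)) (ev w' (T' p'))) ∧
      Iso (ev w0 (T' p0)) (ev w0 (T' q0)) := by
  classical
  -- letters
  let l : (Fin (M + 1) → A) → Fin (M + 1) → Lt A d := fun w p => letterOf (ev w (T p)) (ev_perf w (hT p))
  have hrepl : ∀ w p, Iso (rep (l w p)) (ev w (T p)) := fun w p => rep_letterOf _ _
  have hleq : ∀ w w' p p', l w p = l w' p' ↔ Iso (ev w (T p)) (ev w' (T p')) :=
    fun w w' p p' => letterOf_eq_iff _ _
  let Z : Finset ((Fin (M + 1) → A) × Fin (M + 1)) :=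
    (Fintype.piFinset (fun _ => F)) ×ˢ Finset.univ
  let F' : Finset (Lt A d) := Z.image (fun x => l x.1 x.2)
  have hF' : ∀ w, (∀ p, w p ∈ F) → ∀ p, l w p ∈ F' := by
    intro w hw p
    refine Finset.mem_image.mpr ⟨(w, p), ?_, rfl⟩
    exact Finset.mem_product.mpr ⟨Fintype.mem_piFinset.mpr hw, Finset.mem_univ _⟩
  have hF'ne : F'.Nonempty := ⟨_, hF' w0 hw0 p0⟩
  obtain ⟨k', b', S', hb', hS'perf, hS'cnt, hS'⟩ := hP (Lt A d) F' hF'ne
  -- the index of `q0`
  obtain ⟨i0, hi0⟩ : ∃ i0, p0.succAbove i0 = q0 := by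
    obtain ⟨i, hi⟩ := Fin.exists_succAbove_eq (x := q0) (y := p0) hpq.symm
    exact ⟨i, hi⟩
  let W1 : Fin M → Lt A d := fun i => l w0 (p0.succAbove i)
  let args1 : Fin (M + 1) → Fin M ⊕ Lt A d → Tr (Fin (M + 1) ⊕ A) := fun p a =>
    match a with
    | Sum.inl i => if i = i0 then T p else constTree (W1 i)
    | Sum.inr c => constTree c
  let args2 : Fin (M + 1) → Fin M ⊕ Lt A d → Tr (Fin (M + 1) ⊕ A) := fun p a =>
    match a with
    | Sum.inl i => T (p.succAbove i)
    | Sum.inr c => constTree c
  let T' : Fin (M + 1) → Tr (Fin (M + 1) ⊕ A) := fun p =>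
    node (sb S' (args1 p)) (sb S' (args2 p))
  -- evaluation of the two parts
  have hval1 : ∀ w p, Iso (ev w (sb S' (args1 p))) (val S' (Function.update W1 i0 (l w p))) := by
    intro w p
    unfold ev
    rw [map_bind]
    apply iso_val
    · intro i
      by_cases hi : i = i0
      · subst hi
        simp only [args1, if_true, Function.update_self]
        exact Iso.symm (hrepl w p)
      · simp only [args1, if_neg hi, Function.update_of_ne hi]
        have := ev_constTree w (W1 i)
        unfold ev at this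
        rw [this]
        exact Iso.refl _
    · intro c
      have := ev_constTree w c
      unfold ev at this
      simpa only [args1] using this
  have hval2 : ∀ w p, Iso (ev w (sb S' (args2 p))) (val S' (l w ∘ p.succAbove)) := by
    intro w p
    unfold ev
    rw [map_bind]
    apply iso_val
    · intro i
      simp only [args2, Function.comp]
      exact Iso.symm (hrepl w _)
    · intro c
      have := ev_constTree w c
      unfold ev at this
      simpa only [args2] using this
  have hevT' : ∀ w p, Iso (ev w (T' p))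
      (node (val S' (Function.update W1 i0 (l w p))) (val S' (l w ∘ p.succAbove))) := by
    intro w p
    exact Or.inl ⟨hval1 w p, hval2 w p⟩
  -- the formula theorem applied to words of letters
  have hvalIso : ∀ W W' : Fin M → Lt A d, (∀ i, W i ∈ F') → (∀ i, W' i ∈ F') → content W = content W' →
      Iso (val S' W) (val S' W') := by
    intro W W' h1 h2 h3
    exact iso_bind_of_iso rep (hS' W W' h1 h2 h3)
  -- contents of letter words
  have hcontent : ∀ w w' : Fin (M + 1) → A, (∀ p, w p ∈ F) → (∀ p, w' p ∈ F) →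
      content w = content w' → content (l w) = content (l w') := by
    intro w w' hw hw' hc
    let g : A → Lt A d := fun a => if h : ∃ p, w p = a then l w h.choose else l w p0
    have hg : ∀ p, l w p = g (w p) := by
      intro p
      have h : ∃ q, w q = w p := ⟨p, rfl⟩
      simp only [g, dif_pos h]
      exact (hleq w w _ _).mpr (hInv w w hw hw rfl _ _ h.choose_spec.symm)
    have hg' : ∀ p, l w' p = g (w' p) := by
      intro p
      have hmem : w' p ∈ content w := by
        rw [hc]
        exact Multiset.mem_map.mpr ⟨p, Finset.mem_univ_val p, rfl⟩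
      obtain ⟨q, _, hq⟩ := Multiset.mem_map.mp hmem
      have h : ∃ q, w q = w' p := ⟨q, hq⟩
      simp only [g, dif_pos h]
      exact (hleq w' w _ _).mpr (hInv w' w hw' hw hc.symm _ _ h.choose_spec.symm)
    have h1 : content (l w) = Multiset.map g (content w) := by
      unfold content
      rw [Multiset.map_map]
      exact Multiset.map_congr rfl (fun p _ => hg p)
    have h2 : content (l w') = Multiset.map g (content w') := by
      unfold content
      rw [Multiset.map_map]
      exact Multiset.map_congr rfl (fun p _ => hg' p)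
    rw [h1, h2, hc]
  refine ⟨k' + d + 1, b', T', hb', ?_, ?_, ?_, ?_⟩
  · -- perfect
    intro p
    refine ⟨Perf.sb ?_ hS'perf, Perf.sb ?_ hS'perf⟩
    · rintro (i | c)
      · by_cases hi : i = i0
        · simpa [args1, hi] using hT p
        · simpa [args1, hi] using constTree_perf (W1 i)
      · exact constTree_perf c
    · rintro (i | c)
      · exact hT _
      · exact constTree_perf c
  · -- counts
    intro p r
    have h1 : cnt r (sb S' (args1 p)) = b' * cnt r (T p) := by
      rw [cnt_bind r (args1 p) (fun c => cnt_constTree r c) S']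
      rw [Finset.sum_eq_single i0]
      · simp [args1, hS'cnt]
      · intro i _ hi
        simp [args1, hi, cnt_constTree]
      · simp
    have h2 : cnt r (sb S' (args2 p)) = b' * ∑ i, cnt r (T (p.succAbove i)) := by
      rw [cnt_bind r (args2 p) (fun c => cnt_constTree r c) S', Finset.mul_sum]
      apply Finset.sum_congr rfl
      intro i _
      simp [args2, hS'cnt]
    show cnt r (sb S' (args1 p)) + cnt r (sb S' (args2 p)) = _
    rw [h1, h2, ← mul_add, Fin.sum_univ_succAbove (fun q => cnt r (T q)) p]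
  · -- monotonic
    intro w w' hw hw' hc p p' hiso
    have hl : l w p = l w' p' := (hleq w w' p p').mpr hiso
    refine Iso.trans (hevT' w p) (Iso.trans ?_ (Iso.symm (hevT' w' p')))
    rw [hl]
    refine Or.inl ⟨Iso.refl _, ?_⟩
    apply hvalIso
    · intro i; exact hF' w hw _
    · intro i; exact hF' w' hw' _
    · have h1 := content_succAbove (l w) p
      have h2 := content_succAbove (l w') p'
      have h3 := hcontent w w' hw hw' hc
      rw [h1, h2, hl] at h3
      exact (Multiset.cons_inj_right _).mp h3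
  · -- the merge
    refine Iso.trans (hevT' w0 p0) (Iso.trans ?_ (Iso.symm (hevT' w0 q0)))
    have hW1 : W1 i0 = l w0 q0 := by
      simp only [W1, hi0]
    have hupd : Function.update W1 i0 (l w0 q0) = W1 := by
      rw [← hW1]; exact Function.update_eq_self _ _
    rw [hupd]
    have hW1' : (l w0 ∘ p0.succAbove) = W1 := rfl
    rw [hW1']
    refine Or.inr ⟨?_, Iso.refl _⟩
    apply hvalIso
    · intro i
      by_cases hi : i = i0
      · subst hi
        rw [Function.update_self]
        exact hF' w0 hw0 _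
      · rw [Function.update_of_ne hi]
        exact hF' w0 hw0 _
    · intro i; exact hF' w0 hw0 _
    · -- contents
      let ρ := Multiset.map W1 (Finset.univ.erase i0).val
      have h1 : content (Function.update W1 i0 (l w0 p0)) = l w0 p0 ::ₘ ρ := content_update _ _ _
      have h2 : content W1 = l w0 q0 ::ₘ ρ := by
        have := content_erase W1 i0
        rwa [hW1] at this
      have h3 : content (l w0) = l w0 p0 ::ₘ content W1 := content_succAbove (l w0) p0
      have h4 : content (l w0) = l w0 q0 ::ₘ content (l w0 ∘ q0.succAbove) :=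
        content_succAbove (l w0) q0
      rw [h1]
      rw [h2] at h3
      rw [h3, Multiset.cons_swap] at h4
      exact (Multiset.cons_inj_right _).mp h4

/-- The loop: starting from a balanced invariant family, make all formulas isomorphic. -/
theorem loop {M : ℕ} (hP : PN M) {F : Finset A} (hF : F.Nonempty) :
    ∀ (n d : ℕ) (T : Fin (M + 1) → Tr (Fin (M + 1) ⊕ A)) (c : ℕ), 0 < c →
      (∀ p, Perf (T p) d) → (∀ r, ∑ q, cnt r (T q) = c) →
      (∀ w w' : Fin (M + 1) → A, (∀ p, w p ∈ F) → (∀ p, w' p ∈ F) → content w = content w' →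
        ∀ p p', w p = w' p' → Iso (ev w (T p)) (ev w' (T p'))) →
      (((Fintype.piFinset (fun _ : Fin (M + 1) => F)) ×ˢ (Finset.univ : Finset (Fin (M + 1))) ×ˢ
        (Fintype.piFinset (fun _ : Fin (M + 1) => F)) ×ˢ (Finset.univ : Finset (Fin (M + 1)))).filter
        (fun x => content x.1 = content x.2.2.1 ∧
          ¬ Iso (ev x.1 (T x.2.1)) (ev x.2.2.1 (T x.2.2.2)))).card ≤ n →
      ∃ (d' c' : ℕ) (T' : Fin (M + 1) → Tr (Fin (M + 1) ⊕ A)), 0 < c' ∧ (∀ p, Perf (T' p) d') ∧
        (∀ r, ∑ q, cnt r (T' q) = c') ∧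
        (∀ w w' : Fin (M + 1) → A, (∀ p, w p ∈ F) → (∀ p, w' p ∈ F) → content w = content w' →
          ∀ p p', Iso (ev w (T' p)) (ev w' (T' p'))) := by
  intro n
  induction n with
  | zero =>
    intro d T c hc hT hcnt hInv hcard
    refine ⟨d, c, T, hc, hT, hcnt, ?_⟩
    intro w w' hw hw' hcw p p'
    by_contra hne
    have hmem : (w, p, w', p') ∈ (((Fintype.piFinset (fun _ : Fin (M + 1) => F)) ×ˢ
        (Finset.univ : Finset (Fin (M + 1))) ×ˢ
        (Fintype.piFinset (fun _ : Fin (M + 1) => F)) ×ˢ (Finset.univ : Finset (Fin (M + 1)))).filter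
        (fun x => content x.1 = content x.2.2.1 ∧
          ¬ Iso (ev x.1 (T x.2.1)) (ev x.2.2.1 (T x.2.2.2)))) := by
      simp only [Finset.mem_filter, Finset.mem_product, Finset.mem_univ, true_and, and_true,
        Fintype.mem_piFinset]
      exact ⟨⟨hw, hw'⟩, hcw, hne⟩
    have := Finset.card_pos.mpr ⟨_, hmem⟩
    omega
  | succ n ih =>
    intro d T c hc hT hcnt hInv hcard
    by_cases hall : ∀ w w' : Fin (M + 1) → A, (∀ p, w p ∈ F) → (∀ p, w' p ∈ F) →
        content w = content w' → ∀ p p', Iso (ev w (T p)) (ev w' (T p'))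
    · exact ⟨d, c, T, hc, hT, hcnt, hall⟩
    · push Not at hall
      obtain ⟨w, w', hw, hw', hcw, p, p', hne⟩ := hall
      -- a position of `w` carrying the letter `w' p'`
      have hmem : w' p' ∈ content w := by
        rw [hcw]
        exact Multiset.mem_map.mpr ⟨p', Finset.mem_univ_val p', rfl⟩
      obtain ⟨q, _, hq⟩ := Multiset.mem_map.mp hmem
      have hqi : Iso (ev w (T q)) (ev w' (T p')) := hInv w w' hw hw' hcw q p' hq
      have hpq : p ≠ q := by
        rintro rfl
        exact hne hqi
      obtain ⟨d', b', T', hb', hperf', hcnt', hmono, hmerge⟩ :=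
        step hP hF T hT hInv w hw p q hpq
      -- invariants of the new family
      have hInv' : ∀ w w' : Fin (M + 1) → A, (∀ p, w p ∈ F) → (∀ p, w' p ∈ F) →
          content w = content w' → ∀ p p', w p = w' p' → Iso (ev w (T' p)) (ev w' (T' p')) := by
        intro w w' h1 h2 h3 p p' h4
        exact hmono w w' h1 h2 h3 p p' (hInv w w' h1 h2 h3 p p' h4)
      have hc' : ∀ r, ∑ q, cnt r (T' q) = (M + 1) * (b' * c) := by
        intro r
        simp [hcnt', hcnt]
      refine ih d' T' _ (by positivity) hperf' hc' hInv' ?_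
      -- the bad set shrinks
      have hsub : ((Fintype.piFinset (fun _ : Fin (M + 1) => F)) ×ˢ
          (Finset.univ : Finset (Fin (M + 1))) ×ˢ
          (Fintype.piFinset (fun _ : Fin (M + 1) => F)) ×ˢ
            (Finset.univ : Finset (Fin (M + 1)))).filter
          (fun x => content x.1 = content x.2.2.1 ∧
            ¬ Iso (ev x.1 (T' x.2.1)) (ev x.2.2.1 (T' x.2.2.2))) ⊂
          ((Fintype.piFinset (fun _ : Fin (M + 1) => F)) ×ˢ
          (Finset.univ : Finset (Fin (M + 1))) ×ˢ
          (Fintype.piFinset (fun _ : Fin (M + 1) => F)) ×ˢ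
            (Finset.univ : Finset (Fin (M + 1)))).filter
          (fun x => content x.1 = content x.2.2.1 ∧
            ¬ Iso (ev x.1 (T x.2.1)) (ev x.2.2.1 (T x.2.2.2))) := by
        refine ⟨?_, ?_⟩
        · intro x hx
          simp only [Finset.mem_filter, Finset.mem_product, Finset.mem_univ, true_and, and_true,
            Fintype.mem_piFinset] at hx ⊢
          obtain ⟨⟨h1, h2⟩, h3, h4⟩ := hx
          exact ⟨⟨h1, h2⟩, h3, fun h5 => h4 (hmono _ _ h1 h2 h3 _ _ h5)⟩
        · intro hcontra
          have hmem2 : (w, p, w', p') ∈ ((Fintype.piFinset (fun _ : Fin (M + 1) => F)) ×ˢ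
              (Finset.univ : Finset (Fin (M + 1))) ×ˢ
              (Fintype.piFinset (fun _ : Fin (M + 1) => F)) ×ˢ
                (Finset.univ : Finset (Fin (M + 1)))).filter
              (fun x => content x.1 = content x.2.2.1 ∧
                ¬ Iso (ev x.1 (T x.2.1)) (ev x.2.2.1 (T x.2.2.2))) := by
            simp only [Finset.mem_filter, Finset.mem_product, Finset.mem_univ, true_and, and_true,
              Fintype.mem_piFinset]
            exact ⟨⟨hw, hw'⟩, hcw, hne⟩
          have := hcontra hmem2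
          simp only [Finset.mem_filter, Finset.mem_product, Finset.mem_univ, true_and, and_true,
            Fintype.mem_piFinset] at this
          exact this.2.2 (Iso.trans hmerge (hmono _ _ hw hw' hcw _ _ hqi))
      have := Finset.card_lt_card hsub
      omega

/-- Induction step of `P(N)`. -/
theorem pn_succ {M : ℕ} (hM : 0 < M) (hP : PN M) : PN (M + 1) := by
  intro A F hF
  -- the initial family
  let T0 : Fin (M + 1) → Tr (Fin (M + 1) ⊕ A) := fun p => leaf (Sum.inl p)
  have hT0 : ∀ p, Perf (T0 p) 0 := fun p => rfl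
  have hcnt0 : ∀ r, ∑ q, cnt r (T0 q) = 1 := by
    intro r
    simp [T0, cnt]
  have hInv0 : ∀ w w' : Fin (M + 1) → A, (∀ p, w p ∈ F) → (∀ p, w' p ∈ F) →
      content w = content w' → ∀ p p', w p = w' p' → Iso (ev w (T0 p)) (ev w' (T0 p')) := by
    intro w w' _ _ _ p p' h
    exact h
  obtain ⟨d, c, T, hc, hT, hcnt, hIso⟩ := loop hP hF _ 0 T0 1 one_pos hT0 hcnt0 hInv0 le_rfl
  -- one more step makes each formula balanced
  obtain ⟨a, ha⟩ := hF
  have hw : ∀ p : Fin (M + 1), (fun _ => a) p ∈ F := fun _ => ha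
  have hne : (0 : Fin (M + 1)) ≠ Fin.last M := by
    intro h
    have := congrArg Fin.val h
    simp at this
    omega
  obtain ⟨d', b', T', hb', hperf', hcnt', hmono, -⟩ :=
    step hP ⟨a, ha⟩ T hT (fun w w' h1 h2 h3 p p' _ => hIso w w' h1 h2 h3 p p')
      (fun _ => a) hw 0 (Fin.last M) hne
  refine ⟨d', b' * c, T' 0, by positivity, hperf' 0, ?_, ?_⟩
  · intro p
    rw [hcnt', hcnt]
  · intro w w' h1 h2 h3
    exact hmono w w' h1 h2 h3 0 0 (hIso w w' h1 h2 h3 0 0)

theorem pn_one : PN 1 := by
  intro A F _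
  refine ⟨0, 1, leaf (Sum.inl 0), one_pos, rfl, ?_, ?_⟩
  · intro p
    have : p = 0 := Subsingleton.elim _ _
    subst this
    rfl
  · intro w w' _ _ h
    have h1 : w 0 = w' 0 := by
      have : ({w 0} : Multiset A) = {w' 0} := by
        simpa [content, Fin.univ_succ] using h
      simpa using this
    exact h1

/-- **P(N)** for all `N ≥ 1`. -/
theorem pn : ∀ N : ℕ, 0 < N → PN N := by
  intro N hN
  induction N, hN using Nat.le_induction with
  | base => exact pn_one
  | succ n hn ih => exact pn_succ hn ih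

end Vale.Agent.Lib.P058.TF
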