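import Mathlib

/-!
# Complete binary trees, types of labelled trees, and the automorphism 2-group
-/

namespace Vale.Agent.Lib.P058.Tree

/-- The leaves of the complete binary tree of depth `d`. -/
def X : ℕ → Type
  | 0 => Unit
  | d + 1 => Bool × X d

/-- The leaves form a finite type. -/
instance instFintypeX : (d : ℕ) → Fintype (X d)
  | 0 => inferInstanceAs (Fintype Unit)
  | d + 1 => @instFintypeProd Bool (X d) _ (instFintypeX d)

/-- The leaves have decidable equality. -/
instance instDecEqX : (d : ℕ) → DecidableEq (X d)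
  | 0 => inferInstanceAs (DecidableEq Unit)
  | d + 1 => @instDecidableEqProd Bool (X d) _ (instDecEqX d)

/-- Isomorphism types of labellings of the leaves of the complete binary tree of depth `d`
by labels in `S`, the two subtrees of a node being unordered. -/
def U (S : Type) : ℕ → Type
  | 0 => S
  | d + 1 => Sym2 (U S d)

/-- The isomorphism type of a labelling. -/
def typeOf {S : Type} : (d : ℕ) → (X d → S) → U S d
  | 0, f => f ()
  | d + 1, f => s(typeOf d (fun x => f (false, x)), typeOf d (fun x => f (true, x)))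

/-- The permutation of the leaves of depth `d + 1` given by a permutation `π` of the top bit and
permutations `g b` of the two subtrees. -/
def node {d : ℕ} (π : Equiv.Perm Bool) (g : Bool → Equiv.Perm (X d)) : Equiv.Perm (X (d + 1)) where
  toFun p := (π p.1, g p.1 p.2)
  invFun p := (π.symm p.1, (g (π.symm p.1)).symm p.2)
  left_inv p := by
    rcases p with ⟨b, x⟩
    show (π.symm (π b), (g (π.symm (π b))).symm (g b x)) = (b, x)
    simp
  right_inv p := by
    rcases p with ⟨b, x⟩
    show (π (π.symm b), g (π.symm b) ((g (π.symm b)).symm x)) = (b, x)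
    simp

@[simp] theorem node_apply {d : ℕ} (π : Equiv.Perm Bool) (g : Bool → Equiv.Perm (X d))
    (b : Bool) (x : X d) : node π g (b, x) = (π b, g b x) := rfl

theorem node_mul {d : ℕ} (π π' : Equiv.Perm Bool) (g g' : Bool → Equiv.Perm (X d)) :
    node π g * node π' g' = node (π * π') (fun b => g (π' b) * g' b) := by
  ext p : 1
  rcases p with ⟨b, x⟩
  rfl

theorem node_one {d : ℕ} : node (1 : Equiv.Perm Bool) (fun _ => (1 : Equiv.Perm (X d))) = 1 := by
  ext p : 1
  rcases p with ⟨b, x⟩
  rfl

theorem node_inv {d : ℕ} (π : Equiv.Perm Bool) (g : Bool → Equiv.Perm (X d)) :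
    (node π g)⁻¹ = node π⁻¹ (fun b => (g (π⁻¹ b))⁻¹) := by
  rw [inv_eq_iff_mul_eq_one, node_mul]
  simp [node_one]

/-- The group of automorphisms of the complete binary tree of depth `d`, acting on the leaves. -/
def A : (d : ℕ) → Subgroup (Equiv.Perm (X d))
  | 0 => ⊤
  | d + 1 =>
    { carrier := {h | ∃ (π : Equiv.Perm Bool) (g : Bool → Equiv.Perm (X d)),
        (∀ b, g b ∈ A d) ∧ h = node π g}
      mul_mem' := by
        rintro _ _ ⟨π, g, hg, rfl⟩ ⟨π', g', hg', rfl⟩
        exact ⟨π * π', _, fun b => (A d).mul_mem (hg _) (hg' _), node_mul _ _ _ _⟩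
      one_mem' := ⟨1, fun _ => 1, fun _ => (A d).one_mem, node_one.symm⟩
      inv_mem' := by
        rintro _ ⟨π, g, hg, rfl⟩
        exact ⟨π⁻¹, _, fun b => (A d).inv_mem (hg _), node_inv _ _⟩ }

theorem mem_A_succ {d : ℕ} {h : Equiv.Perm (X (d + 1))} :
    h ∈ A (d + 1) ↔ ∃ (π : Equiv.Perm Bool) (g : Bool → Equiv.Perm (X d)),
      (∀ b, g b ∈ A d) ∧ h = node π g := Iff.rfl

theorem node_mem_A {d : ℕ} (π : Equiv.Perm Bool) {g : Bool → Equiv.Perm (X d)}
    (hg : ∀ b, g b ∈ A d) : node π g ∈ A (d + 1) := ⟨π, g, hg, rfl⟩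

theorem node_one_pow {d : ℕ} (h : Bool → Equiv.Perm (X d)) (n : ℕ) :
    node 1 h ^ n = node 1 (fun b => h b ^ n) := by
  induction n with
  | zero => simp [node_one]
  | succ n ih =>
    rw [pow_succ, ih, node_mul]
    simp [pow_succ]

theorem perm_bool_sq (π : Equiv.Perm Bool) : π * π = 1 := by
  revert π
  decide

theorem perm_bool_cases (π : Equiv.Perm Bool) :
    (π false = false ∧ π true = true) ∨ (π false = true ∧ π true = false) := by
  revert π
  decide

/-- Every element of `A d` has order dividing `2 ^ d`. -/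
theorem A_pow : (d : ℕ) → ∀ g ∈ A d, g ^ 2 ^ d = 1
  | 0, g, _ => by
    ext x : 1
    rfl
  | d + 1, g, hg => by
    obtain ⟨π, g', hg', rfl⟩ := hg
    rw [pow_succ', pow_mul, pow_two, node_mul, perm_bool_sq, node_one_pow]
    have : (fun b => (g' (π b) * g' b) ^ 2 ^ d) = fun _ => (1 : Equiv.Perm (X d)) := by
      funext b
      exact A_pow d _ ((A d).mul_mem (hg' _) (hg' _))
    rw [this, node_one]

/-- The automorphism group of the tree is a `2`-group. -/
theorem isPGroup_A (d : ℕ) : IsPGroup 2 (A d) := fun g =>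
  ⟨d, Subtype.ext (by
    have := A_pow d g.1 g.2
    simpa using this)⟩

/-- Labellings of the same isomorphism type differ by an element of `A d`. -/
theorem exists_of_typeOf_eq {S : Type} : (d : ℕ) → (f f' : X d → S) → typeOf d f = typeOf d f' →
    ∃ g ∈ A d, ∀ x, f' (g x) = f x
  | 0, f, f', h => ⟨1, (A 0).one_mem, fun _ => h.symm⟩
  | d + 1, f, f', h => by
    have h' : s(typeOf d (fun x => f (false, x)), typeOf d (fun x => f (true, x))) =
        s(typeOf d (fun x => f' (false, x)), typeOf d (fun x => f' (true, x))) := h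
    rcases Sym2.eq_iff.mp h' with ⟨h0, h1⟩ | ⟨h0, h1⟩
    · obtain ⟨g0, hg0, e0⟩ := exists_of_typeOf_eq d _ _ h0
      obtain ⟨g1, hg1, e1⟩ := exists_of_typeOf_eq d _ _ h1
      refine ⟨node 1 (fun b => cond b g1 g0), node_mem_A 1 (fun b => by cases b <;> assumption), ?_⟩
      rintro ⟨b, x⟩
      cases b
      · exact e0 x
      · exact e1 x
    · obtain ⟨g0, hg0, e0⟩ := exists_of_typeOf_eq d _ _ h0
      obtain ⟨g1, hg1, e1⟩ := exists_of_typeOf_eq d _ _ h1
      refine ⟨node (Equiv.boolNot) (fun b => cond b g1 g0),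
        node_mem_A _ (fun b => by cases b <;> assumption), ?_⟩
      rintro ⟨b, x⟩
      cases b
      · exact e0 x
      · exact e1 x

/-- Conversely labellings differing by an element of `A d` have the same type. -/
theorem typeOf_eq_of_mem : (d : ℕ) → {S : Type} → (f f' : X d → S) → (g : Equiv.Perm (X d)) → g ∈ A d →
    (∀ x, f' (g x) = f x) → typeOf d f = typeOf d f'
  | 0, _, f, f', g, _, h => (h ()).symm
  | d + 1, S, f, f', g, hg, h => by
    obtain ⟨π, g', hg', rfl⟩ := hg
    have key : ∀ b, typeOf d (fun x => f (b, x)) = typeOf d (fun x => f' (π b, x)) := fun b =>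
      typeOf_eq_of_mem d _ _ (g' b) (hg' b) (fun x => h (b, x))
    show s(typeOf d (fun x => f (false, x)), typeOf d (fun x => f (true, x))) =
        s(typeOf d (fun x => f' (false, x)), typeOf d (fun x => f' (true, x)))
    rw [key false, key true]
    rcases perm_bool_cases π with ⟨h0, h1⟩ | ⟨h0, h1⟩
    · rw [h0, h1]
    · rw [h0, h1, Sym2.eq_swap]

end Vale.Agent.Lib.P058.Tree
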