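import Mathlib
import Vale.Agent.Lib.P058.FormulaGlue
import Vale.Agent.Lib.P058.TreeGroup
import Vale.Agent.Lib.P058.TreeFormula36

/-!
# Symmetrising formulas exist
-/

set_option linter.unusedVariables false
set_option linter.unusedSectionVars false

namespace Vale.Agent.Lib.P058

open Finset
open Vale.Agent.Lib.P058.Tree
open Vale.Agent.Lib.P058.TF

/-- The label at an address. -/
def fnX {α : Type} : (k : ℕ) → Tr α → X k → α
  | _, Tr.leaf a, _ => a
  | 0, Tr.node l _, x => fnX 0 l x
  | k + 1, Tr.node l r, (s, x) => if s then fnX k r x else fnX k l x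

theorem iso_exists_mem {α : Type} : (k : ℕ) → (t t' : Tr α) → Tr.Perf t k → Tr.Perf t' k →
    Tr.Iso t t' → ∃ g ∈ A k, ∀ x, fnX k t' (g x) = fnX k t x
  | 0, Tr.leaf a, Tr.leaf b, _, _, h => ⟨1, (A 0).one_mem, fun _ => by
      simp only [fnX]
      exact h.symm⟩
  | 0, Tr.node _ _, _, hp, _, _ => hp.elim
  | 0, _, Tr.node _ _, _, hp, _ => hp.elim
  | k + 1, Tr.leaf _, _, hp, _, _ => absurd hp (by simp [Tr.Perf])
  | k + 1, _, Tr.leaf _, _, hp, _ => absurd hp (by simp [Tr.Perf])
  | k + 1, Tr.node l r, Tr.node l' r', hp, hp', h => by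
    rcases h with ⟨h0, h1⟩ | ⟨h0, h1⟩
    · obtain ⟨g0, hg0, e0⟩ := iso_exists_mem k l l' hp.1 hp'.1 h0
      obtain ⟨g1, hg1, e1⟩ := iso_exists_mem k r r' hp.2 hp'.2 h1
      refine ⟨node 1 (fun b => cond b g1 g0), node_mem_A 1 (fun b => by cases b <;> assumption), ?_⟩
      rintro ⟨b, x⟩
      cases b
      · simpa [fnX] using e0 x
      · simpa [fnX] using e1 x
    · obtain ⟨g0, hg0, e0⟩ := iso_exists_mem k l r' hp.1 hp'.2 h0
      obtain ⟨g1, hg1, e1⟩ := iso_exists_mem k r l' hp.2 hp'.1 h1
      refine ⟨node (Equiv.boolNot) (fun b => cond b g1 g0),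
        node_mem_A _ (fun b => by cases b <;> assumption), ?_⟩
      rintro ⟨b, x⟩
      cases b
      · simpa [fnX] using e0 x
      · simpa [fnX] using e1 x

theorem fnX_map {α β : Type} (f : α → β) : (k : ℕ) → (t : Tr α) → (x : X k) →
    fnX k (Tr.map f t) x = f (fnX k t x)
  | _, Tr.leaf a, _ => by simp [fnX, Tr.map]
  | 0, Tr.node l _, x => by simp [fnX, Tr.map, fnX_map f 0 l x]
  | k + 1, Tr.node l r, (s, x) => by
    cases s <;> simp [fnX, Tr.map, fnX_map f k]

theorem card_fnX {N : ℕ} {B : Type} [DecidableEq B] (p : Fin N) : (k : ℕ) → (t : Tr (Fin N ⊕ B)) →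
    Tr.Perf t k → (univ.filter (fun x : X k => fnX k t x = Sum.inl p)).card = cnt p t
  | 0, Tr.node _ _, hp => hp.elim
  | k + 1, Tr.leaf _, hp => absurd hp (by simp [Tr.Perf])
  | 0, Tr.leaf a, _ => by
    rcases a with q | c
    · by_cases h : q = p
      · subst h
        simp only [fnX, cnt]
        simp
        rfl
      · have : ¬ (Sum.inl q : Fin N ⊕ B) = Sum.inl p := by simpa using h
        simp only [fnX, cnt, this, h]
        simp
    · simp only [fnX, cnt]
      simp
  | k + 1, Tr.node l r, hp => by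
    have h1 := card_fnX p k l hp.1
    have h2 := card_fnX p k r hp.2
    simp only [cnt]
    rw [← h1, ← h2, card_filter, card_filter, card_filter]
    have : ∑ x : X (k + 1), (if fnX (k + 1) (Tr.node l r) x = Sum.inl p then 1 else 0) =
        ∑ b : Bool, ∑ x : X k, (if fnX (k + 1) (Tr.node l r) (b, x) = Sum.inl p then 1 else 0) :=
      Fintype.sum_prod_type _
    rw [this, Fintype.sum_bool]
    simp only [fnX]
    simp [add_comm]

theorem content_perm {M : ℕ} {B : Type} (w : Fin M → B) (π : Equiv.Perm (Fin M)) :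
    content (w ∘ π) = content w := by
  unfold content
  have : (Finset.univ : Finset (Fin M)).val.map (w ∘ π) =
      ((Finset.univ : Finset (Fin M)).val.map π).map w := by
    rw [Multiset.map_map]
  rw [this]
  congr 1
  have h2 : (Finset.univ : Finset (Fin M)).map π.toEmbedding = Finset.univ :=
    Finset.map_univ_equiv π
  have h3 := congrArg Finset.val h2
  simp at h3 ⊢

/-- Symmetrising formulas exist for all word lengths. -/
theorem formulaStmt (N : ℕ) : FormulaStmt N (Fin N) := by
  classical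
  rcases Nat.eq_zero_or_pos N with rfl | hN
  · refine ⟨Empty, inferInstance, inferInstance, ⊥, fun x => x.elim, 1, one_pos, ?_, ?_, ?_⟩
    · exact IsPGroup.of_bot
    · intro i
      exact i.elim0
    · intro w π
      exact ⟨1, Subgroup.one_mem _, fun x => x.elim⟩
  · have hne : (Finset.univ : Finset (Fin N)).Nonempty := ⟨⟨0, hN⟩, mem_univ _⟩
    obtain ⟨k, b, t, hb, hperf, hcnt, hiso⟩ := pn N hN (Fin N) Finset.univ hne
    refine ⟨X k, inferInstance, inferInstance, A k, fnX k t, b, hb, isPGroup_A k, ?_, ?_⟩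
    · intro i
      rw [card_fnX i k t hperf, hcnt]
    · intro w π
      have h1 := hiso w (w ∘ π) (fun _ => mem_univ _) (fun _ => mem_univ _) (content_perm w π).symm
      obtain ⟨g, hg, he⟩ := iso_exists_mem k (ev w t) (ev (w ∘ π) t) (Tr.Perf.map hperf)
        (Tr.Perf.map hperf) h1
      refine ⟨g, hg, fun x => ?_⟩
      have := he x
      simp only [ev, fnX_map] at this
      exact this

end Vale.Agent.Lib.P058
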