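import Mathlib

/-!
# Additive maps with prescribed product rules on algebraically independent reals

For algebraically independent reals `t i` and arbitrary reals `c i` there is an additive
`Δ : ℝ → ℝ` with `Δ (t i * s) = t i * Δ s + c i * s` for all `i` and `s`.
-/

open MvPolynomial

namespace Vale.Agent.Lib.P058.GH

variable {n : ℕ}

/-- `ℝ`, as a module over the polynomial ring, polynomials acting through evaluation at `t`. -/
def RM (_t : Fin n → ℝ) : Type := ℝ

noncomputable instance (t : Fin n → ℝ) : AddCommGroup (RM t) :=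
  inferInstanceAs (AddCommGroup ℝ)

noncomputable instance (t : Fin n → ℝ) : Module (MvPolynomial (Fin n) ℚ) (RM t) :=
  letI : Module (MvPolynomial (Fin n) ℚ) ℝ :=
    Module.compHom ℝ ((aeval t : MvPolynomial (Fin n) ℚ →ₐ[ℚ] ℝ) : MvPolynomial (Fin n) ℚ →+* ℝ)
  inferInstanceAs (Module (MvPolynomial (Fin n) ℚ) ℝ)

/-- Forget the module structure. -/
def toR {t : Fin n → ℝ} (r : RM t) : ℝ := r

/-- Put the module structure. -/
def ofR (t : Fin n → ℝ) (r : ℝ) : RM t := r

theorem toR_smul (t : Fin n → ℝ) (p : MvPolynomial (Fin n) ℚ) (r : RM t) :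
    toR (p • r) = (aeval t p : ℝ) * toR r := rfl

/-- `ℝ` is an injective module when `t` is algebraically independent. -/
theorem baer_RM {t : Fin n → ℝ} (ht : AlgebraicIndependent ℚ t) :
    Module.Baer (MvPolynomial (Fin n) ℚ) (RM t) := by
  classical
  intro I g
  by_cases hI : ∃ i₀ : MvPolynomial (Fin n) ℚ, ∃ h : i₀ ∈ I, i₀ ≠ 0
  · obtain ⟨i₀, h0, hne⟩ := hI
    have hφ : (aeval t i₀ : ℝ) ≠ 0 := by
      intro h
      apply hne
      apply ht
      simpa using h
    let v : ℝ := toR (g ⟨i₀, h0⟩) / (aeval t i₀ : ℝ)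
    refine ⟨LinearMap.toSpanSingleton _ (RM t) (ofR t v), fun x hx => ?_⟩
    rw [LinearMap.toSpanSingleton_apply]
    have key : i₀ • g ⟨x, hx⟩ = x • g ⟨i₀, h0⟩ := by
      rw [← map_smul, ← map_smul]
      congr 1
      apply Subtype.ext
      simp [mul_comm]
    have key' : (aeval t i₀ : ℝ) * toR (g ⟨x, hx⟩) = (aeval t x : ℝ) * toR (g ⟨i₀, h0⟩) :=
      congrArg toR key
    have : (aeval t x : ℝ) * v = toR (g ⟨x, hx⟩) := by
      simp only [v]
      field_simp
      linarith
    exact this
  · push Not at hI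
    refine ⟨0, fun x hx => ?_⟩
    have hx0 : x = 0 := hI x hx
    subst hx0
    have : (⟨0, hx⟩ : I) = 0 := rfl
    rw [this, map_zero]
    simp

/-- The evaluation into the dual numbers. -/
noncomputable def psi (t c : Fin n → ℝ) : MvPolynomial (Fin n) ℚ →ₐ[ℚ] DualNumber ℝ :=
  aeval fun i => TrivSqZeroExt.inl (t i) + TrivSqZeroExt.inr (c i)

/-- The dual numbers `ℝ[ε]`, as a module over the polynomial ring through
`X i ↦ t i + c i ε`. -/
def EM (_t _c : Fin n → ℝ) : Type := DualNumber ℝ

noncomputable instance (t c : Fin n → ℝ) : AddCommGroup (EM t c) :=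
  inferInstanceAs (AddCommGroup (DualNumber ℝ))

noncomputable instance (t c : Fin n → ℝ) : Module (MvPolynomial (Fin n) ℚ) (EM t c) :=
  letI : Module (MvPolynomial (Fin n) ℚ) (DualNumber ℝ) :=
    Module.compHom (DualNumber ℝ) ((psi t c) : MvPolynomial (Fin n) ℚ →+* DualNumber ℝ)
  inferInstanceAs (Module (MvPolynomial (Fin n) ℚ) (DualNumber ℝ))

/-- Forget the module structure. -/
def toD {t c : Fin n → ℝ} (r : EM t c) : DualNumber ℝ := r

/-- Put the module structure. -/
def ofD (t c : Fin n → ℝ) (r : DualNumber ℝ) : EM t c := r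

theorem toD_smul (t c : Fin n → ℝ) (p : MvPolynomial (Fin n) ℚ) (r : EM t c) :
    toD (p • r) = psi t c p * toD r := rfl

theorem fst_psi (t c : Fin n → ℝ) (p : MvPolynomial (Fin n) ℚ) :
    (psi t c p).fst = (aeval t p : ℝ) := by
  have : ((TrivSqZeroExt.fstHom ℚ ℝ ℝ).comp (psi t c)) = aeval t := by
    apply MvPolynomial.algHom_ext
    intro i
    simp [psi]
  exact congrArg (fun f => f p) this

/-- **Multi-variable twisted derivation.** -/
theorem exists_multi_delta {t : Fin n → ℝ} (ht : AlgebraicIndependent ℚ t) (c : Fin n → ℝ) :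
    ∃ Δ : ℝ →+ ℝ, ∀ i s, Δ (t i * s) = t i * Δ s + c i * s := by
  classical
  let inc : RM t →ₗ[MvPolynomial (Fin n) ℚ] EM t c :=
    { toFun := fun r => ofD t c (TrivSqZeroExt.inr (toR r))
      map_add' := fun x y => by
        have : toR (x + y) = toR x + toR y := rfl
        rw [this, TrivSqZeroExt.inr_add]
        rfl
      map_smul' := fun p x => by
        rw [RingHom.id_apply]
        change ofD t c (TrivSqZeroExt.inr (toR (p • x))) = ofD t c (psi t c p * TrivSqZeroExt.inr (toR x))
        rw [toR_smul]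
        congr 1
        apply TrivSqZeroExt.ext
        · simp
        · simp [fst_psi, mul_comm] }
  have hinj : Function.Injective inc := by
    intro x y hxy
    have : (TrivSqZeroExt.inr (toR x) : DualNumber ℝ) = TrivSqZeroExt.inr (toR y) := hxy
    exact TrivSqZeroExt.inr_injective this
  obtain ⟨π, hπ⟩ := (baer_RM ht).extension_property inc hinj LinearMap.id
  let G : DualNumber ℝ → ℝ := fun x => toR (π (ofD t c x))
  have Gadd : ∀ x y, G (x + y) = G x + G y := by
    intro x y
    exact congrArg toR (map_add π (ofD t c x) (ofD t c y))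
  have G0 : G 0 = 0 := by
    have := Gadd 0 0
    simp only [add_zero] at this
    linarith
  have Gsmul : ∀ (p : MvPolynomial (Fin n) ℚ) x, G (psi t c p * x) = (aeval t p : ℝ) * G x := by
    intro p x
    exact congrArg toR (map_smul π p (ofD t c x))
  have Ginr : ∀ r : ℝ, G (TrivSqZeroExt.inr r) = r := by
    intro r
    have := congrArg (fun l => toR (l (ofR t r))) hπ
    exact this
  let Δ : ℝ →+ ℝ :=
    { toFun := fun s => - G (TrivSqZeroExt.inl s)
      map_zero' := by
        simp [G0]
      map_add' := fun x y => by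
        rw [TrivSqZeroExt.inl_add, Gadd]
        ring }
  refine ⟨Δ, fun i s => ?_⟩
  change - G (TrivSqZeroExt.inl (t i * s)) = t i * (- G (TrivSqZeroExt.inl s)) + c i * s
  have h1 := Gsmul (X i) (TrivSqZeroExt.inl s)
  have h2 : psi t c (X i) * (TrivSqZeroExt.inl s : DualNumber ℝ) =
      TrivSqZeroExt.inl (t i * s) + TrivSqZeroExt.inr (c i * s) := by
    apply TrivSqZeroExt.ext
    · simp [psi]
    · simp [psi, mul_comm]
  rw [h2, Gadd, Ginr] at h1
  simp only [aeval_X] at h1
  linarith

end Vale.Agent.Lib.P058.GH
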