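import Mathlib
import Vale.Agent.Lib.P058.GH36Base

/-!
# A general criterion for not being Ramsey: moments and a twisted derivation
-/

open Finset

namespace Vale.Agent.Lib.P058.GH

open Vale.Agent.Lib.P058

/-- The bucket of a real number: the integer part of `N w` modulo `N`. -/
noncomputable def bucket (N : ℕ) (hN : 0 < N) (w : ℝ) : Fin N :=
  ⟨(⌊(N : ℝ) * w⌋ % (N : ℤ)).toNat, by
    have hN' : (0 : ℤ) < N := by exact_mod_cast hN
    have h1 := Int.emod_nonneg ⌊(N : ℝ) * w⌋ hN'.ne'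
    have h2 := Int.emod_lt_of_pos ⌊(N : ℝ) * w⌋ hN'
    omega⟩

theorem bucket_eq {N : ℕ} (hN : 0 < N) {w w' : ℝ} (h : bucket N hN w = bucket N hN w') :
    ∃ m : ℤ, |w - w' - m| < 1 / N := by
  have hN' : (0 : ℤ) < N := by exact_mod_cast hN
  have hNR : (0 : ℝ) < N := by exact_mod_cast hN
  have h0 := congrArg Fin.val h
  simp only [bucket] at h0
  have h1 := Int.emod_nonneg ⌊(N : ℝ) * w⌋ hN'.ne'
  have h2 := Int.emod_nonneg ⌊(N : ℝ) * w'⌋ hN'.ne'
  have h3 : ⌊(N : ℝ) * w⌋ % (N : ℤ) = ⌊(N : ℝ) * w'⌋ % (N : ℤ) := by omega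
  refine ⟨⌊(N : ℝ) * w⌋ / N - ⌊(N : ℝ) * w'⌋ / N, ?_⟩
  have e1 := Int.mul_ediv_add_emod ⌊(N : ℝ) * w⌋ N
  have e2 := Int.mul_ediv_add_emod ⌊(N : ℝ) * w'⌋ N
  have e3 : ⌊(N : ℝ) * w⌋ - ⌊(N : ℝ) * w'⌋ =
      N * (⌊(N : ℝ) * w⌋ / N - ⌊(N : ℝ) * w'⌋ / N) := by
    rw [mul_sub]
    omega
  have e4 : ((⌊(N : ℝ) * w⌋ : ℤ) : ℝ) - ((⌊(N : ℝ) * w'⌋ : ℤ) : ℝ) =
      (N : ℝ) * (((⌊(N : ℝ) * w⌋ / N - ⌊(N : ℝ) * w'⌋ / N : ℤ)) : ℝ) := by
    exact_mod_cast e3
  have f1 := Int.floor_le ((N : ℝ) * w)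
  have f2 := Int.lt_floor_add_one ((N : ℝ) * w)
  have f3 := Int.floor_le ((N : ℝ) * w')
  have f4 := Int.lt_floor_add_one ((N : ℝ) * w')
  set m : ℝ := ((⌊(N : ℝ) * w⌋ / N - ⌊(N : ℝ) * w'⌋ / N : ℤ) : ℝ) with hm
  rw [abs_lt]
  constructor
  · rw [neg_lt_iff_pos_add', ← sub_pos]
    have : 0 < (N : ℝ) * (w - w' - m + 1 / N) := by
      have : (N : ℝ) * (w - w' - m + 1 / N) = (N : ℝ) * w - (N : ℝ) * w' - (N : ℝ) * m + 1 := by
        field_simp
      rw [this]
      linarith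
    have h5 := (pos_iff_pos_of_mul_pos this).mp hNR
    linarith
  · rw [← sub_pos]
    have : 0 < (N : ℝ) * (1 / N - (w - w' - m)) := by
      have : (N : ℝ) * (1 / N - (w - w' - m)) = 1 - ((N : ℝ) * w - (N : ℝ) * w' - (N : ℝ) * m) := by
        field_simp
      rw [this]
      linarith
    exact (pos_iff_pos_of_mul_pos this).mp hNR

/-- The sums of products of two linear combinations of two sequences. -/
theorem sum_bilin {D : ℕ} (a b : Fin D → ℝ) (α β γ δ : ℝ) :
    ∑ q, (α * a q + β * b q) * (γ * a q + δ * b q) =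
      α * γ * ∑ q, a q * a q + (α * δ + β * γ) * ∑ q, a q * b q + β * δ * ∑ q, b q * b q := by
  rw [mul_sum, mul_sum, mul_sum, ← sum_add_distrib, ← sum_add_distrib]
  refine sum_congr rfl fun q _ => ?_
  ring

/-- **The frame of a congruent copy.** A distance preserving image of a planar family containing
three non-collinear points has the form `τ + x u + y v` with `u, v` orthonormal. -/
theorem frame_exists {D k : ℕ} (x y : Fin k → ℝ) (f : E 2 → E D)
    (hf : ∀ i j, dist (f (pt (x i) (y i))) (f (pt (x j) (y j))) = dist (pt (x i) (y i)) (pt (x j) (y j)))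
    (i0 i1 i2 : Fin k)
    (hdet : (x i1 - x i0) * (y i2 - y i0) - (x i2 - x i0) * (y i1 - y i0) ≠ 0) :
    ∃ τ u v : Fin D → ℝ, (∀ i q, f (pt (x i) (y i)) q = τ q + x i * u q + y i * v q) ∧
      ∑ q, u q * u q = 1 ∧ ∑ q, u q * v q = 0 ∧ ∑ q, v q * v q = 1 := by
  set dx1 := x i1 - x i0 with hdx1
  set dy1 := y i1 - y i0 with hdy1
  set dx2 := x i2 - x i0 with hdx2
  set dy2 := y i2 - y i0 with hdy2
  set det := dx1 * dy2 - dx2 * dy1 with hdetdef
  let P : Fin k → E D := fun i => f (pt (x i) (y i))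
  let a : Fin D → ℝ := fun q => P i1 q - P i0 q
  let b : Fin D → ℝ := fun q => P i2 q - P i0 q
  have haa : ∑ q, a q * a q = dx1 * dx1 + dy1 * dy1 := by
    have h1 : dist (P i1) (P i0) ^ 2 = (x i1 - x i0) ^ 2 + (y i1 - y i0) ^ 2 := by
      rw [hf, dist_pt_sq]
    rw [dist_sq_eq] at h1
    simp only [a, hdx1, hdy1]
    rw [← sq, ← sq]
    rw [← h1]
    exact sum_congr rfl fun q _ => by ring
  have hbb : ∑ q, b q * b q = dx2 * dx2 + dy2 * dy2 := by
    have h1 : dist (P i2) (P i0) ^ 2 = (x i2 - x i0) ^ 2 + (y i2 - y i0) ^ 2 := by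
      rw [hf, dist_pt_sq]
    rw [dist_sq_eq] at h1
    simp only [b, hdx2, hdy2]
    rw [← sq, ← sq]
    rw [← h1]
    exact sum_congr rfl fun q _ => by ring
  have hab : ∑ q, a q * b q = dx1 * dx2 + dy1 * dy2 := by
    have h1 : dist (P i1) (P i2) ^ 2 = (x i1 - x i2) ^ 2 + (y i1 - y i2) ^ 2 := by
      rw [hf, dist_pt_sq]
    rw [dist_sq_eq] at h1
    have h2 : ∑ q, (P i1 q - P i2 q) ^ 2 =
        ∑ q, a q * a q - 2 * ∑ q, a q * b q + ∑ q, b q * b q := by
      rw [mul_sum, ← sum_sub_distrib, ← sum_add_distrib]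
      refine sum_congr rfl fun q _ => ?_
      simp only [a, b]
      ring
    rw [h2, haa, hbb] at h1
    have h3 : x i1 - x i2 = dx1 - dx2 := by simp only [hdx1, hdx2]; ring
    have h4 : y i1 - y i2 = dy1 - dy2 := by simp only [hdy1, hdy2]; ring
    rw [h3, h4] at h1
    linarith
  let u : Fin D → ℝ := fun q => (dy2 / det) * a q + (-dy1 / det) * b q
  let v : Fin D → ℝ := fun q => (-dx2 / det) * a q + (dx1 / det) * b q
  let τ : Fin D → ℝ := fun q => P i0 q - x i0 * u q - y i0 * v q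
  refine ⟨τ, u, v, ?_, ?_, ?_, ?_⟩
  · intro i q
    let Q : Fin 3 → E 2 := ![pt (x i0) (y i0), pt (x i1) (y i1), pt (x i2) (y i2)]
    let l1 : ℝ := ((x i - x i0) * dy2 - (y i - y i0) * dx2) / det
    let l2 : ℝ := (-(x i - x i0) * dy1 + (y i - y i0) * dx1) / det
    let lam : Fin 3 → ℝ := ![1 - l1 - l2, l1, l2]
    have hlam : ∑ j, lam j = 1 := by
      rw [Fin.sum_univ_three]
      simp only [lam, Matrix.cons_val]
      ring
    have hc : pt (x i) (y i) = ∑ j, lam j • Q j := by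
      rw [Fin.sum_univ_three]
      ext c
      fin_cases c
      · simp [lam, Q, pt, l1, l2]
        field_simp
        simp only [hdetdef, hdx1, hdx2, hdy1, hdy2]
        ring
      · simp [lam, Q, pt, l1, l2]
        field_simp
        simp only [hdetdef, hdx1, hdx2, hdy1, hdy2]
        ring
    have hQ : ∀ j, ∃ i', Q j = pt (x i') (y i') := by
      intro j
      fin_cases j
      · exact ⟨i0, rfl⟩
      · exact ⟨i1, rfl⟩
      · exact ⟨i2, rfl⟩
    have hy := affine_preserved Q (fun j => f (Q j)) (pt (x i) (y i)) (f (pt (x i) (y i))) lam hlam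
      (fun j l => by
        obtain ⟨a1, ha1⟩ := hQ j
        obtain ⟨a2, ha2⟩ := hQ l
        simp only [ha1, ha2]
        exact hf _ _)
      (fun j => by
        obtain ⟨a1, ha1⟩ := hQ j
        simp only [ha1]
        exact hf _ _) hc
    have hyq : f (pt (x i) (y i)) q = (1 - l1 - l2) * P i0 q + l1 * P i1 q + l2 * P i2 q := by
      rw [hy, Fin.sum_univ_three]
      simp [lam, Q, P]
    rw [hyq]
    simp only [τ, u, v, a, b, l1, l2]
    field_simp
    ring
  · have : ∑ q, u q * u q = 1 := by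
      simp only [u]
      rw [sum_bilin a b, haa, hab, hbb]
      field_simp
      simp only [hdetdef]
      ring
    exact this
  · have : ∑ q, u q * v q = 0 := by
      simp only [u, v]
      rw [sum_bilin a b, haa, hab, hbb]
      field_simp
      ring
    exact this
  · have : ∑ q, v q * v q = 1 := by
      simp only [v]
      rw [sum_bilin a b, haa, hab, hbb]
      field_simp
      simp only [hdetdef]
      ring
    exact this

/-- **The moment criterion.**  If a planar family carries a twisted derivation and real weights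
annihilating the moments below, while the last moment does not vanish, it is not Ramsey. -/
theorem not_ramsey_of_moments {k : ℕ} (x y x' y' b : Fin k → ℝ) (Δ : ℝ →+ ℝ)
    (hx : ∀ i, HasD Δ (x i) (x' i)) (hy : ∀ i, HasD Δ (y i) (y' i))
    (i0 i1 i2 : Fin k)
    (hdet : (x i1 - x i0) * (y i2 - y i0) - (x i2 - x i0) * (y i1 - y i0) ≠ 0)
    (m0 : ∑ i, b i = 0) (m1 : ∑ i, b i * x i = 0) (m2 : ∑ i, b i * y i = 0)
    (m3 : ∑ i, b i * x i * x i = 0) (m4 : ∑ i, b i * x i * y i = 0) (m5 : ∑ i, b i * y i * y i = 0)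
    (m6 : ∑ i, b i * x' i = 0) (m7 : ∑ i, b i * y' i = 0)
    (m8 : ∑ i, b i * x i * x' i = 0) (m9 : ∑ i, b i * x i * y' i = 0)
    (m10 : ∑ i, b i * y i * x' i = 0) (m11 : ∑ i, b i * y i * y' i = 0)
    (hJ : ∑ i, b i * (x' i ^ 2 + y' i ^ 2) ≠ 0) :
    ¬ IsRamsey (Set.range fun i => pt (x i) (y i)) := by
  classical
  intro hR
  set J := ∑ i, b i * (x' i ^ 2 + y' i ^ 2) with hJdef
  have hk : 0 < k := i0.pos
  let N : ℕ := 4 * k
  have hN : 0 < N := by positivity
  have hr : 2 ≤ N ^ k := by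
    calc 2 ≤ N ^ 1 := by simp only [pow_one, N]; omega
      _ ≤ N ^ k := Nat.pow_le_pow_right hN hk
  obtain ⟨D, -, h⟩ := hR (N ^ k) hr
  let col : E D → (Fin k → Fin N) := fun w l => bucket N hN (b l * zfun Δ w / (2 * J))
  obtain ⟨f, hf, κ, hκ⟩ := h (fun w => finFunctionFinEquiv (col w))
  have hP : ∀ i, pt (x i) (y i) ∈ Set.range fun i => pt (x i) (y i) := fun i => ⟨i, rfl⟩
  obtain ⟨τ, u, v, hform, huu, huv, hvv⟩ :=
    frame_exists x y f (fun i j => hf _ (hP i) _ (hP j)) i0 i1 i2 hdet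
  have hcol : ∀ i, col (f (pt (x i) (y i))) = col (f (pt (x i0) (y i0))) := fun i =>
    finFunctionFinEquiv.injective ((hκ _ (hP i)).trans (hκ _ (hP i0)).symm)
  set z : Fin k → ℝ := fun i => zfun Δ (f (pt (x i) (y i))) with hz
  have hz2 : ∀ i, z i = ∑ q, (Δ (τ q) + x i * Δ (u q) + x' i * u q + y i * Δ (v q) + y' i * v q) ^ 2 :=
    fun i => z_formula (hx i) (hy i) _ τ u v (hform i)
  have hsum : ∑ i, b i * z i = J := by
    have step : ∀ q, ∑ i, b i * (Δ (τ q) + x i * Δ (u q) + x' i * u q + y i * Δ (v q) + y' i * v q) ^ 2 =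
        (∑ i, b i * x' i ^ 2) * (u q * u q) + 2 * (∑ i, b i * (x' i * y' i)) * (u q * v q) +
          (∑ i, b i * y' i ^ 2) * (v q * v q) := by
      intro q
      have e : ∀ A B C G H : ℝ, ∑ i, b i * (A + x i * B + x' i * C + y i * G + y' i * H) ^ 2 =
          A ^ 2 * ∑ i, b i + 2 * A * B * ∑ i, b i * x i + 2 * A * C * ∑ i, b i * x' i +
          2 * A * G * ∑ i, b i * y i + 2 * A * H * ∑ i, b i * y' i +
          B ^ 2 * ∑ i, b i * x i * x i + 2 * B * C * ∑ i, b i * x i * x' i +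
          2 * B * G * ∑ i, b i * x i * y i + 2 * B * H * ∑ i, b i * x i * y' i +
          2 * C * G * ∑ i, b i * y i * x' i + G ^ 2 * ∑ i, b i * y i * y i +
          2 * G * H * ∑ i, b i * y i * y' i +
          (∑ i, b i * x' i ^ 2) * (C * C) + 2 * (∑ i, b i * (x' i * y' i)) * (C * H) +
          (∑ i, b i * y' i ^ 2) * (H * H) := by
        intro A B C G H
        simp only [mul_sum, sum_mul, ← sum_add_distrib]
        refine sum_congr rfl fun i _ => ?_
        ring
      rw [e, m0, m1, m2, m3, m4, m5, m6, m7, m8, m9, m10, m11]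
      ring
    calc ∑ i, b i * z i
        = ∑ q, ∑ i, b i * (Δ (τ q) + x i * Δ (u q) + x' i * u q + y i * Δ (v q) + y' i * v q) ^ 2 := by
          rw [sum_comm]
          refine sum_congr rfl fun i _ => ?_
          rw [hz2, mul_sum]
      _ = J := by
          simp only [step]
          rw [sum_add_distrib, sum_add_distrib, ← mul_sum, ← mul_sum, ← mul_sum, huu, huv, hvv]
          simp only [mul_one, mul_zero, add_zero, hJdef]
          rw [← sum_add_distrib]
          refine sum_congr rfl fun i _ => ?_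
          ring
  have hbuck : ∀ i, ∃ m : ℤ, |b i * z i / (2 * J) - b i * z i0 / (2 * J) - m| < 1 / N := by
    intro i
    apply bucket_eq hN
    exact congrFun (hcol i) i
  choose m hm using hbuck
  have hs1 : ∑ i, (b i * z i / (2 * J) - b i * z i0 / (2 * J)) = 1 / 2 := by
    rw [sum_sub_distrib, ← sum_div, ← sum_div, hsum, ← sum_mul, m0]
    field_simp
    simp
  have hs2 : |(1 / 2 : ℝ) - ((∑ i, m i : ℤ) : ℝ)| < 1 / 4 := by
    have h1 : (1 / 2 : ℝ) - ((∑ i, m i : ℤ) : ℝ) =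
        ∑ i, (b i * z i / (2 * J) - b i * z i0 / (2 * J) - m i) := by
      rw [sum_sub_distrib, hs1]
      push_cast
      rfl
    rw [h1]
    have hne : (univ : Finset (Fin k)).Nonempty := ⟨i0, mem_univ _⟩
    calc |∑ i, (b i * z i / (2 * J) - b i * z i0 / (2 * J) - m i)|
        ≤ ∑ i, |b i * z i / (2 * J) - b i * z i0 / (2 * J) - m i| := abs_sum_le_sum_abs _ _
      _ < ∑ _i : Fin k, (1 / N : ℝ) := sum_lt_sum_of_nonempty hne fun i _ => hm i
      _ = 1 / 4 := by
          simp only [sum_const, card_univ, Fintype.card_fin, nsmul_eq_mul, N]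
          push_cast
          have : (k : ℝ) ≠ 0 := by exact_mod_cast hk.ne'
          field_simp
  rw [abs_lt] at hs2
  have h3 : (1 : ℝ) < 4 * ((∑ i, m i : ℤ) : ℝ) + 4 - 2 := by linarith [hs2.1, hs2.2]
  obtain ⟨h4, h5⟩ := hs2
  have l1 : (1 / 4 : ℝ) < ((∑ i, m i : ℤ) : ℝ) := by linarith
  have l2 : ((∑ i, m i : ℤ) : ℝ) < 3 / 4 := by linarith
  have l1' : (0 : ℤ) < ∑ i, m i := by
    have : (0 : ℝ) < ((∑ i, m i : ℤ) : ℝ) := by linarith
    exact_mod_cast this
  have l2' : ∑ i, m i < (1 : ℤ) := by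
    have : ((∑ i, m i : ℤ) : ℝ) < 1 := by linarith
    exact_mod_cast this
  omega

end Vale.Agent.Lib.P058.GH
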