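import Mathlib
import Vale.Agent.Lib.P058.GH36A
import Vale.Agent.Lib.P058.GH36B

/-!
# Seven points on a circle with algebraically independent half-angle tangents are not Ramsey
-/

open Finset Polynomial

namespace Vale.Agent.Lib.P058.GH

open Vale.Agent.Lib.P058

/-- The rational parametrisation of the unit circle: first coordinate. -/
noncomputable def cosT (s : ℝ) : ℝ := (1 - s ^ 2) / (1 + s ^ 2)

/-- The rational parametrisation of the unit circle: second coordinate. -/
noncomputable def sinT (s : ℝ) : ℝ := 2 * s / (1 + s ^ 2)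

/-- The point of the unit circle with half-angle tangent `s`. -/
noncomputable def circlePt (s : ℝ) : E 2 := pt (cosT s) (sinT s)

theorem one_add_sq_ne (s : ℝ) : 1 + s ^ 2 ≠ 0 := by positivity

theorem hasD_circle {Δ : ℝ →+ ℝ} {t u : ℝ} (h : ∀ s, Δ (t * s) = t * Δ s + (u * (1 + t ^ 2) / 2) * s) :
    HasD Δ (cosT t) (-(u * sinT t)) ∧ HasD Δ (sinT t) (u * cosT t) := by
  have hq := one_add_sq_ne t
  set c := u * (1 + t ^ 2) / 2 with hc
  have h1 : ∀ w, Δ ((1 + t ^ 2) * w) = (1 + t ^ 2) * Δ w + 2 * t * c * w := by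
    intro w
    have e : (1 + t ^ 2) * w = w + t * (t * w) := by ring
    rw [e, map_add, h, h]
    ring
  set R := (1 + t ^ 2)⁻¹ with hR
  have hRq : (1 + t ^ 2) * R = 1 := by
    rw [hR]
    field_simp
  have h2 : ∀ s, Δ (R * s) = R * Δ s - 2 * t * c * R ^ 2 * s := by
    intro s
    have e1 := h1 (R * s)
    have e2 : (1 + t ^ 2) * (R * s) = s := by
      rw [← mul_assoc, hRq, one_mul]
    rw [e2] at e1
    rw [e1]
    have e3 : R * ((1 + t ^ 2) * Δ (R * s)) = Δ (R * s) := by
      rw [← mul_assoc, mul_comm R, hRq, one_mul]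
    have e4 : R * (2 * t * c * (R * s)) = 2 * t * c * R ^ 2 * s := by ring
    rw [mul_add, e3, e4]
    ring
  have hcos : cosT t = 2 * R - 1 := by
    simp only [cosT, hR]
    field_simp
    ring
  have hsin : sinT t = 2 * t * R := by
    simp only [sinT, hR]
    field_simp
  have hcR : 2 * c * R = u := by
    rw [hc, hR]
    field_simp
  constructor
  · intro s
    have e : cosT t * s = R * s + R * s - s := by
      rw [hcos]
      ring
    rw [e, map_sub, map_add, h2, hcos, hsin]
    have e5 : 4 * t * (c * R) * R = 2 * t * u * R := by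
      rw [← hcR]
      ring
    linear_combination (-s) * e5
  · intro s
    have e : sinT t * s = t * (R * s) + t * (R * s) := by
      rw [hsin]
      ring
    rw [e, map_add, h, h2, hcos, hsin]
    have e6 : (1 + t ^ 2) * R = 1 := hRq
    have e7 : 2 * c * R = u := hcR
    linear_combination (s - 2 * t ^ 2 * R * s) * e7 - 2 * u * s * e6

section Lagrange

variable {t : Fin 7 → ℝ}

/-- The Lagrange weight. -/
noncomputable def beta (t : Fin 7 → ℝ) (i : Fin 7) : ℝ := (∏ j ∈ univ.erase i, (t i - t j))⁻¹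

theorem sum_beta (ht : Function.Injective t) (P : ℝ[X]) (hP : P.natDegree ≤ 5) :
    ∑ i, beta t i * P.eval (t i) = 0 := by
  have hvs : Set.InjOn t (univ : Finset (Fin 7)) := ht.injOn
  have hdeg : P.degree < (#(univ : Finset (Fin 7)) : ℕ) := by
    simp only [card_univ, Fintype.card_fin]
    calc P.degree ≤ P.natDegree := degree_le_natDegree
      _ < ((7 : ℕ) : WithBot ℕ) := by exact_mod_cast (by omega : P.natDegree < 7)
  have h := Lagrange.coeff_eq_sum hvs hdeg
  have h0 : P.coeff (#(univ : Finset (Fin 7)) - 1) = 0 := by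
    apply coeff_eq_zero_of_natDegree_lt
    simp only [card_univ, Fintype.card_fin]
    omega
  rw [h0] at h
  rw [h]
  refine sum_congr rfl fun i _ => ?_
  simp only [beta]
  rw [div_eq_mul_inv, mul_comm]

theorem sum_beta_inv_ne (ht : Function.Injective t) {σ : ℝ} (hσ : ∀ i, σ ≠ t i) :
    ∑ i, beta t i * (t i - σ)⁻¹ ≠ 0 := by
  have hvs : Set.InjOn t (univ : Finset (Fin 7)) := ht.injOn
  have h := Lagrange.sum_nodalWeight_mul_inv_sub_ne_zero hvs (x := σ) (fun i _ => hσ i)
    (⟨0, mem_univ _⟩ : (univ : Finset (Fin 7)).Nonempty)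
  intro h0
  apply h
  have : ∑ i, Lagrange.nodalWeight univ t i * (σ - t i)⁻¹ = - ∑ i, beta t i * (t i - σ)⁻¹ := by
    rw [← sum_neg_distrib]
    refine sum_congr rfl fun i _ => ?_
    have e : (σ - t i)⁻¹ = - (t i - σ)⁻¹ := by
      rw [← neg_sub, inv_neg]
    rw [e, mul_neg]
    congr 2
    simp [Lagrange.nodalWeight, beta, prod_inv_distrib]
  rw [this, h0, neg_zero]

end Lagrange

/-- **Seven points**. -/
theorem seven_not_ramsey {t : Fin 7 → ℝ} (ht : AlgebraicIndependent ℚ t) :
    ¬ IsRamsey (Set.range fun i => circlePt (t i)) := by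
  classical
  have hinj : Function.Injective t := ht.injective
  obtain ⟨σ, hσ'⟩ : ∃ σ : ℝ, σ ∉ Set.range t := (Set.finite_range t).infinite_compl.nonempty
  have hσ : ∀ i, σ ≠ t i := fun i h => hσ' ⟨i, h.symm⟩
  have hs : ∀ i, t i - σ ≠ 0 := fun i => sub_ne_zero.mpr (hσ i).symm
  have hq : ∀ i, 1 + t i ^ 2 ≠ 0 := fun i => one_add_sq_ne _
  let u : Fin 7 → ℝ := fun i => (t i - σ)⁻¹
  obtain ⟨Δ, hΔ⟩ := exists_multi_delta ht (fun i => u i * (1 + t i ^ 2) / 2)
  let x : Fin 7 → ℝ := fun i => cosT (t i)
  let y : Fin 7 → ℝ := fun i => sinT (t i)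
  let x' : Fin 7 → ℝ := fun i => -(u i * sinT (t i))
  let y' : Fin 7 → ℝ := fun i => u i * cosT (t i)
  let b : Fin 7 → ℝ := fun i => (t i - σ) * (1 + t i ^ 2) ^ 2 * beta t i
  have mom : ∀ (P : ℝ[X]) (_ : P.natDegree ≤ 5) (F : Fin 7 → ℝ),
      (∀ i, F i = beta t i * P.eval (t i)) → ∑ i, F i = 0 := by
    intro P hP F hF
    rw [← sum_beta hinj P hP]
    exact sum_congr rfl fun i _ => hF i
  have hdet : (x 1 - x 0) * (y 2 - y 0) - (x 2 - x 0) * (y 1 - y 0) ≠ 0 := by
    have h01 : t 1 - t 0 ≠ 0 := sub_ne_zero.mpr (hinj.ne (by decide))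
    have h02 : t 2 - t 0 ≠ 0 := sub_ne_zero.mpr (hinj.ne (by decide))
    have h12 : t 2 - t 1 ≠ 0 := sub_ne_zero.mpr (hinj.ne (by decide))
    have e : (x 1 - x 0) * (y 2 - y 0) - (x 2 - x 0) * (y 1 - y 0) =
        4 * (t 1 - t 0) * (t 2 - t 0) * (t 2 - t 1) /
          ((1 + t 0 ^ 2) * (1 + t 1 ^ 2) * (1 + t 2 ^ 2)) := by
      simp only [x, y, cosT, sinT]
      have := hq 0
      have := hq 1
      have := hq 2
      field_simp
      ring
    rw [e]
    exact div_ne_zero (mul_ne_zero (mul_ne_zero (mul_ne_zero (by norm_num) h01) h02) h12)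
      (mul_ne_zero (mul_ne_zero (hq 0) (hq 1)) (hq 2))
  have hJ : ∑ i, b i * (x' i ^ 2 + y' i ^ 2) ≠ 0 := by
    have e : ∀ i, b i * (x' i ^ 2 + y' i ^ 2) =
        beta t i * ((X + C σ) * (2 + X ^ 2 + C (σ ^ 2)) : ℝ[X]).eval (t i) +
          (1 + σ ^ 2) ^ 2 * (beta t i * (t i - σ)⁻¹) := by
      intro i
      simp only [b, x', y', u, cosT, sinT]
      have := hq i
      have := hs i
      simp
      field_simp
      try ring
    have h0 : ∑ i, beta t i * ((X + C σ) * (2 + X ^ 2 + C (σ ^ 2)) : ℝ[X]).eval (t i) = 0 :=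
      sum_beta hinj _ (by compute_degree <;> norm_num)
    simp only [e]
    rw [sum_add_distrib, h0, zero_add, ← mul_sum]
    exact mul_ne_zero (pow_ne_zero _ (one_add_sq_ne σ)) (sum_beta_inv_ne hinj hσ)
  refine not_ramsey_of_moments x y x' y' b Δ
    (fun i => (hasD_circle (hΔ i)).1) (fun i => (hasD_circle (hΔ i)).2) 0 1 2 hdet
    ?_ ?_ ?_ ?_ ?_ ?_ ?_ ?_ ?_ ?_ ?_ ?_ hJ
  · exact mom ((X - C σ) * (1 + X ^ 2) ^ 2) (by compute_degree <;> norm_num) _ fun i => by
      simp only [b]
      simp
      ring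
  · exact mom ((X - C σ) * ((1 + X ^ 2) * (1 - X ^ 2))) (by compute_degree <;> norm_num) _ fun i => by
      simp only [b, x, cosT]
      have := hq i
      simp
      field_simp
      try ring
  · exact mom ((X - C σ) * ((1 + X ^ 2) * (2 * X))) (by compute_degree <;> norm_num) _ fun i => by
      simp only [b, y, sinT]
      have := hq i
      simp
      field_simp
      try ring
  · exact mom ((X - C σ) * ((1 - X ^ 2) * (1 - X ^ 2))) (by compute_degree <;> norm_num) _ fun i => by
      simp only [b, x, cosT]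
      have := hq i
      simp
      field_simp
      try ring
  · exact mom ((X - C σ) * ((1 - X ^ 2) * (2 * X))) (by compute_degree <;> norm_num) _ fun i => by
      simp only [b, x, y, cosT, sinT]
      have := hq i
      simp
      field_simp
      try ring
  · exact mom ((X - C σ) * ((2 * X) * (2 * X))) (by compute_degree <;> norm_num) _ fun i => by
      simp only [b, y, sinT]
      have := hq i
      simp
      field_simp
      try ring
  · exact mom (-((1 + X ^ 2) * (2 * X))) (by compute_degree <;> norm_num) _ fun i => by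
      simp only [b, x', u, sinT]
      have := hq i
      have := hs i
      simp
      field_simp
      try ring
  · exact mom ((1 + X ^ 2) * (1 - X ^ 2)) (by compute_degree <;> norm_num) _ fun i => by
      simp only [b, y', u, cosT]
      have := hq i
      have := hs i
      simp
      field_simp
      try ring
  · exact mom (-((1 - X ^ 2) * (2 * X))) (by compute_degree <;> norm_num) _ fun i => by
      simp only [b, x, x', u, cosT, sinT]
      have := hq i
      have := hs i
      simp
      field_simp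
      try ring
  · exact mom ((1 - X ^ 2) * (1 - X ^ 2)) (by compute_degree <;> norm_num) _ fun i => by
      simp only [b, x, y', u, cosT, sinT]
      have := hq i
      have := hs i
      simp
      field_simp
      try ring
  · exact mom (-((2 * X) * (2 * X))) (by compute_degree <;> norm_num) _ fun i => by
      simp only [b, y, x', u, cosT, sinT]
      have := hq i
      have := hs i
      simp
      field_simp
      try ring
  · exact mom ((2 * X) * (1 - X ^ 2)) (by compute_degree <;> norm_num) _ fun i => by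
      simp only [b, y, y', u, cosT, sinT]
      have := hq i
      have := hs i
      simp
      field_simp
      try ring

/-- Being Ramsey passes to subsets. -/
theorem isRamsey_mono {d : ℕ} {A B : Set (EuclideanSpace ℝ (Fin d))} (hAB : A ⊆ B)
    (h : IsRamsey B) : IsRamsey A := by
  intro r hr
  obtain ⟨D, hD, H⟩ := h r hr
  refine ⟨D, hD, fun c => ?_⟩
  obtain ⟨f, hf, k, hk⟩ := H c
  exact ⟨f, fun a ha b hb => hf a (hAB ha) b (hAB hb), k, fun a ha => hk a (hAB ha)⟩

/-- Being Ramsey does not depend on the scale. -/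
theorem isRamsey_of_scale {d : ℕ} {A : Set (EuclideanSpace ℝ (Fin d))} {ρ : ℝ} (hρ : 0 < ρ)
    (h : IsRamsey ((fun a => ρ • a) '' A)) : IsRamsey A := by
  intro r hr
  obtain ⟨D, hD, H⟩ := h r hr
  refine ⟨D, hD, fun c => ?_⟩
  obtain ⟨f, hf, k, hk⟩ := H (fun y => c (ρ⁻¹ • y))
  refine ⟨fun a => ρ⁻¹ • f (ρ • a), fun a ha b hb => ?_, k, fun a ha => ?_⟩
  · have h1 := hf (ρ • a) ⟨a, ha, rfl⟩ (ρ • b) ⟨b, hb, rfl⟩
    rw [dist_smul₀, h1, dist_smul₀, Real.norm_eq_abs, Real.norm_eq_abs, abs_inv, abs_of_pos hρ,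
      ← mul_assoc, inv_mul_cancel₀ hρ.ne', one_mul]
  · exact hk (ρ • a) ⟨a, ha, rfl⟩

/-- The norm of the point of the unit circle. -/
theorem norm_circlePt (s : ℝ) : ‖circlePt s‖ = 1 := by
  refine norm_pt _ _ _ zero_le_one ?_
  simp only [cosT, sinT]
  have := one_add_sq_ne s
  field_simp
  ring

/-- The parametrisation of the circle is injective. -/
theorem circlePt_injective : Function.Injective circlePt := by
  intro s s' h
  have h1 : dist (circlePt s) (circlePt s') ^ 2 = 0 := by
    rw [h, dist_self]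
    norm_num
  rw [circlePt, circlePt, dist_pt_sq] at h1
  have hx : cosT s = cosT s' := by nlinarith [sq_nonneg (cosT s - cosT s'), sq_nonneg (sinT s - sinT s')]
  have hy : sinT s = sinT s' := by nlinarith [sq_nonneg (cosT s - cosT s'), sq_nonneg (sinT s - sinT s')]
  simp only [cosT, sinT] at hx hy
  have h2 := one_add_sq_ne s
  have h3 := one_add_sq_ne s'
  field_simp at hx hy
  have h4 : s ^ 2 = s' ^ 2 := by nlinarith
  have h5 : s * (1 + s' ^ 2) = s' * (1 + s ^ 2) := by linarith
  rw [← h4] at h5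
  have h6 : (s - s') * (1 + s ^ 2) = 0 := by linear_combination h5
  rcases mul_eq_zero.mp h6 with h7 | h7
  · linarith
  · exact absurd h7 h2

/-- **Generic cyclic polygons with at least seven vertices are not Ramsey.** -/
theorem polygon_not_ramsey {k : ℕ} (hk : 7 ≤ k) {t : Fin k → ℝ} (ht : AlgebraicIndependent ℚ t)
    {ρ : ℝ} (hρ : 0 < ρ) : ¬ IsRamsey (Set.range fun i => ρ • circlePt (t i)) := by
  intro h
  have h1 : IsRamsey (Set.range fun i => circlePt (t i)) := by
    apply isRamsey_of_scale hρ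
    have : (fun a => ρ • a) '' (Set.range fun i => circlePt (t i)) =
        Set.range fun i => ρ • circlePt (t i) := by
      rw [← Set.range_comp]
      rfl
    rw [this]
    exact h
  have ht7 : AlgebraicIndependent ℚ (t ∘ Fin.castLE hk) := ht.comp _ (Fin.castLE_injective hk)
  refine seven_not_ramsey ht7 (isRamsey_mono ?_ h1)
  rintro _ ⟨i, rfl⟩
  exact ⟨Fin.castLE hk i, rfl⟩

/-- Algebraically independent reals exist in every finite number. -/
theorem exists_algebraicIndependent (k : ℕ) : ∃ t : Fin k → ℝ, AlgebraicIndependent ℚ t := by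
  classical
  obtain ⟨s, hs⟩ := exists_isTranscendenceBasis ℚ ℝ
  have hinf : s.Infinite := by
    intro hfin
    have : Finite s := hfin
    have hc : Countable (MvPolynomial s ℚ) := by
      rw [← Cardinal.mk_le_aleph0_iff]
      refine (MvPolynomial.cardinalMk_le_max).trans ?_
      simp
    have hc2 : Countable (Algebra.adjoin ℚ (Set.range ((↑) : s → ℝ))) := by
      rw [Algebra.adjoin_range_eq_range_aeval]
      exact (Set.countable_range _).to_subtype
    have halg := hs.isAlgebraic
    have h1 := Algebraic.countable (Algebra.adjoin ℚ (Set.range ((↑) : s → ℝ))) ℝ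
    have h2 : (Set.univ : Set ℝ) ⊆ {x : ℝ | IsAlgebraic (Algebra.adjoin ℚ (Set.range ((↑) : s → ℝ))) x} :=
      fun x _ => halg.isAlgebraic x
    exact Cardinal.not_countable_real (h1.mono h2)
  let e : ℕ ↪ s := hinf.natEmbedding s
  refine ⟨fun i => (e i : ℝ), ?_⟩
  have : Function.Injective (fun i : Fin k => e i) := fun a b h => Fin.val_injective (e.injective h)
  exact hs.1.comp _ this

end Vale.Agent.Lib.P058.GH
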