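import Mathlib
import Vale.Agent.Lib.P058.DerivationColouring

/-!
# Almost every cyclic heptagon is not Ramsey

For algebraically independent `t₁, ..., t₇` there is an additive map `Δ : ℝ → ℝ` with
`Δ (tᵢ s) = tᵢ Δ s + τᵢ s` for any prescribed `τᵢ`.
-/

namespace Vale.Agent.Lib.P058.Heptagon

section Family

open MvPolynomial

variable {ι : Type} (t τ : ι → ℝ)

/-- The jet homomorphism to the dual numbers. -/
noncomputable def jet : MvPolynomial ι ℚ →ₐ[ℚ] DualNumber ℝ :=
  aeval (fun i => TrivSqZeroExt.inl (t i) + TrivSqZeroExt.inr (τ i))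

theorem fst_jet (r : MvPolynomial ι ℚ) : (jet t τ r).fst = aeval t r := by
  have h : (TrivSqZeroExt.fstHom ℚ ℝ ℝ).comp (jet t τ) = aeval t := by
    apply MvPolynomial.algHom_ext
    intro i
    simp [jet]
  exact DFunLike.congr_fun h r

/-- `ℝ` as a module over the polynomial ring, the variables acting by multiplication by `tᵢ`. -/
def Rt (_t : ι → ℝ) : Type := ℝ

noncomputable instance : AddCommGroup (Rt t) := inferInstanceAs (AddCommGroup ℝ)

noncomputable instance : Module (MvPolynomial ι ℚ) (Rt t) :=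
  Module.compHom ℝ ((aeval t : MvPolynomial ι ℚ →ₐ[ℚ] ℝ).toRingHom)

/-- The dual numbers as a module over the polynomial ring, through the jet homomorphism. -/
def Et (_t _τ : ι → ℝ) : Type := DualNumber ℝ

noncomputable instance : AddCommGroup (Et t τ) := inferInstanceAs (AddCommGroup (DualNumber ℝ))

noncomputable instance : Module (MvPolynomial ι ℚ) (Et t τ) :=
  Module.compHom (DualNumber ℝ) (jet t τ).toRingHom

variable {t τ}

/-- Into the first module. -/
def rOf (t : ι → ℝ) (s : ℝ) : Rt t := s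

/-- Out of the first module. -/
def rVal (s : Rt t) : ℝ := s

/-- Into the second module. -/
def eOf (t τ : ι → ℝ) (e : DualNumber ℝ) : Et t τ := e

/-- Out of the second module. -/
def eVal (e : Et t τ) : DualNumber ℝ := e

theorem rVal_smul (r : MvPolynomial ι ℚ) (s : Rt t) : rVal (r • s) = aeval t r * rVal s := rfl

theorem rVal_add (a b : Rt t) : rVal (a + b) = rVal a + rVal b := rfl

theorem eVal_smul (r : MvPolynomial ι ℚ) (e : Et t τ) : eVal (r • e) = jet t τ r * eVal e := rfl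

theorem eOf_add (a b : DualNumber ℝ) : eOf t τ (a + b) = eOf t τ a + eOf t τ b := rfl

theorem baer_Rt (ht : AlgebraicIndependent ℚ t) : Module.Baer (MvPolynomial ι ℚ) (Rt t) := by
  intro I g
  by_cases hI : I = ⊥
  · subst hI
    refine ⟨0, fun x hx => ?_⟩
    have hx0 : x = 0 := by simpa using hx
    subst hx0
    have : (⟨0, hx⟩ : (⊥ : Ideal (MvPolynomial ι ℚ))) = 0 := rfl
    rw [this, map_zero, map_zero]
  · obtain ⟨p, hpI, hp0⟩ := Submodule.exists_mem_ne_zero_of_ne_bot hI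
    have hne : aeval t p ≠ 0 := by
      intro h
      exact hp0 ((algebraicIndependent_iff_injective_aeval.mp ht) (by rw [h, map_zero]))
    let y : Rt t := g ⟨p, hpI⟩
    let c : Rt t := rOf t (rVal y / aeval t p)
    refine ⟨LinearMap.toSpanSingleton (MvPolynomial ι ℚ) (Rt t) c, fun x hx => ?_⟩
    show x • c = g ⟨x, hx⟩
    have h1 : p • (⟨x, hx⟩ : I) = x • (⟨p, hpI⟩ : I) := by
      apply Subtype.ext
      show p * x = x * p
      ring
    have h2 := congrArg g h1
    rw [map_smul, map_smul] at h2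
    have h3 := congrArg rVal h2
    rw [rVal_smul, rVal_smul] at h3
    show rVal (x • c) = rVal (g ⟨x, hx⟩)
    rw [rVal_smul]
    have hc : rVal c = rVal y / aeval t p := rfl
    rw [hc]
    field_simp
    linarith

/-- **The twisted derivations**: prescribed values on an algebraically independent family. -/
theorem exists_delta_family (ht : AlgebraicIndependent ℚ t) (τ : ι → ℝ) :
    ∃ Δ : ℝ →+ ℝ, ∀ i s, Δ (t i * s) = t i * Δ s + τ i * s := by
  let f : Rt t →ₗ[MvPolynomial ι ℚ] Et t τ :=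
    { toFun := fun s => eOf t τ (TrivSqZeroExt.inr (rVal s))
      map_add' := fun a b => by
        rw [← eOf_add, ← TrivSqZeroExt.inr_add, rVal_add]
      map_smul' := fun r s => by
        show eOf t τ (TrivSqZeroExt.inr (rVal (r • s))) =
          eOf t τ (jet t τ r * TrivSqZeroExt.inr (rVal s))
        rw [rVal_smul]
        congr 1
        apply TrivSqZeroExt.ext
        · simp
        · simp [fst_jet, mul_comm] }
  have hf : Function.Injective f := by
    intro a b hab
    have := congrArg (fun e : Et t τ => TrivSqZeroExt.snd (eVal e)) hab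
    exact this
  obtain ⟨h, hh⟩ := (baer_Rt ht).extension_property f hf LinearMap.id
  have hfix : ∀ s : ℝ, rVal (h (eOf t τ (TrivSqZeroExt.inr s))) = s := by
    intro s
    exact LinearMap.congr_fun hh (rOf t s)
  let D : ℝ → ℝ := fun s => rVal (h (eOf t τ (TrivSqZeroExt.inl s)))
  have hadd : ∀ a b, D (a + b) = D a + D b := by
    intro a b
    simp only [D]
    rw [TrivSqZeroExt.inl_add, eOf_add, map_add, rVal_add]
  have hzero : D 0 = 0 := by
    have := hadd 0 0
    simp only [add_zero] at this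
    linarith
  have key : ∀ i s, t i * D s = D (t i * s) + τ i * s := by
    intro i s
    have h1 : (X i : MvPolynomial ι ℚ) • eOf t τ (TrivSqZeroExt.inl s) =
        eOf t τ (TrivSqZeroExt.inl (t i * s)) + eOf t τ (TrivSqZeroExt.inr (τ i * s)) := by
      rw [← eOf_add]
      show eOf t τ (jet t τ (X i) * TrivSqZeroExt.inl s) = _
      congr 1
      simp only [jet, aeval_X]
      apply TrivSqZeroExt.ext
      · simp
      · simp [mul_comm]
    have h2 := map_smul h (X i : MvPolynomial ι ℚ) (eOf t τ (TrivSqZeroExt.inl s))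
    rw [h1, map_add] at h2
    have h3 := congrArg rVal h2
    rw [rVal_add, rVal_smul, aeval_X, hfix] at h3
    simp only [D]
    linarith
  let Δ' : ℝ →+ ℝ :=
    { toFun := D
      map_zero' := hzero
      map_add' := hadd }
  refine ⟨-Δ', fun i s => ?_⟩
  have hk := key i s
  show -D (t i * s) = t i * (-D s) + τ i * s
  linarith

end Family


section Single

open Vale.Agent.Lib.P058

variable {Δ : ℝ →+ ℝ} {t τ : ℝ}

theorem hasD_inv (hΔ : ∀ s, Δ (t * s) = t * Δ s + τ * s) (s : ℝ) :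
    Δ (s / (1 + t ^ 2)) = Δ s / (1 + t ^ 2) - 2 * t * τ * s / (1 + t ^ 2) ^ 2 := by
  have hq : (1 + t ^ 2) ≠ 0 := by positivity
  set r := s / (1 + t ^ 2) with hr
  have h1 : s = r + t * (t * r) := by
    rw [hr]
    field_simp
  have h2 : Δ s = Δ r + t * (t * Δ r + τ * r) + τ * (t * r) := by
    conv_lhs => rw [h1]
    rw [map_add, hΔ, hΔ]
    ring
  have h3 : s = (1 + t ^ 2) * r := by
    rw [hr]
    field_simp
  rw [h2]
  conv_rhs => rw [h3]
  field_simp
  ring

/-- The first coordinate of the point with parameter `t`. -/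
noncomputable def cx (t : ℝ) : ℝ := (1 - t ^ 2) / (1 + t ^ 2)

/-- The second coordinate of the point with parameter `t`. -/
noncomputable def cy (t : ℝ) : ℝ := 2 * t / (1 + t ^ 2)

/-- The derivative of the first coordinate. -/
noncomputable def dx (t : ℝ) : ℝ := -(2 * t ^ 2) / (1 + t ^ 2)

/-- The derivative of the second coordinate. -/
noncomputable def dy (t : ℝ) : ℝ := t * (1 - t ^ 2) / (1 + t ^ 2)

theorem hasD_cx (hΔ : ∀ s, Δ (t * s) = t * Δ s + (t * (1 + t ^ 2) / 2) * s) :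
    HasD Δ (cx t) (dx t) := fun r => by
  have hq : (1 + t ^ 2) ≠ 0 := by positivity
  have h1 : cx t * r = r / (1 + t ^ 2) + r / (1 + t ^ 2) - r := by
    unfold cx
    field_simp
    ring
  rw [h1, map_sub, map_add, hasD_inv hΔ]
  unfold cx dx
  field_simp
  ring

theorem hasD_cy (hΔ : ∀ s, Δ (t * s) = t * Δ s + (t * (1 + t ^ 2) / 2) * s) :
    HasD Δ (cy t) (dy t) := fun r => by
  have hq : (1 + t ^ 2) ≠ 0 := by positivity
  have h1 : cy t * r = t * (r / (1 + t ^ 2) + r / (1 + t ^ 2)) := by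
    unfold cy
    field_simp
    ring
  rw [h1, hΔ, map_add, hasD_inv hΔ]
  unfold cy dy
  field_simp
  ring

theorem cx_sq_add_cy_sq (t : ℝ) : cx t ^ 2 + cy t ^ 2 = 1 := by
  have hq : (1 + t ^ 2) ≠ 0 := by positivity
  unfold cx cy
  field_simp
  ring

end Single

section Planar

open Vale.Agent.Lib.P058 Finset

/-- Distance-preserving images of planar sets are affine. -/
theorem planar_copy {D : ℕ} {A : Set (E 2)} (f : E 2 → E D)
    (hf : ∀ a ∈ A, ∀ b ∈ A, dist (f a) (f b) = dist a b) (x₀ y₀ x₁ y₁ x₂ y₂ : ℝ)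
    (h0 : pt x₀ y₀ ∈ A) (h1 : pt x₁ y₁ ∈ A) (h2 : pt x₂ y₂ ∈ A)
    (hdet : (x₁ - x₀) * (y₂ - y₀) - (x₂ - x₀) * (y₁ - y₀) ≠ 0) :
    ∃ τ u v : Fin D → ℝ, (∀ x y, pt x y ∈ A → ∀ q, f (pt x y) q = τ q + x * u q + y * v q) ∧
      ∑ q, u q ^ 2 = 1 ∧ ∑ q, v q ^ 2 = 1 ∧ ∑ q, u q * v q = 0 := by
  set a₁ := x₁ - x₀ with ha₁
  set a₂ := y₁ - y₀ with ha₂
  set c₁ := x₂ - x₀ with hc₁
  set c₂ := y₂ - y₀ with hc₂
  set d := a₁ * c₂ - c₁ * a₂ with hd
  let P₀ := f (pt x₀ y₀)
  let P₁ := f (pt x₁ y₁)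
  let P₂ := f (pt x₂ y₂)
  let Aq : Fin D → ℝ := fun q => P₁ q - P₀ q
  let Bq : Fin D → ℝ := fun q => P₂ q - P₀ q
  have hAA : ∑ q, Aq q ^ 2 = a₁ ^ 2 + a₂ ^ 2 := by
    have := hf _ h1 _ h0
    have h3 : dist P₁ P₀ ^ 2 = dist (pt x₁ y₁) (pt x₀ y₀) ^ 2 := by rw [this]
    rw [dist_sq_eq, dist_pt_sq] at h3
    exact h3
  have hBB : ∑ q, Bq q ^ 2 = c₁ ^ 2 + c₂ ^ 2 := by
    have := hf _ h2 _ h0
    have h3 : dist P₂ P₀ ^ 2 = dist (pt x₂ y₂) (pt x₀ y₀) ^ 2 := by rw [this]
    rw [dist_sq_eq, dist_pt_sq] at h3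
    exact h3
  have hAB : ∑ q, Aq q * Bq q = a₁ * c₁ + a₂ * c₂ := by
    have := hf _ h1 _ h2
    have h3 : dist P₁ P₂ ^ 2 = dist (pt x₁ y₁) (pt x₂ y₂) ^ 2 := by rw [this]
    rw [dist_sq_eq, dist_pt_sq] at h3
    have h4 : ∑ q, (P₁ q - P₂ q) ^ 2 = ∑ q, Aq q ^ 2 + ∑ q, Bq q ^ 2 - 2 * ∑ q, Aq q * Bq q := by
      rw [mul_sum, ← sum_add_distrib, ← sum_sub_distrib]
      refine sum_congr rfl fun q _ => ?_
      simp only [Aq, Bq]
      ring
    rw [h4, hAA, hBB] at h3
    have h5 : (x₁ - x₂) = a₁ - c₁ := by simp only [ha₁, hc₁]; ring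
    have h6 : (y₁ - y₂) = a₂ - c₂ := by simp only [ha₂, hc₂]; ring
    rw [h5, h6] at h3
    linarith
  have hform : ∀ α β γ δ : ℝ, ∑ q, (α * Aq q + β * Bq q) * (γ * Aq q + δ * Bq q) =
      α * γ * (a₁ ^ 2 + a₂ ^ 2) + (α * δ + β * γ) * (a₁ * c₁ + a₂ * c₂) +
        β * δ * (c₁ ^ 2 + c₂ ^ 2) := by
    intro α β γ δ
    rw [← hAA, ← hAB, ← hBB, mul_sum, mul_sum, mul_sum, ← sum_add_distrib, ← sum_add_distrib]
    refine sum_congr rfl fun q _ => ?_
    ring
  let u : Fin D → ℝ := fun q => (c₂ / d) * Aq q + (-a₂ / d) * Bq q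
  let v : Fin D → ℝ := fun q => (-c₁ / d) * Aq q + (a₁ / d) * Bq q
  let τ : Fin D → ℝ := fun q => P₀ q - x₀ * u q - y₀ * v q
  have hd' : d ≠ 0 := by
    rw [hd]
    intro h
    apply hdet
    linarith
  refine ⟨τ, u, v, fun x y hxy q => ?_, ?_, ?_, ?_⟩
  · let l₁ : ℝ := ((x - x₀) * c₂ - c₁ * (y - y₀)) / d
    let l₂ : ℝ := (a₁ * (y - y₀) - (x - x₀) * a₂) / d
    let Q : Fin 3 → E 2 := ![pt x₀ y₀, pt x₁ y₁, pt x₂ y₂]
    let lam : Fin 3 → ℝ := ![1 - l₁ - l₂, l₁, l₂]
    have hQ : ∀ j, Q j ∈ A := by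
      intro j
      fin_cases j
      · exact h0
      · exact h1
      · exact h2
    have hlam : ∑ j, lam j = 1 := by
      rw [Fin.sum_univ_three]
      simp only [lam, Matrix.cons_val]
      ring
    have e1 : x = (1 - l₁ - l₂) * x₀ + l₁ * x₁ + l₂ * x₂ := by
      have : x₁ = x₀ + a₁ := by simp only [ha₁]; ring
      have h' : x₂ = x₀ + c₁ := by simp only [hc₁]; ring
      rw [this, h']
      simp only [l₁, l₂]
      field_simp
      rw [hd]
      ring
    have e2 : y = (1 - l₁ - l₂) * y₀ + l₁ * y₁ + l₂ * y₂ := by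
      have : y₁ = y₀ + a₂ := by simp only [ha₂]; ring
      have h' : y₂ = y₀ + c₂ := by simp only [hc₂]; ring
      rw [this, h']
      simp only [l₁, l₂]
      field_simp
      rw [hd]
      ring
    have hc : pt x y = ∑ j, lam j • Q j := by
      rw [Fin.sum_univ_three]
      ext i
      fin_cases i
      · simp [lam, Q, pt]
        exact e1
      · simp [lam, Q, pt]
        exact e2
    have hy := affine_preserved Q (fun j => f (Q j)) (pt x y) (f (pt x y)) lam hlam
      (fun j l => hf _ (hQ j) _ (hQ l)) (fun j => hf _ hxy _ (hQ j)) hc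
    rw [hy, Fin.sum_univ_three]
    simp only [lam, Q, Matrix.cons_val]
    simp only [PiLp.add_apply, PiLp.smul_apply, smul_eq_mul]
    simp only [τ, u, v, Aq, Bq, l₁, l₂, P₀, P₁, P₂]
    field_simp
    ring
  · have := hform (c₂ / d) (-a₂ / d) (c₂ / d) (-a₂ / d)
    have h3 : ∑ q, u q ^ 2 = ∑ q, ((c₂ / d) * Aq q + (-a₂ / d) * Bq q) *
        ((c₂ / d) * Aq q + (-a₂ / d) * Bq q) := by
      refine sum_congr rfl fun q _ => ?_
      simp only [u]
      ring
    rw [h3, this]
    field_simp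
    rw [hd]
    ring
  · have := hform (-c₁ / d) (a₁ / d) (-c₁ / d) (a₁ / d)
    have h3 : ∑ q, v q ^ 2 = ∑ q, ((-c₁ / d) * Aq q + (a₁ / d) * Bq q) *
        ((-c₁ / d) * Aq q + (a₁ / d) * Bq q) := by
      refine sum_congr rfl fun q _ => ?_
      simp only [v]
      ring
    rw [h3, this]
    field_simp
    rw [hd]
    ring
  · have := hform (c₂ / d) (-a₂ / d) (-c₁ / d) (a₁ / d)
    have h3 : ∑ q, u q * v q = ∑ q, ((c₂ / d) * Aq q + (-a₂ / d) * Bq q) *
        ((-c₁ / d) * Aq q + (a₁ / d) * Bq q) := rfl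
    rw [h3, this]
    field_simp
    ring

end Planar

section Moments

open Vale.Agent.Lib.P058 Finset Polynomial

variable (t : Fin 7 → ℝ)

/-- The Lagrange denominators. -/
noncomputable def wt (i : Fin 7) : ℝ := ∏ j ∈ univ.erase i, (t i - t j)

/-- The weights of the seven points. -/
noncomputable def bw (i : Fin 7) : ℝ := (1 + t i ^ 2) ^ 2 / wt t i

variable {t}

theorem wt_ne (ht : Function.Injective t) (i : Fin 7) : wt t i ≠ 0 := by
  unfold wt
  rw [prod_ne_zero_iff]
  intro j hj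
  exact sub_ne_zero.mpr fun h => (mem_erase.mp hj).1 (ht h).symm

theorem lag (ht : Function.Injective t) (P : ℝ[X]) (hP : P.natDegree ≤ 6) :
    ∑ i, P.eval (t i) / wt t i = P.coeff 6 := by
  have h := Lagrange.coeff_eq_sum (s := (univ : Finset (Fin 7))) (v := t) ht.injOn (P := P) (by
    have h1 : P.degree ≤ (6 : ℕ) := degree_le_of_natDegree_le hP
    refine lt_of_le_of_lt h1 ?_
    simp only [card_univ, Fintype.card_fin]
    norm_num)
  simpa [wt] using h.symm

theorem lag0 (ht : Function.Injective t) (P : ℝ[X]) (hP : P.natDegree ≤ 5) :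
    ∑ i, P.eval (t i) / wt t i = 0 := by
  rw [lag ht P (by omega)]
  exact coeff_eq_zero_of_natDegree_lt (by omega)

/-- The moments that vanish, in one statement: the numerators are polynomials of degree `≤ 5`. -/
theorem mom (ht : Function.Injective t) (P : ℝ[X]) (hP : P.natDegree ≤ 5) (g : ℝ → ℝ)
    (hg : ∀ x : ℝ, (1 + x ^ 2) ^ 2 * g x = P.eval x) : ∑ i, bw t i * g (t i) = 0 := by
  rw [← lag0 ht P hP]
  refine sum_congr rfl fun i _ => ?_
  rw [← hg]
  have := wt_ne ht i
  unfold bw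
  field_simp

theorem m0 (ht : Function.Injective t) : ∑ i, bw t i = 0 := by
  have := mom ht ((1 + X ^ 2) ^ 2) (by compute_degree!) (fun _ => 1) (by intro x; simp)
  simpa using this

theorem q2 (x : ℝ) : (1 + x ^ 2) ≠ 0 := by positivity

theorem mx (ht : Function.Injective t) : ∑ i, bw t i * cx (t i) = 0 :=
  mom ht ((1 + X ^ 2) * (1 - X ^ 2)) (by compute_degree!) cx (by
    intro x
    have := q2 x
    simp [cx]
    field_simp)

theorem my (ht : Function.Injective t) : ∑ i, bw t i * cy (t i) = 0 :=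
  mom ht ((1 + X ^ 2) * (C 2 * X)) (by compute_degree!) cy (by
    intro x
    have := q2 x
    simp [cy]
    field_simp)

theorem mxx (ht : Function.Injective t) : ∑ i, bw t i * (cx (t i) * cx (t i)) = 0 :=
  mom ht ((1 - X ^ 2) * (1 - X ^ 2)) (by compute_degree!) (fun x => cx x * cx x) (by
    intro x
    have := q2 x
    simp [cx]
    field_simp)

theorem mxy (ht : Function.Injective t) : ∑ i, bw t i * (cx (t i) * cy (t i)) = 0 :=
  mom ht ((1 - X ^ 2) * (C 2 * X)) (by compute_degree!) (fun x => cx x * cy x) (by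
    intro x
    have := q2 x
    simp [cx, cy]
    field_simp)

theorem myy (ht : Function.Injective t) : ∑ i, bw t i * (cy (t i) * cy (t i)) = 0 :=
  mom ht ((C 2 * X) * (C 2 * X)) (by compute_degree!) (fun x => cy x * cy x) (by
    intro x
    have := q2 x
    simp [cy]
    field_simp)

theorem mdx (ht : Function.Injective t) : ∑ i, bw t i * dx (t i) = 0 :=
  mom ht ((1 + X ^ 2) * (-(C 2 * X ^ 2))) (by compute_degree!) dx (by
    intro x
    have := q2 x
    simp [dx]
    field_simp)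

theorem mdy (ht : Function.Injective t) : ∑ i, bw t i * dy (t i) = 0 :=
  mom ht ((1 + X ^ 2) * (X * (1 - X ^ 2))) (by compute_degree!) dy (by
    intro x
    have := q2 x
    simp [dy]
    field_simp)

theorem mxdx (ht : Function.Injective t) : ∑ i, bw t i * (cx (t i) * dx (t i)) = 0 :=
  mom ht ((1 - X ^ 2) * (-(C 2 * X ^ 2))) (by compute_degree!) (fun x => cx x * dx x) (by
    intro x
    have := q2 x
    simp [cx, dx]
    field_simp)

theorem mxdy (ht : Function.Injective t) : ∑ i, bw t i * (cx (t i) * dy (t i)) = 0 :=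
  mom ht ((1 - X ^ 2) * (X * (1 - X ^ 2))) (by compute_degree!) (fun x => cx x * dy x) (by
    intro x
    have := q2 x
    simp [cx, dy]
    field_simp)

theorem mydx (ht : Function.Injective t) : ∑ i, bw t i * (cy (t i) * dx (t i)) = 0 :=
  mom ht ((C 2 * X) * (-(C 2 * X ^ 2))) (by compute_degree!) (fun x => cy x * dx x) (by
    intro x
    have := q2 x
    simp [cy, dx]
    field_simp)

theorem mydy (ht : Function.Injective t) : ∑ i, bw t i * (cy (t i) * dy (t i)) = 0 :=
  mom ht ((C 2 * X) * (X * (1 - X ^ 2))) (by compute_degree!) (fun x => cy x * dy x) (by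
    intro x
    have := q2 x
    simp [cy, dy]
    field_simp)

/-- The moment that survives: the numerator has degree `6` and leading coefficient `1`. -/
theorem mJ (ht : Function.Injective t) :
    ∑ i, bw t i * (dx (t i) * dx (t i)) + ∑ i, bw t i * (dy (t i) * dy (t i)) = 1 := by
  have h := lag ht (X ^ 6 + C 2 * X ^ 4 + X ^ 2) (by compute_degree!)
  have hc : (X ^ 6 + C 2 * X ^ 4 + X ^ 2 : ℝ[X]).coeff 6 = 1 := by
    simp [coeff_X_pow, coeff_C_mul]
  rw [hc] at h
  rw [← h, ← sum_add_distrib]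
  refine sum_congr rfl fun i _ => ?_
  have := wt_ne ht i
  have hq := q2 (t i)
  simp only [eval_add, eval_pow, eval_X, eval_mul, eval_C]
  unfold bw dx dy
  field_simp
  ring

end Moments

section Identity

open Vale.Agent.Lib.P058 Finset

variable {t : Fin 7 → ℝ}

/-- The point with parameter `t i`. -/
noncomputable def hpt (t : Fin 7 → ℝ) (i : Fin 7) : E 2 := pt (cx (t i)) (cy (t i))

/-- The seven points. -/
noncomputable def heptagon (t : Fin 7 → ℝ) : Set (E 2) := Set.range (hpt t)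

theorem det_ne (ht : Function.Injective t) (i j k : Fin 7) (hij : i ≠ j) (hik : i ≠ k)
    (hjk : j ≠ k) :
    (cx (t j) - cx (t i)) * (cy (t k) - cy (t i)) -
      (cx (t k) - cx (t i)) * (cy (t j) - cy (t i)) ≠ 0 := by
  have h1 := q2 (t i)
  have h2 := q2 (t j)
  have h3 := q2 (t k)
  have key : (cx (t j) - cx (t i)) * (cy (t k) - cy (t i)) -
      (cx (t k) - cx (t i)) * (cy (t j) - cy (t i)) =
      4 * (t j - t i) * (t k - t i) * (t k - t j) /
        ((1 + t i ^ 2) * (1 + t j ^ 2) * (1 + t k ^ 2)) := by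
    unfold cx cy
    field_simp
    ring
  rw [key]
  have a1 : t j - t i ≠ 0 := sub_ne_zero.mpr fun h => hij (ht h).symm
  have a2 : t k - t i ≠ 0 := sub_ne_zero.mpr fun h => hik (ht h).symm
  have a3 : t k - t j ≠ 0 := sub_ne_zero.mpr fun h => hjk (ht h).symm
  positivity

/-- **The identity**: the weighted sum of `z` on every congruent copy of the heptagon is `1`. -/
theorem main_identity (ht : Function.Injective t) {Δ : ℝ →+ ℝ}
    (hΔ : ∀ i s, Δ (t i * s) = t i * Δ s + (t i * (1 + t i ^ 2) / 2) * s) {D : ℕ} (f : E 2 → E D)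
    (hf : ∀ a ∈ heptagon t, ∀ b ∈ heptagon t, dist (f a) (f b) = dist a b) :
    ∑ i, bw t i * zfun Δ (f (hpt t i)) = 1 := by
  obtain ⟨τ, u, v, hc, hu, hv, huv⟩ := planar_copy f hf (cx (t 0)) (cy (t 0)) (cx (t 1)) (cy (t 1))
    (cx (t 2)) (cy (t 2)) ⟨0, rfl⟩ ⟨1, rfl⟩ ⟨2, rfl⟩ (det_ne ht 0 1 2 (by decide) (by decide) (by decide))
  have hz : ∀ i, zfun Δ (f (hpt t i)) = ∑ q, (Δ (τ q) + cx (t i) * Δ (u q) + dx (t i) * u q +
      cy (t i) * Δ (v q) + dy (t i) * v q) ^ 2 := fun i =>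
    z_formula (hasD_cx (hΔ i)) (hasD_cy (hΔ i)) _ τ u v (hc _ _ ⟨i, rfl⟩)
  simp only [hz, mul_sum]
  rw [sum_comm]
  have hin : ∀ q, ∑ i, bw t i * (Δ (τ q) + cx (t i) * Δ (u q) + dx (t i) * u q +
      cy (t i) * Δ (v q) + dy (t i) * v q) ^ 2 =
      u q ^ 2 * ∑ i, bw t i * (dx (t i) * dx (t i)) +
      2 * (u q * v q) * ∑ i, bw t i * (dx (t i) * dy (t i)) +
      v q ^ 2 * ∑ i, bw t i * (dy (t i) * dy (t i)) := by
    intro q
    set α := Δ (τ q)
    set β₁ := Δ (u q)
    set β₂ := Δ (v q)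
    set U := u q
    set V := v q
    have hexp : ∀ i, bw t i * (α + cx (t i) * β₁ + dx (t i) * U + cy (t i) * β₂ + dy (t i) * V) ^ 2 =
        α ^ 2 * bw t i + 2 * α * β₁ * (bw t i * cx (t i)) + 2 * α * U * (bw t i * dx (t i)) +
        2 * α * β₂ * (bw t i * cy (t i)) + 2 * α * V * (bw t i * dy (t i)) +
        β₁ ^ 2 * (bw t i * (cx (t i) * cx (t i))) + 2 * β₁ * U * (bw t i * (cx (t i) * dx (t i))) +
        2 * β₁ * β₂ * (bw t i * (cx (t i) * cy (t i))) +
        2 * β₁ * V * (bw t i * (cx (t i) * dy (t i))) +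
        2 * U * β₂ * (bw t i * (cy (t i) * dx (t i))) +
        β₂ ^ 2 * (bw t i * (cy (t i) * cy (t i))) + 2 * β₂ * V * (bw t i * (cy (t i) * dy (t i))) +
        (U ^ 2 * (bw t i * (dx (t i) * dx (t i))) + 2 * (U * V) * (bw t i * (dx (t i) * dy (t i))) +
        V ^ 2 * (bw t i * (dy (t i) * dy (t i)))) := by
      intro i
      ring
    rw [sum_congr rfl fun i _ => hexp i]
    simp only [sum_add_distrib, ← mul_sum]
    rw [m0 ht, mx ht, mdx ht, my ht, mdy ht, mxx ht, mxdx ht, mxy ht, mxdy ht, mydx ht, myy ht,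
      mydy ht]
    ring
  rw [sum_congr rfl fun q _ => hin q]
  simp only [sum_add_distrib, ← sum_mul, ← mul_sum]
  rw [hu, hv, huv]
  have := mJ ht
  linarith

end Identity

section Colouring

open Vale.Agent.Lib.P058 Finset

/-- The cell of a real number: which of `30` intervals contains its fractional part. -/
noncomputable def cell (x : ℝ) : Fin 30 :=
  ⟨⌊30 * Int.fract x⌋.toNat, by
    have h1 : 0 ≤ 30 * Int.fract x := by
      have := Int.fract_nonneg x
      linarith
    have h2 : 30 * Int.fract x < 30 := by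
      have := Int.fract_lt_one x
      linarith
    have h3 : 0 ≤ ⌊30 * Int.fract x⌋ := Int.floor_nonneg.mpr h1
    have h4 : ⌊30 * Int.fract x⌋ < 30 := Int.floor_lt.mpr (by exact_mod_cast h2)
    omega⟩

theorem cell_close {x y : ℝ} (h : cell x = cell y) : ∃ n : ℤ, |x - y - n| < 1 / 30 := by
  refine ⟨⌊x⌋ - ⌊y⌋, ?_⟩
  have h0 := congrArg Fin.val h
  simp only [cell] at h0
  have a1 : 0 ≤ ⌊30 * Int.fract x⌋ := Int.floor_nonneg.mpr (by
    have := Int.fract_nonneg x
    linarith)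
  have a2 : 0 ≤ ⌊30 * Int.fract y⌋ := Int.floor_nonneg.mpr (by
    have := Int.fract_nonneg y
    linarith)
  have h1 : ⌊30 * Int.fract x⌋ = ⌊30 * Int.fract y⌋ := by omega
  have b1 := Int.floor_le (30 * Int.fract x)
  have b2 := Int.lt_floor_add_one (30 * Int.fract x)
  have b3 := Int.floor_le (30 * Int.fract y)
  have b4 := Int.lt_floor_add_one (30 * Int.fract y)
  rw [h1] at b1 b2
  have e1 : x - y - ((⌊x⌋ - ⌊y⌋ : ℤ) : ℝ) = Int.fract x - Int.fract y := by
    push_cast
    unfold Int.fract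
    ring
  rw [e1, abs_lt]
  constructor <;> linarith

/-- The colouring of `ℝ^D`. -/
noncomputable def hcolour {D : ℕ} (t : Fin 7 → ℝ) (Δ : ℝ →+ ℝ) (y : E D) : Fin (30 ^ 7) :=
  finFunctionFinEquiv fun j => cell (bw t j * zfun Δ y / 2)

/-- **Seven algebraically independent parameters give a non-Ramsey set.** -/
theorem heptagon_not_ramsey {t : Fin 7 → ℝ} (hta : AlgebraicIndependent ℚ t) :
    ¬ IsRamsey (heptagon t) := by
  intro hR
  have ht : Function.Injective t := hta.injective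
  obtain ⟨Δ, hΔ⟩ := exists_delta_family hta (fun i => t i * (1 + t i ^ 2) / 2)
  obtain ⟨D, -, h⟩ := hR (30 ^ 7) (by norm_num)
  obtain ⟨f, hf, k, hk⟩ := h (hcolour t Δ)
  have hid := main_identity ht hΔ f hf
  let z : Fin 7 → ℝ := fun i => zfun Δ (f (hpt t i))
  have hcells : ∀ i j, cell (bw t j * z i / 2) = cell (bw t j * z 0 / 2) := by
    intro i j
    have h1 : hcolour t Δ (f (hpt t i)) = hcolour t Δ (f (hpt t 0)) := by
      rw [hk _ ⟨i, rfl⟩, hk _ ⟨0, rfl⟩]
    have h2 := finFunctionFinEquiv.injective h1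
    exact congrFun h2 j
  choose n hn using fun i => cell_close (hcells i i)
  have hsum : ∑ i, (bw t i * z i / 2 - bw t i * z 0 / 2) = 1 / 2 := by
    rw [sum_sub_distrib, ← sum_div, ← sum_div, ← sum_mul, m0 ht, hid]
    ring
  have habs : |∑ i, (bw t i * z i / 2 - bw t i * z 0 / 2 - n i)| < 7 / 30 := by
    calc |∑ i, (bw t i * z i / 2 - bw t i * z 0 / 2 - n i)|
        ≤ ∑ i, |bw t i * z i / 2 - bw t i * z 0 / 2 - n i| := abs_sum_le_sum_abs _ _
      _ < ∑ _i : Fin 7, (1 / 30 : ℝ) := sum_lt_sum_of_nonempty ⟨0, mem_univ _⟩ fun i _ => hn i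
      _ = 7 / 30 := by
        simp
        norm_num
  rw [sum_sub_distrib, hsum] at habs
  have hN : ∑ i, (n i : ℝ) = ((∑ i, n i : ℤ) : ℝ) := by push_cast; rfl
  rw [hN] at habs
  rw [abs_lt] at habs
  obtain ⟨h1, h2⟩ := habs
  have h3 : ((∑ i, n i : ℤ) : ℝ) < 1 := by linarith
  have h4 : (0 : ℝ) < ((∑ i, n i : ℤ) : ℝ) := by linarith
  have h5 : ∑ i, n i < 1 := by exact_mod_cast h3
  have h6 : 0 < ∑ i, n i := by exact_mod_cast h4
  omega

/-- Seven algebraically independent reals exist. -/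
theorem exists_algInd : ∃ t : Fin 7 → ℝ, AlgebraicIndependent ℚ t := by
  obtain ⟨s, hs⟩ := exists_isTranscendenceBasis ℚ ℝ
  have hinf : s.Infinite := by
    intro hfin
    obtain ⟨t₀, ht₀⟩ := exists_transcendental
    haveI hne : Nonempty s := hs.nonempty_iff_transcendental.2 ⟨⟨t₀, ht₀⟩⟩
    have hc := hs.lift_cardinalMk_eq_max_lift
    simp only [Cardinal.lift_id, Cardinal.mk_real, Cardinal.mkRat] at hc
    have hfin' : Cardinal.mk s < Cardinal.aleph0 := Cardinal.lt_aleph0_iff_finite.mpr hfin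
    have h1 : Cardinal.aleph0 ⊔ Cardinal.mk s ⊔ Cardinal.aleph0 = Cardinal.aleph0 := by
      simp [hfin'.le]
    rw [h1] at hc
    exact absurd hc (ne_of_gt Cardinal.aleph0_lt_continuum)
  obtain ⟨e⟩ : Nonempty (Fin 7 ↪ s) := by
    haveI : Infinite s := hinf.to_subtype
    exact ⟨(Fin.valEmbedding).trans (Infinite.natEmbedding s)⟩
  exact ⟨fun i => (e i : ℝ), hs.1.comp e e.injective⟩

end Colouring

end Vale.Agent.Lib.P058.Heptagon

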