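import Vale.Agent.Lib.P058.Defs

/-!
# Seven generic points of a circle are not Ramsey

For `t₁, …, t₇` algebraically independent over `ℚ` the seven points
`((1 - tᵢ²) / (1 + tᵢ²), 2 tᵢ / (1 + tᵢ²))` of the unit circle are not Ramsey.  The colouring uses
an additive map `Δ` of `ℝ` with `Δ (tᵢ s) = tᵢ Δ s + (tᵢ (1 + tᵢ²) / 2) s`, real weights
`wᵢ = (1 + tᵢ²)² / ∏_{j ≠ i} (tᵢ - tⱼ)` and Lagrange's identities.
-/

open Finset

namespace Vale.Agent.Lib.P058.Seven

open Vale.Agent.Lib.P058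

section Basic

open Finset

/-- Euclidean space of dimension `D`. -/
abbrev E (D : ℕ) : Type := EuclideanSpace ℝ (Fin D)

/-- The point `(x, y)` of the plane. -/
noncomputable def pt (x y : ℝ) : E 2 := WithLp.toLp 2 ![x, y]


theorem dist_sq_eq {D : ℕ} (x y : E D) : dist x y ^ 2 = ∑ q, (x q - y q) ^ 2 := by
  rw [EuclideanSpace.dist_eq, Real.sq_sqrt (sum_nonneg fun _ _ => sq_nonneg _)]
  simp [Real.dist_eq, sq_abs]

theorem dist_pt_sq (a b c d : ℝ) : dist (pt a b) (pt c d) ^ 2 = (a - c) ^ 2 + (b - d) ^ 2 := by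
  rw [dist_sq_eq, Fin.sum_univ_two]
  simp [pt]

theorem norm_pt (x y r : ℝ) (hr : 0 ≤ r) (h : x ^ 2 + y ^ 2 = r ^ 2) : ‖pt x y‖ = r := by
  have h1 : ‖pt x y‖ ^ 2 = r ^ 2 := by
    rw [EuclideanSpace.norm_sq_eq, Fin.sum_univ_two, ← h]
    simp [pt, sq_abs]
  exact (pow_left_inj₀ (norm_nonneg _) hr two_ne_zero).mp h1

/-- The squared distance of a point to an affine combination depends only on distances. -/
theorem norm_combo {V : Type*} [NormedAddCommGroup V] [InnerProductSpace ℝ V] {n : ℕ} (v : V)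
    (r : Fin n → V) (lam : Fin n → ℝ) (h : ∑ j, lam j = 1) :
    ‖v - ∑ j, lam j • r j‖ ^ 2 = ∑ j, ∑ l, lam j * lam l *
      ((dist v (r j) ^ 2 + dist v (r l) ^ 2 - dist (r j) (r l) ^ 2) / 2) := by
  have h1 : v - ∑ j, lam j • r j = ∑ j, lam j • (v - r j) := by
    simp only [smul_sub, sum_sub_distrib, ← sum_smul, h, one_smul]
  rw [h1, ← real_inner_self_eq_norm_sq, sum_inner]
  refine sum_congr rfl fun j _ => ?_
  rw [inner_sum]
  refine sum_congr rfl fun l _ => ?_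
  rw [real_inner_smul_left, real_inner_smul_right,
    real_inner_eq_norm_mul_self_add_norm_mul_self_sub_norm_sub_mul_self_div_two]
  have h2 : v - r j - (v - r l) = r l - r j := by abel
  rw [h2, dist_eq_norm, dist_eq_norm, dist_comm (r j) (r l), dist_eq_norm]
  ring

/-- Distance-preserving maps preserve affine dependencies. -/
theorem affine_preserved {d D n : ℕ} (q : Fin n → E d) (p : Fin n → E D) (x : E d) (y : E D)
    (lam : Fin n → ℝ) (hlam : ∑ j, lam j = 1)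
    (hq : ∀ j l, dist (p j) (p l) = dist (q j) (q l)) (hx : ∀ j, dist y (p j) = dist x (q j))
    (hcombo : x = ∑ j, lam j • q j) : y = ∑ j, lam j • p j := by
  have h1 := norm_combo y p lam hlam
  have h2 := norm_combo x q lam hlam
  simp only [hq, hx] at h1
  rw [← h2, ← hcombo, sub_self, norm_zero] at h1
  have h3 : ‖y - ∑ j, lam j • p j‖ = 0 := by
    have : ‖y - ∑ j, lam j • p j‖ ^ 2 = 0 := by rw [h1]; norm_num
    exact pow_eq_zero_iff (two_ne_zero) |>.mp this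
  exact sub_eq_zero.mp (norm_eq_zero.mp h3)


/-- `Δ` differentiates multiplication by `x` with derivative `x'`. -/
def HasD (Δ : ℝ →+ ℝ) (x x' : ℝ) : Prop := ∀ r, Δ (x * r) = x * Δ r + x' * r


/-- The wild function whose values are coloured: `z y = ∑ (Δ y_q)²`. -/
def zfun {D : ℕ} (Δ : ℝ →+ ℝ) (y : E D) : ℝ := ∑ q, (Δ (y q)) ^ 2

theorem z_formula {D : ℕ} {Δ : ℝ →+ ℝ} {x1 x1' x2 x2' : ℝ} (h1 : HasD Δ x1 x1') (h2 : HasD Δ x2 x2')
    (y : E D) (τ u v : Fin D → ℝ) (hy : ∀ q, y q = τ q + x1 * u q + x2 * v q) :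
    zfun Δ y = ∑ q, (Δ (τ q) + x1 * Δ (u q) + x1' * u q + x2 * Δ (v q) + x2' * v q) ^ 2 := by
  refine sum_congr rfl fun q _ => ?_
  rw [hy, map_add, map_add, h1, h2]
  ring


theorem exists_transcendental : ∃ t : ℝ, Transcendental ℚ t := by
  by_contra h
  have h1 : (Set.univ : Set ℝ) ⊆ {x : ℝ | IsAlgebraic ℚ x} := fun x _ => by
    by_contra hx
    exact h ⟨x, hx⟩
  exact Cardinal.not_countable_real ((Algebraic.countable ℚ ℝ).mono h1)


end Basic


/-- Abstract construction: a derivation `∂ : K → ℝ` of a subfield of `ℝ` extends to an additive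
twisted derivation of `ℝ`. -/
theorem delta_of_field {K : Type} [Field K] (ι : K →+* ℝ) (d : K →+ ℝ)
    (hL : ∀ a b, d (a * b) = ι a * d b + ι b * d a) :
    ∃ Δ : ℝ →+ ℝ, ∀ κ s, Δ (ι κ * s) = ι κ * Δ s + d κ * s := by
  classical
  let _ : Module K ℝ := ι.toModule
  let B := Module.Basis.ofVectorSpace K ℝ
  let L : (Module.Basis.ofVectorSpaceIndex K ℝ →₀ K) →+ ℝ :=
    Finsupp.liftAddHom (fun i => (AddMonoidHom.mulRight (B i)).comp d)
  let G : (Module.Basis.ofVectorSpaceIndex K ℝ →₀ K) →+ ℝ :=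
    Finsupp.liftAddHom (fun i => (AddMonoidHom.mulRight (B i)).comp ι.toAddMonoidHom)
  have hG : ∀ s, G (B.repr s) = s := by
    intro s
    have h := B.linearCombination_repr s
    rw [Finsupp.linearCombination_apply] at h
    conv_rhs => rw [← h]
    rfl
  have key : ∀ (κ : K) (m : Module.Basis.ofVectorSpaceIndex K ℝ →₀ K),
      L (κ • m) = ι κ * L m + d κ * G m := by
    intro κ m
    induction m using Finsupp.induction_linear with
    | zero => simp
    | add f g hf hg =>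
      rw [smul_add, map_add, map_add, map_add, hf, hg]
      ring
    | single i c =>
      rw [Finsupp.smul_single]
      simp only [L, G, Finsupp.liftAddHom_apply_single, AddMonoidHom.comp_apply,
        AddMonoidHom.coe_mulRight, smul_eq_mul, hL]
      simp only [RingHom.toAddMonoidHom_eq_coe, AddMonoidHom.coe_coe]
      ring
  refine ⟨L.comp (B.repr : ℝ ≃ₗ[K] _).toLinearMap.toAddMonoidHom, fun κ s => ?_⟩
  have h1 : ι κ * s = κ • s := rfl
  simp only [AddMonoidHom.comp_apply, LinearMap.toAddMonoidHom_coe, LinearEquiv.coe_coe]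
  rw [h1, map_smul, key, hG]

open TrivSqZeroExt in
/-- **Twisted derivation with prescribed values** on an algebraically independent family. -/
theorem exists_multi_delta {σ : Type} (t g : σ → ℝ) (ht : AlgebraicIndependent ℚ t) :
    ∃ Δ : ℝ →+ ℝ, ∀ j s, Δ (t j * s) = t j * Δ s + g j * s := by
  classical
  let a0 : MvPolynomial σ ℚ →ₐ[ℚ] TrivSqZeroExt ℝ ℝ :=
    MvPolynomial.aeval (fun j => (inl (t j) + inr (g j) : TrivSqZeroExt ℝ ℝ))
  have hfst : ∀ p, (a0 p).fst = MvPolynomial.aeval t p := by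
    intro p
    have : (fstHom ℚ ℝ ℝ).comp a0 = MvPolynomial.aeval t :=
      MvPolynomial.algHom_ext (fun j => by simp [a0])
    exact DFunLike.congr_fun this p
  have hev : Function.Injective (MvPolynomial.aeval t : MvPolynomial σ ℚ →ₐ[ℚ] ℝ) := ht
  have hunit : ∀ y : nonZeroDivisors (MvPolynomial σ ℚ), IsUnit (a0.toRingHom (y : MvPolynomial σ ℚ)) := by
    intro y
    have hy : (y : MvPolynomial σ ℚ) ≠ 0 := nonZeroDivisors.ne_zero y.2
    have h2 : MvPolynomial.aeval t (y : MvPolynomial σ ℚ) ≠ 0 := fun h =>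
      hy (hev (by rw [h, map_zero]))
    change IsUnit (a0 (y : MvPolynomial σ ℚ))
    rw [isUnit_iff_isUnit_fst, hfst]
    exact isUnit_iff_ne_zero.mpr h2
  let K := FractionRing (MvPolynomial σ ℚ)
  let φ : K →+* TrivSqZeroExt ℝ ℝ := IsLocalization.lift (M := nonZeroDivisors (MvPolynomial σ ℚ)) hunit
  let ι : K →+* ℝ := (fstHom ℚ ℝ ℝ).toRingHom.comp φ
  let d : K →+ ℝ :=
    { toFun := fun κ => (φ κ).snd
      map_zero' := by simp
      map_add' := fun a b => by simp }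
  have hι : ∀ κ, ι κ = (φ κ).fst := fun κ => rfl
  have hd : ∀ κ, d κ = (φ κ).snd := fun κ => rfl
  have hL : ∀ a b, d (a * b) = ι a * d b + ι b * d a := by
    intro a b
    rw [hd, map_mul, snd_mul, hι, hι, hd, hd]
    simp
    ring
  obtain ⟨Δ, hΔ⟩ := delta_of_field ι d hL
  refine ⟨Δ, fun j s => ?_⟩
  let κ : K := algebraMap (MvPolynomial σ ℚ) K (MvPolynomial.X j)
  have hφ : φ κ = inl (t j) + inr (g j) := by
    have := IsLocalization.lift_eq (M := nonZeroDivisors (MvPolynomial σ ℚ)) (S := K) hunit (MvPolynomial.X j)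
    simp only [a0, AlgHom.toRingHom_eq_coe, RingHom.coe_coe, MvPolynomial.aeval_X] at this
    exact this
  have h1 : ι κ = t j := by rw [hι, hφ]; simp
  have h2 : d κ = g j := by rw [hd, hφ]; simp
  have := hΔ κ s
  rwa [h1, h2] at this



/-- The inhomogeneous Rado colouring over `ℝ` with arbitrary real weights. -/
theorem exists_additive (J : ℝ) (hJ : J ≠ 0) (c : ℝ) : ∃ Λ : ℝ →+ ℝ, Λ J = c := by
  let f : ℚ →ₗ[ℚ] ℝ := LinearMap.toSpanSingleton ℚ ℝ J
  have hf : LinearMap.ker f = ⊥ := by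
    rw [LinearMap.ker_eq_bot]
    intro a b hab
    simp only [f, LinearMap.toSpanSingleton_apply, Rat.smul_def] at hab
    have := mul_right_cancel₀ hJ hab
    exact_mod_cast this
  obtain ⟨g, hg⟩ := LinearMap.exists_leftInverse_of_injective f hf
  have h1 : g J = 1 := by
    have := DFunLike.congr_fun hg 1
    simpa [f] using this
  refine ⟨(AddMonoidHom.mulRight c).comp ((algebraMap ℚ ℝ).toAddMonoidHom.comp g.toAddMonoidHom), ?_⟩
  simp [h1]

theorem rado_real {n : ℕ} (hn : 0 < n) (b : Fin n → ℝ) (hb : ∑ i, b i = 0) (J : ℝ) (hJ : J ≠ 0) :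
    ∃ col : ℝ → Fin ((4 * n) ^ n), ∀ z : Fin n → ℝ, (∀ l m, col (z l) = col (z m)) →
      ∑ i, b i * z i ≠ J := by
  obtain ⟨Λ, hΛ⟩ := exists_additive J hJ (2 * n)
  have hN : (0 : ℤ) < 4 * n := by positivity
  let digit : Fin n → ℝ → Fin (4 * n) := fun i x =>
    ⟨(⌊Λ (b i * x)⌋ % (4 * n : ℤ)).toNat, by
      have h1 := Int.emod_nonneg ⌊Λ (b i * x)⌋ hN.ne'
      have h2 := Int.emod_lt_of_pos ⌊Λ (b i * x)⌋ hN
      omega⟩
  have hdigit : ∀ i x y, digit i x = digit i y →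
      ⌊Λ (b i * x)⌋ % (4 * n : ℤ) = ⌊Λ (b i * y)⌋ % (4 * n : ℤ) := by
    intro i x y h
    have h0 := congrArg Fin.val h
    simp only [digit] at h0
    have h1 := Int.emod_nonneg ⌊Λ (b i * x)⌋ hN.ne'
    have h2 := Int.emod_nonneg ⌊Λ (b i * y)⌋ hN.ne'
    omega
  refine ⟨fun x => finFunctionFinEquiv (fun i => digit i x), fun z hz hsum => ?_⟩
  let i0 : Fin n := ⟨0, hn⟩
  have hmono : ∀ i, ⌊Λ (b i * z i)⌋ % (4 * n : ℤ) = ⌊Λ (b i * z i0)⌋ % (4 * n : ℤ) := by
    intro i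
    have h1 := finFunctionFinEquiv.injective (hz i i0)
    exact hdigit i _ _ (congrFun h1 i)
  have hex : ∀ i, ∃ m : ℤ, ⌊Λ (b i * z i)⌋ = ⌊Λ (b i * z i0)⌋ + 4 * n * m := by
    intro i
    have h1 : (4 * n : ℤ) ∣ ⌊Λ (b i * z i)⌋ - ⌊Λ (b i * z i0)⌋ :=
      Int.ModEq.dvd (hmono i).symm
    obtain ⟨m, hm⟩ := h1
    exact ⟨m, by linarith⟩
  choose m hm using hex
  have hA : ∑ i, Λ (b i * z i) = 2 * n := by
    rw [← map_sum, hsum, hΛ]
  have hB : ∑ i, Λ (b i * z i0) = 0 := by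
    rw [← map_sum, ← Finset.sum_mul, hb, zero_mul, map_zero]
  have hbound : ∀ i, |Λ (b i * z i) - Λ (b i * z i0) - 4 * n * m i| < 1 := by
    intro i
    have h1 := Int.floor_le (Λ (b i * z i))
    have h2 := Int.lt_floor_add_one (Λ (b i * z i))
    have h3 := Int.floor_le (Λ (b i * z i0))
    have h4 := Int.lt_floor_add_one (Λ (b i * z i0))
    have h5 : ((⌊Λ (b i * z i)⌋ : ℤ) : ℝ) = (⌊Λ (b i * z i0)⌋ : ℝ) + 4 * n * m i := by
      have := congrArg (fun x : ℤ => (x : ℝ)) (hm i)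
      push_cast at this
      exact this
    rw [abs_lt]
    constructor <;> linarith
  have hsumE : ∑ i, (Λ (b i * z i) - Λ (b i * z i0) - 4 * n * m i) = 2 * n - 4 * n * ((∑ i, m i : ℤ) : ℝ) := by
    rw [Finset.sum_sub_distrib, Finset.sum_sub_distrib, hA, hB, Int.cast_sum, Finset.mul_sum]
    ring
  have hne : (Finset.univ : Finset (Fin n)).Nonempty := ⟨i0, mem_univ _⟩
  have hup : ∑ i, (Λ (b i * z i) - Λ (b i * z i0) - 4 * n * m i) < n := by
    calc _ < ∑ _i : Fin n, (1 : ℝ) :=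
          Finset.sum_lt_sum_of_nonempty hne (fun i _ => (abs_lt.mp (hbound i)).2)
      _ = n := by simp
  have hlo : -(n : ℝ) < ∑ i, (Λ (b i * z i) - Λ (b i * z i0) - 4 * n * m i) := by
    calc -(n : ℝ) = ∑ _i : Fin n, (-1 : ℝ) := by simp
      _ < _ := Finset.sum_lt_sum_of_nonempty hne (fun i _ => (abs_lt.mp (hbound i)).1)
  rw [hsumE] at hup hlo
  have hnpos : (0 : ℝ) < n := by exact_mod_cast hn
  set M : ℤ := ∑ i, m i with hM
  have h1 : (1 : ℝ) < 4 * M := by
    by_contra hcon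
    push Not at hcon
    nlinarith
  have h2 : (4 : ℝ) * M < 3 := by
    by_contra hcon
    push Not at hcon
    nlinarith
  have h1' : (1 : ℤ) < 4 * M := by exact_mod_cast h1
  have h2' : 4 * M < (3 : ℤ) := by exact_mod_cast h2
  omega

/-- Lagrange's power sums. -/
theorem lagrange_sum (t : Fin 7 → ℝ) (ht : Function.Injective t) (m : ℕ) (hm : m ≤ 6) :
    ∑ i, t i ^ m / ∏ j ∈ univ.erase i, (t i - t j) = if m = 6 then 1 else 0 := by
  have h := Lagrange.coeff_eq_sum (s := univ) (v := t) ht.injOn (P := (Polynomial.X : Polynomial ℝ) ^ m)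
    (by
      rw [Polynomial.degree_X_pow]
      simp only [card_univ, Fintype.card_fin]
      exact_mod_cast Nat.lt_succ_of_le hm)
  simp only [card_univ, Fintype.card_fin, Polynomial.coeff_X_pow, Polynomial.eval_pow,
    Polynomial.eval_X] at h
  rw [← h]
  norm_num
  grind




/-- A distance-preserving image of a set of the plane containing three non-collinear points is
`τ + x₁ u + x₂ v` with `‖v‖ = 1`. -/
theorem affine_plane {D : ℕ} {A : Set (E 2)} (f : E 2 → E D)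
    (hf : ∀ a ∈ A, ∀ b ∈ A, dist (f a) (f b) = dist a b)
    (a0 b0 a1 b1 a2 b2 : ℝ) (h0 : pt a0 b0 ∈ A) (h1 : pt a1 b1 ∈ A) (h2 : pt a2 b2 ∈ A)
    (hδ : (a1 - a0) * (b2 - b0) - (a2 - a0) * (b1 - b0) ≠ 0) :
    ∃ τ u v : Fin D → ℝ, (∑ q, v q ^ 2 = 1) ∧
      ∀ x1 x2, pt x1 x2 ∈ A → ∀ q, f (pt x1 x2) q = τ q + x1 * u q + x2 * v q := by
  set δ : ℝ := (a1 - a0) * (b2 - b0) - (a2 - a0) * (b1 - b0) with hδdef
  let y0 := f (pt a0 b0)
  let y1 := f (pt a1 b1)
  let y2 := f (pt a2 b2)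
  refine ⟨fun q => y0 q + ((-a0 * (b2 - b0) + b0 * (a2 - a0)) * (y1 q - y0 q) +
        (-b0 * (a1 - a0) + a0 * (b1 - b0)) * (y2 q - y0 q)) / δ,
    fun q => ((b2 - b0) * (y1 q - y0 q) - (b1 - b0) * (y2 q - y0 q)) / δ,
    fun q => (-(a2 - a0) * (y1 q - y0 q) + (a1 - a0) * (y2 q - y0 q)) / δ, ?_, ?_⟩
  · have S11 : ∑ q, (y1 q - y0 q) ^ 2 = (a1 - a0) ^ 2 + (b1 - b0) ^ 2 := by
      rw [← dist_sq_eq, hf _ h1 _ h0, dist_pt_sq]
    have S22 : ∑ q, (y2 q - y0 q) ^ 2 = (a2 - a0) ^ 2 + (b2 - b0) ^ 2 := by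
      rw [← dist_sq_eq, hf _ h2 _ h0, dist_pt_sq]
    have S12 : ∑ q, (y1 q - y2 q) ^ 2 = (a1 - a2) ^ 2 + (b1 - b2) ^ 2 := by
      rw [← dist_sq_eq, hf _ h1 _ h2, dist_pt_sq]
    have key : ∑ q, ((-(a2 - a0) * (y1 q - y0 q) + (a1 - a0) * (y2 q - y0 q)) / δ) ^ 2 =
        ((a2 - a0) ^ 2 * ∑ q, (y1 q - y0 q) ^ 2
          - (a1 - a0) * (a2 - a0) * (∑ q, (y1 q - y0 q) ^ 2 + ∑ q, (y2 q - y0 q) ^ 2
              - ∑ q, (y1 q - y2 q) ^ 2)
          + (a1 - a0) ^ 2 * ∑ q, (y2 q - y0 q) ^ 2) / δ ^ 2 := by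
      rw [← sum_add_distrib, ← sum_sub_distrib, mul_sum, mul_sum, mul_sum, ← sum_sub_distrib,
        ← sum_add_distrib, sum_div]
      refine sum_congr rfl fun q _ => ?_
      rw [div_pow]
      congr 1
      ring
    rw [key, S11, S22, S12, div_eq_one_iff_eq (pow_ne_zero 2 hδ), hδdef]
    ring
  · intro x1 x2 hx q
    let Q : Fin 3 → E 2 := ![pt a0 b0, pt a1 b1, pt a2 b2]
    have hQ : ∀ j, Q j ∈ A := by
      intro j
      fin_cases j
      · exact h0
      · exact h1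
      · exact h2
    let l1 : ℝ := ((x1 - a0) * (b2 - b0) - (a2 - a0) * (x2 - b0)) / δ
    let l2 : ℝ := ((a1 - a0) * (x2 - b0) - (x1 - a0) * (b1 - b0)) / δ
    let lam : Fin 3 → ℝ := ![1 - l1 - l2, l1, l2]
    have hlam : ∑ j, lam j = 1 := by
      rw [Fin.sum_univ_three]
      simp only [lam, Matrix.cons_val]
      ring
    have hc : pt x1 x2 = ∑ j, lam j • Q j := by
      rw [Fin.sum_univ_three]
      ext i
      fin_cases i
      · simp [lam, Q, pt, l1, l2]
        field_simp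
        rw [hδdef]
        ring
      · simp [lam, Q, pt, l1, l2]
        field_simp
        rw [hδdef]
        ring
    have hy := affine_preserved Q (fun j => f (Q j)) (pt x1 x2) (f (pt x1 x2)) lam hlam
      (fun j l => hf _ (hQ j) _ (hQ l)) (fun j => hf _ hx _ (hQ j)) hc
    rw [hy, Fin.sum_univ_three]
    simp [lam, Q, l1, l2]
    change (1 - _ - _) * y0 q + _ * y1 q + _ * y2 q = _
    field_simp
    ring




/-- `(1 - t²) / (1 + t²)`. -/
noncomputable def cc (t : ℝ) : ℝ := (1 - t ^ 2) / (1 + t ^ 2)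

/-- `2 t / (1 + t²)`. -/
noncomputable def ss (t : ℝ) : ℝ := 2 * t / (1 + t ^ 2)

theorem hasD_circle {Δ : ℝ →+ ℝ} {t : ℝ}
    (hΔ : ∀ s, Δ (t * s) = t * Δ s + (t * (1 + t ^ 2) / 2) * s) :
    HasD Δ (cc t) (-(t * ss t)) ∧ HasD Δ (ss t) (t * cc t) := by
  have hu : (1 + t ^ 2) ≠ 0 := by positivity
  have h2 : ∀ r, Δ (2 * r) = 2 * Δ r := fun r => by
    have : 2 * r = r + r := by ring
    rw [this, map_add]
    ring
  have hsq : ∀ r, Δ (t ^ 2 * r) = t ^ 2 * Δ r + t ^ 2 * (1 + t ^ 2) * r := fun r => by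
    have : t ^ 2 * r = t * (t * r) := by ring
    rw [this, hΔ, hΔ]
    ring
  have hU : ∀ r, Δ ((1 + t ^ 2) * r) = (1 + t ^ 2) * Δ r + t ^ 2 * (1 + t ^ 2) * r := fun r => by
    have : (1 + t ^ 2) * r = r + t ^ 2 * r := by ring
    rw [this, map_add, hsq]
    ring
  have hinv : ∀ r, Δ (r / (1 + t ^ 2)) = (Δ r - t ^ 2 * r) / (1 + t ^ 2) := fun r => by
    have h := hU (r / (1 + t ^ 2))
    have e : (1 + t ^ 2) * (r / (1 + t ^ 2)) = r := by field_simp
    rw [e] at h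
    rw [h, eq_div_iff hu]
    field_simp
    ring
  constructor
  · intro r
    have e : cc t * r = (2 * r) / (1 + t ^ 2) - r := by
      simp only [cc]
      field_simp
      ring
    rw [e, map_sub, hinv, h2]
    simp only [cc, ss]
    field_simp
    ring
  · intro r
    have e : ss t * r = (2 * (t * r)) / (1 + t ^ 2) := by
      simp only [ss]
      field_simp
    rw [e, hinv, h2, hΔ]
    simp only [cc, ss]
    field_simp
    ring

/-- The weight of the `i`-th point. -/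
noncomputable def wt (t : Fin 7 → ℝ) (i : Fin 7) : ℝ :=
  (1 + t i ^ 2) ^ 2 / ∏ j ∈ univ.erase i, (t i - t j)


theorem wt_term (t : Fin 7 → ℝ) (ht : Function.Injective t) (α β1 β2 U V : ℝ) (i : Fin 7) :
    wt t i * (α + cc (t i) * β1 + (-(t i * ss (t i))) * U + ss (t i) * β2 +
        (t i * cc (t i)) * V) ^ 2 =
      (α + β1) ^ 2 * (t i ^ 0 / ∏ j ∈ univ.erase i, (t i - t j)) +
      (2 * (α + β1) * (2 * β2 + V)) * (t i ^ 1 / ∏ j ∈ univ.erase i, (t i - t j)) +
      ((2 * β2 + V) ^ 2 + 2 * (α + β1) * (α - β1 - 2 * U)) *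
        (t i ^ 2 / ∏ j ∈ univ.erase i, (t i - t j)) +
      (2 * (α + β1) * (-V) + 2 * (2 * β2 + V) * (α - β1 - 2 * U)) *
        (t i ^ 3 / ∏ j ∈ univ.erase i, (t i - t j)) +
      ((α - β1 - 2 * U) ^ 2 + 2 * (2 * β2 + V) * (-V)) *
        (t i ^ 4 / ∏ j ∈ univ.erase i, (t i - t j)) +
      (2 * (α - β1 - 2 * U) * (-V)) * (t i ^ 5 / ∏ j ∈ univ.erase i, (t i - t j)) +
      V ^ 2 * (t i ^ 6 / ∏ j ∈ univ.erase i, (t i - t j)) := by
  have hW : ∏ j ∈ univ.erase i, (t i - t j) ≠ 0 := by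
    rw [Finset.prod_ne_zero_iff]
    intro j hj
    exact sub_ne_zero.mpr fun h => (Finset.ne_of_mem_erase hj) (ht h).symm
  have hu : (1 + t i ^ 2) ≠ 0 := by positivity
  simp only [wt, cc, ss]
  generalize ∏ j ∈ univ.erase i, (t i - t j) = W at hW
  generalize t i = x at hu
  field_simp
  ring

/-- **The key identity.** -/
theorem cubic_identity (t : Fin 7 → ℝ) (ht : Function.Injective t) (α β1 β2 U V : ℝ) :
    ∑ i, wt t i * (α + cc (t i) * β1 + (-(t i * ss (t i))) * U + ss (t i) * β2 +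
        (t i * cc (t i)) * V) ^ 2 = V ^ 2 := by
  simp only [wt_term t ht, sum_add_distrib, ← mul_sum]
  rw [lagrange_sum t ht 0 (by norm_num), lagrange_sum t ht 1 (by norm_num),
    lagrange_sum t ht 2 (by norm_num), lagrange_sum t ht 3 (by norm_num),
    lagrange_sum t ht 4 (by norm_num), lagrange_sum t ht 5 (by norm_num),
    lagrange_sum t ht 6 (by norm_num)]
  norm_num

theorem sum_wt (t : Fin 7 → ℝ) (ht : Function.Injective t) : ∑ i, wt t i = 0 := by
  have e : ∀ i, wt t i = (t i ^ 0 / ∏ j ∈ univ.erase i, (t i - t j)) +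
      2 * (t i ^ 2 / ∏ j ∈ univ.erase i, (t i - t j)) +
      (t i ^ 4 / ∏ j ∈ univ.erase i, (t i - t j)) := by
    intro i
    simp only [wt]
    ring
  simp only [e, sum_add_distrib, ← mul_sum]
  rw [lagrange_sum t ht 0 (by norm_num), lagrange_sum t ht 2 (by norm_num),
    lagrange_sum t ht 4 (by norm_num)]
  norm_num

theorem noncollinear (t0 t1 t2 : ℝ) (h01 : t0 ≠ t1) (h02 : t0 ≠ t2) (h12 : t1 ≠ t2) :
    (cc t1 - cc t0) * (ss t2 - ss t0) - (cc t2 - cc t0) * (ss t1 - ss t0) ≠ 0 := by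
  have e : (cc t1 - cc t0) * (ss t2 - ss t0) - (cc t2 - cc t0) * (ss t1 - ss t0) =
      4 * (t0 - t1) * (t0 - t2) * (t2 - t1) / ((1 + t0 ^ 2) * (1 + t1 ^ 2) * (1 + t2 ^ 2)) := by
    simp only [cc, ss]
    field_simp
    ring
  rw [e]
  have a := sub_ne_zero.mpr h01
  have b := sub_ne_zero.mpr h02
  have c := sub_ne_zero.mpr h12.symm
  positivity

/-- **Seven generic points of a circle are not Ramsey**, nor is any set containing them. -/
theorem seven_not_ramsey (t : Fin 7 → ℝ) (ht : AlgebraicIndependent ℚ t) {A : Set (E 2)}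
    (hA : ∀ i, pt (cc (t i)) (ss (t i)) ∈ A) : ¬ IsRamsey A := by
  intro hR
  have hinj : Function.Injective t := ht.injective
  obtain ⟨Δ, hΔ⟩ := exists_multi_delta t (fun i => t i * (1 + t i ^ 2) / 2) ht
  obtain ⟨col, hcol⟩ := rado_real (n := 7) (by norm_num) (wt t) (sum_wt t hinj) 1 one_ne_zero
  obtain ⟨D, -, h⟩ := hR ((4 * 7) ^ 7) (by norm_num)
  obtain ⟨f, hf, k, hk⟩ := h (fun y => col (zfun Δ y))
  obtain ⟨τ, u, v, hv, hc⟩ := affine_plane f hf (cc (t 0)) (ss (t 0)) (cc (t 1)) (ss (t 1))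
    (cc (t 2)) (ss (t 2)) (hA 0) (hA 1) (hA 2)
    (noncollinear _ _ _ (fun h => by simpa using hinj h) (fun h => by simpa using hinj h)
      (fun h => by simpa using hinj h))
  apply hcol (fun i => zfun Δ (f (pt (cc (t i)) (ss (t i)))))
    (fun l m => (hk _ (hA l)).trans (hk _ (hA m)).symm)
  have hz : ∀ i, zfun Δ (f (pt (cc (t i)) (ss (t i)))) = ∑ q, (Δ (τ q) + cc (t i) * Δ (u q) +
      (-(t i * ss (t i))) * u q + ss (t i) * Δ (v q) + (t i * cc (t i)) * v q) ^ 2 :=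
    fun i => z_formula (hasD_circle (hΔ i)).1 (hasD_circle (hΔ i)).2 _ τ u v (hc _ _ (hA i))
  calc ∑ i, wt t i * zfun Δ (f (pt (cc (t i)) (ss (t i))))
      = ∑ i, ∑ q, wt t i * (Δ (τ q) + cc (t i) * Δ (u q) +
          (-(t i * ss (t i))) * u q + ss (t i) * Δ (v q) + (t i * cc (t i)) * v q) ^ 2 := by
        refine sum_congr rfl fun i _ => ?_
        rw [hz, mul_sum]
    _ = ∑ q, ∑ i, wt t i * (Δ (τ q) + cc (t i) * Δ (u q) +
          (-(t i * ss (t i))) * u q + ss (t i) * Δ (v q) + (t i * cc (t i)) * v q) ^ 2 :=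
        sum_comm
    _ = ∑ q, v q ^ 2 := sum_congr rfl fun q _ => cubic_identity t hinj _ _ _ _ _
    _ = 1 := hv

/-- The seven points lie on the unit circle. -/
theorem seven_on_circle (x : ℝ) : ‖pt (cc x) (ss x)‖ = 1 := by
  refine norm_pt _ _ _ zero_le_one ?_
  simp only [cc, ss]
  have hu : (1 + x ^ 2) ≠ 0 := by positivity
  field_simp
  ring

/-- The seven points are pairwise distinct. -/
theorem pt_injective {x y : ℝ} (h : pt (cc x) (ss x) = pt (cc y) (ss y)) : x = y := by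
  have h1 : cc x = cc y := by
    have := congrArg (fun p : E 2 => p 0) h
    simpa [pt] using this
  have h2 : ss x = ss y := by
    have := congrArg (fun p : E 2 => p 1) h
    simpa [pt] using this
  have hux : (1 + x ^ 2) ≠ 0 := by positivity
  have huy : (1 + y ^ 2) ≠ 0 := by positivity
  have e : ∀ z : ℝ, ss z / (1 + cc z) = z := by
    intro z
    have huz : (1 + z ^ 2) ≠ 0 := by positivity
    simp only [cc, ss]
    have : 1 + (1 - z ^ 2) / (1 + z ^ 2) = 2 / (1 + z ^ 2) := by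
      field_simp
      ring
    rw [this]
    field_simp
  rw [← e x, ← e y, h1, h2]

/-- Algebraically independent septuples of reals exist. -/
theorem exists_algIndep : ∃ t : Fin 7 → ℝ, AlgebraicIndependent ℚ t := by
  obtain ⟨s, hs⟩ := exists_isTranscendenceBasis ℚ ℝ
  have hne : Nonempty s := by
    rw [hs.nonempty_iff_transcendental]
    obtain ⟨t, ht⟩ := exists_transcendental
    exact ⟨t, ht⟩
  have hinf : Infinite s := by
    by_contra hfin
    rw [not_infinite_iff_finite] at hfin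
    have h := hs.lift_cardinalMk_eq_max_lift
    simp only [Cardinal.lift_id, Cardinal.mk_eq_aleph0, Cardinal.lift_aleph0] at h
    have h2 : Cardinal.lift.{0} (Cardinal.mk s) ≤ Cardinal.aleph0 := by
      simpa using (Cardinal.lt_aleph0_of_finite s).le
    rw [Cardinal.mk_real] at h
    have h3 : Cardinal.continuum ≤ Cardinal.aleph0 := by
      rw [h]
      simp [h2]
    exact absurd h3 (not_le.mpr Cardinal.aleph0_lt_continuum)
  let e := Infinite.natEmbedding s
  exact ⟨fun i => (e i : ℝ), hs.1.comp (fun i : Fin 7 => e i)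
    (fun a b hab => Fin.ext (e.injective hab))⟩

end Vale.Agent.Lib.P058.Seven
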