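import Mathlib

/-!
# A kite in the plane: definitions
-/

namespace Vale.Agent.Lib.P058

/-- The number `√2 - 1`. -/
noncomputable def kw : ℝ := Real.sqrt 2 - 1

/-- The four points `(g,0), (0,w), (-g,0), (0,-1)` of the plane, with `w = √2 - 1`, `g = √w`:
a kite inscribed in a circle, with the diameter joining the points of index 1 and 3. -/
noncomputable def kitePt : Fin 4 → EuclideanSpace ℝ (Fin 2) :=
  ![WithLp.toLp 2 ![Real.sqrt kw, 0], WithLp.toLp 2 ![0, kw],
    WithLp.toLp 2 ![-Real.sqrt kw, 0], WithLp.toLp 2 ![0, -1]]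

theorem kw_pos : 0 < kw := by
  unfold kw
  have h : (1:ℝ) < Real.sqrt 2 := by
    rw [show (1:ℝ) = Real.sqrt 1 by simp]
    exact Real.sqrt_lt_sqrt (by norm_num) (by norm_num)
  linarith

theorem kw_sq : kw ^ 2 + 2 * kw = 1 := by
  unfold kw
  have h : Real.sqrt 2 ^ 2 = 2 := Real.sq_sqrt (by norm_num)
  nlinarith

/-- The squared distances of the kite. -/
noncomputable def kiteSq (a b : Fin 4) : ℝ :=
  if a = b then 0
  else if (a.val + b.val) % 2 = 0 then (if a.val % 2 = 0 then 4 * kw else 2)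
  else if (a = 3 ∨ b = 3) then 1 + kw else 1 - kw

theorem kite_dist_sq (a b : Fin 4) : dist (kitePt a) (kitePt b) ^ 2 = kiteSq a b := by
  have hg : Real.sqrt kw ^ 2 = kw := Real.sq_sqrt kw_pos.le
  have hw := kw_sq
  rw [EuclideanSpace.dist_eq, Real.sq_sqrt (Finset.sum_nonneg fun _ _ => sq_nonneg _)]
  simp only [Fin.sum_univ_two, Real.dist_eq, sq_abs]
  fin_cases a <;> fin_cases b <;> simp [kitePt, kiteSq] <;> nlinarith

end Vale.Agent.Lib.P058
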