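import Vale.Agent.Lib.P058.Cells

/-!
# Merging rows of words

If the letters of a family of words are arranged in rows, then the family is word Ramsey as soon
as the family of the contents (multisets) of the rows is.  No trees and no groups.
-/

set_option linter.unusedVariables false
set_option linter.unusedSectionVars false

namespace Vale.Agent.Lib.P058

open Finset

/-- Word Ramsey for some positive multiplicity. -/
def WR {ι P Λ : Type} [DecidableEq P] [DecidableEq Λ] (W : ι → P → Λ) : Prop :=
  ∃ M, 0 < M ∧ WordRamsey W M

section Basic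

variable {ι P C Λ Γ Θ : Type}

/-- Word Ramsey families pass to images under letter maps. -/
theorem WordRamsey.letterMap [DecidableEq P] [DecidableEq Λ] [DecidableEq Γ] [Fintype Λ]
    (W : ι → P → Λ) (ψ : Λ → Γ) {M : ℕ} (h : WordRamsey W M) :
    WordRamsey (fun i p => ψ (W i p)) M := by
  classical
  intro r hr
  obtain ⟨n, K, hn⟩ := h r hr
  refine ⟨n, fun g => ∑ l ∈ univ.filter (fun l => ψ l = g), K l, fun c => ?_⟩
  obtain ⟨τ, hlab, hcont, k, hk⟩ := hn (fun y => c (fun q => ψ (y q)))
  let τ' : Fin n → P ⊕ Γ := fun q => Sum.map id ψ (τ q)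
  have hhost : ∀ i q, hostWord (fun p => ψ (W i p)) τ' q = ψ (hostWord (W i) τ q) := by
    intro i q
    simp only [hostWord, τ']
    rcases τ q with p | l <;> simp
  refine ⟨τ', ?_, ?_, k, ?_⟩
  · intro p
    rw [← hlab p]
    congr 1
    ext q
    simp only [mem_filter, mem_univ, true_and, τ']
    rcases τ q with p' | l <;> simp
  · intro i g
    have h1 : (univ.filter (fun q => hostWord (fun p => ψ (W i p)) τ' q = g)).card =
        ∑ l ∈ univ.filter (fun l => ψ l = g),
          (univ.filter (fun q => hostWord (W i) τ q = l)).card := by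
      rw [← card_biUnion]
      · congr 1
        ext q
        simp only [mem_filter, mem_univ, true_and, mem_biUnion, hhost]
        constructor
        · intro hq
          exact ⟨_, hq, rfl⟩
        · rintro ⟨l, hl, hq⟩
          rw [hq, hl]
      · intro a _ b _ hab
        simp only [Function.onFun]
        rw [disjoint_left]
        intro q hq hq'
        simp only [mem_filter, mem_univ, true_and] at hq hq'
        exact hab (hq.symm.trans hq')
    rw [h1]
    exact sum_congr rfl fun l _ => hcont i l
  · intro i
    have := hk i
    rw [← this]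
    congr 1
    funext q
    exact hhost i q

theorem WR.letterMap [DecidableEq P] [DecidableEq Λ] [DecidableEq Γ] [Fintype Λ]
    {W : ι → P → Λ} (ψ : Λ → Γ) (h : WR W) : WR (fun i p => ψ (W i p)) := by
  obtain ⟨M, hM, h⟩ := h
  exact ⟨M, hM, WordRamsey.letterMap W ψ h⟩

/-- Positions may be replaced by balanced labellings with constants. -/
theorem WordRamsey.of_subst [Fintype C] [DecidableEq P] [DecidableEq C] [DecidableEq Λ]
    (W : ι → P → Λ) (Φ : C → P ⊕ Λ) (b : ℕ)
    (hb : ∀ p, (univ.filter (fun s => Φ s = Sum.inl p)).card = b) {M : ℕ}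
    (h : WordRamsey (fun i s => Sum.elim (W i) id (Φ s)) M) : WordRamsey W (M * b) := by
  classical
  intro r hr
  obtain ⟨n, K, hn⟩ := h r hr
  refine ⟨n, K, fun c => ?_⟩
  obtain ⟨τ', hlab, hcont, k, hk⟩ := hn c
  let τ : Fin n → P ⊕ Λ := fun q => Sum.elim Φ Sum.inr (τ' q)
  have hhost : ∀ i, hostWord (W i) τ = hostWord (fun s => Sum.elim (W i) id (Φ s)) τ' := by
    intro i
    funext q
    simp only [hostWord, τ]
    rcases τ' q with s | l <;> simp
  refine ⟨τ, ?_, ?_, k, ?_⟩
  · intro p
    have h1 : univ.filter (fun q => τ q = Sum.inl p) =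
        (univ.filter (fun s => Φ s = Sum.inl p)).biUnion
          (fun s => univ.filter (fun q => τ' q = Sum.inl s)) := by
      ext q
      simp only [mem_filter, mem_univ, true_and, mem_biUnion, τ]
      rcases τ' q with s | l
      · simp
      · simp
    rw [h1, card_biUnion, sum_congr rfl (fun s _ => hlab s), sum_const, hb p, smul_eq_mul,
      mul_comm]
    intro a _ b _ hab
    simp only [Function.onFun]
    rw [disjoint_left]
    intro q hq hq'
    simp only [mem_filter, mem_univ, true_and] at hq hq'
    rw [hq] at hq'
    exact hab (Sum.inl.inj hq')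
  · intro i l
    rw [hhost]
    exact hcont i l
  · intro i
    rw [hhost]
    exact hk i

/-- The cell reduction without deleting a letter. -/
theorem WordRamsey.of_reads [Nonempty ι] [Fintype P] [DecidableEq P] [Fintype Λ] [DecidableEq Λ]
    [Nonempty Λ] [Fintype C] [DecidableEq C] [Fintype Θ] [DecidableEq Θ]
    (W : ι → P → Λ) (σ : C → List P) (R : ℕ) (hR : ∀ p, ∑ s, (σ s).count p = R)
    (fl : Θ → List Λ) (W' : ι → C → Θ) (hW' : ∀ i s, fl (W' i s) = (σ s).map (W i))
    {M' : ℕ} (h : WordRamsey W' M') : WordRamsey W (M' * R) := by
  classical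
  have h1 : WordRamsey (fun i p => (some (W i p) : Option Λ)) (M' * R) := by
    refine WordRamsey.of_cells (fun i p => (some (W i p) : Option Λ)) none σ R hR
      (fun θ => (fl θ).map some) (by simp) W' (fun i s => ?_) h
    rw [hW', List.map_map]
    rw [List.filter_eq_self.mpr]
    · rfl
    · intro a ha
      simp only [List.mem_map] at ha
      obtain ⟨p, _, rfl⟩ := ha
      simp
  have h2 := WordRamsey.letterMap _ (fun o : Option Λ => o.getD (Classical.arbitrary Λ)) h1
  simpa using h2

end Basic

section Merge

variable {ι Q Γ Θ A : Type}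

/-- Reading `[p, flip p]` covers every position twice. -/
theorem flip_cover [Fintype Q] [DecidableEq Q] (p : Q × Bool) :
    ∑ s : Q × Bool, @List.count (Q × Bool) instBEqOfDecidableEq p [s, (s.1, !s.2)] = 2 := by
  have h1 : ∀ s : Q × Bool, @List.count (Q × Bool) instBEqOfDecidableEq p [s, (s.1, !s.2)] =
      (if s = p then 1 else 0) + (if s = (p.1, !p.2) then 1 else 0) := by
    intro s
    rcases s with ⟨q, b⟩
    rcases p with ⟨q', b'⟩
    simp only [List.count_cons, List.count_nil, beq_iff_eq, Prod.mk.injEq]
    by_cases hq : q = q'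
    · subst hq
      cases b <;> cases b' <;> simp
    · simp [hq]
  simp only [h1, sum_add_distrib]
  simp

/-- Merging the letters of a family equivariant under an involution. -/
theorem mergeWR [Nonempty ι] [Fintype Q] [DecidableEq Q] [Fintype Γ] [DecidableEq Γ]
    [Fintype Θ] [DecidableEq Θ] (φ : Γ → Θ) :
    ∀ (n : ℕ) (σ : Γ → Γ) (V : ι → Q × Bool → Γ), (univ.filter (fun l => σ l ≠ l)).card = n →
      (∀ l, σ (σ l) = l) → (∀ i q b, V i (q, !b) = σ (V i (q, b))) → (∀ l, φ (σ l) = φ l) →
      (∀ i p i' p', φ (V i p) = φ (V i' p') → V i' p' = V i p ∨ V i' p' = σ (V i p)) →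
      WR (fun i p => φ (V i p)) → WR V := by
  classical
  intro n
  induction n using Nat.strong_induction_on with
  | _ n ih =>
    intro σ V hn hinv hV hφ hφ' hWR
    by_cases hfix : ∀ l, σ l = l
    · -- `φ` is injective on the letters used
      by_cases hΓ : Nonempty Γ
      · let ψ : Θ → Γ := fun θ =>
          if h : ∃ x : ι × (Q × Bool), φ (V x.1 x.2) = θ then V h.choose.1 h.choose.2
          else Classical.arbitrary Γ
        have hψ : ∀ i p, ψ (φ (V i p)) = V i p := by
          intro i p
          have hex : ∃ x : ι × (Q × Bool), φ (V x.1 x.2) = φ (V i p) := ⟨(i, p), rfl⟩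
          simp only [ψ, dif_pos hex]
          have := hφ' _ _ _ _ hex.choose_spec
          rcases this with h | h
          · exact h.symm
          · rw [hfix] at h
            exact h.symm
        have := WR.letterMap ψ hWR
        simpa [hψ] using this
      · -- no letters: the words coincide
        have hQ : IsEmpty (Q × Bool) := by
          refine ⟨fun p => hΓ ⟨V (Classical.arbitrary ι) p⟩⟩
        exact ⟨1, one_pos, WordRamsey.const _ (V (Classical.arbitrary ι)) fun i => by
          funext p
          exact (hQ.false p).elim⟩
    · simp only [not_forall] at hfix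
      obtain ⟨a, ha⟩ := hfix
      let b : Γ := σ a
      have hab : b ≠ a := ha
      have hba : σ b = a := hinv a
      let ρ : Γ → Γ := fun l => if l = a then b else l
      let σ' : Γ → Γ := fun l => if l = a ∨ l = b then l else σ l
      let V' : ι → Q × Bool → Γ := fun i p => ρ (V i p)
      have hσ'inv : ∀ l, σ' (σ' l) = l := by
        intro l
        by_cases hl : l = a ∨ l = b
        · simp [σ', hl]
        · have h1 : ¬ (σ l = a ∨ σ l = b) := by
            rintro (h | h)
            · apply hl
              right
              rw [← hinv l, h]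
            · apply hl
              left
              have := congrArg σ h
              rw [hinv l, hba] at this
              exact this
          simp only [σ', if_neg hl, if_neg h1, hinv]
      have hsub : (univ.filter (fun l => σ' l ≠ l)) ⊂ (univ.filter (fun l => σ l ≠ l)) := by
        refine ⟨fun l hl => ?_, fun h => ?_⟩
        · simp only [mem_filter, mem_univ, true_and, σ'] at hl ⊢
          by_cases hl' : l = a ∨ l = b
          · simp [hl'] at hl
          · simpa [hl'] using hl
        · have : a ∈ univ.filter (fun l => σ' l ≠ l) :=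
            h (by simp only [mem_filter, mem_univ, true_and]; exact ha)
          simp [σ'] at this
      have hV' : ∀ i q bb, V' i (q, !bb) = σ' (V' i (q, bb)) := by
        intro i q bb
        simp only [V', hV i q bb, ρ, σ']
        by_cases h1 : V i (q, bb) = a
        · simp [h1, b]
        · by_cases h2 : V i (q, bb) = b
          · simp [h2, hba, hab]
          · have h3 : σ (V i (q, bb)) ≠ a := by
              intro h
              apply h2
              have := congrArg σ h
              rw [hinv] at this
              exact this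
            have h4 : ¬ (V i (q, bb) = a ∨ V i (q, bb) = b) := by
              rintro (h | h)
              · exact h1 h
              · exact h2 h
            simp [h1, h2, h3]
      have hφρ : ∀ l, φ (ρ l) = φ l := by
        intro l
        by_cases h : l = a
        · simp only [ρ, if_pos h, h]
          exact hφ a
        · simp [ρ, h]
      have hφ1 : ∀ l, φ (σ' l) = φ l := by
        intro l
        by_cases h : l = a ∨ l = b
        · simp [σ', h]
        · simp only [σ', if_neg h]
          exact hφ l
      have hV'a : ∀ i p, V' i p ≠ a := by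
        intro i p
        simp only [V', ρ]
        by_cases h : V i p = a
        · simp [h, hab]
        · simp [h]
      have hφ2 : ∀ i p i' p', φ (V' i p) = φ (V' i' p') →
          V' i' p' = V' i p ∨ V' i' p' = σ' (V' i p) := by
        intro i p i' p' h
        have h' : φ (V i p) = φ (V i' p') := by
          have h1 := hφρ (V i p)
          have h2 := hφρ (V i' p')
          simp only [V'] at h
          rw [← h1, ← h2, h]
        -- work with the merged letters
        by_cases h1 : V i p = a
        · by_cases h2 : V i' p' = a
          · left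
            simp [V', ρ, h1, h2]
          · rcases hφ' _ _ _ _ h' with h3 | h3
            · left
              simp [V', ρ, h1, h3]
            · left
              rw [h1] at h3
              simp only [V', ρ, h1, h2, if_false, if_true]
              rw [h3]
        · by_cases h2 : V i' p' = a
          · rcases hφ' _ _ _ _ h' with h3 | h3
            · exact absurd (h3.symm.trans h2) h1
            · left
              have : V i p = b := by
                have := congrArg σ h3
                rw [hinv, h2] at this
                exact this.symm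
              simp only [V', ρ, h1, h2, if_false, if_true]
              rw [this]
          · rcases hφ' _ _ _ _ h' with h3 | h3
            · left
              simp [V', ρ, h1, h2, h3]
            · right
              have h4 : V i p ≠ b := by
                intro h5
                apply h2
                rw [h3, h5, hba]
              have h5 : ¬ (V i p = a ∨ V i p = b) := by
                rintro (h | h)
                · exact h1 h
                · exact h4 h
              have h6 : σ (V i p) ≠ a := by
                rw [← h3]
                exact h2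
              simp [V', ρ, h1, h2, σ', h5, h3, h6, h4]
      have hWR' : WR (fun i p => φ (V' i p)) := by
        simpa [V', hφρ] using hWR
      have hcard := card_lt_card hsub
      rw [hn] at hcard
      obtain ⟨M, hM, hW'⟩ := ih _ hcard σ' V' rfl hσ'inv hV' hφ1 hφ2 hWR'
      refine ⟨M * 2, by omega, ?_⟩
      refine WordRamsey.of_cells V a (C := Q × Bool) (Θ := Γ) (fun s => [s, (s.1, !s.2)]) 2
        flip_cover (fun θ => ([θ, σ θ] : List Γ).filter (· ≠ a)) ?_ V' ?_ hW'
      · intro θ h
        simp [List.mem_filter] at h
      · intro i s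
        rcases s with ⟨q, bb⟩
        simp only [List.map_cons, List.map_nil, hV i q bb, V', ρ]
        by_cases h1 : V i (q, bb) = a
        · simp [h1, b, hba, hab]
        · simp [h1]

/-- Rows of length two: merging to unordered pairs. -/
theorem sym2WR [Nonempty ι] [Fintype Q] [DecidableEq Q] [Fintype A] [DecidableEq A]
    (W : ι → Q × Bool → A) (h : WR (fun i q => s(W i (q, false), W i (q, true)))) : WR W := by
  classical
  by_cases hA : Nonempty A
  · haveI : Nonempty (Sym2 A) := ⟨s(Classical.arbitrary A, Classical.arbitrary A)⟩
    let W1 : ι → Q × Bool → A × A := fun i p => (W i p, W i (p.1, !p.2))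
    let φ : A × A → Sym2 A := fun x => s(x.1, x.2)
    have h1 : WR (fun i p => φ (W1 i p)) := by
      obtain ⟨M, hM, hM'⟩ := h
      refine ⟨M * 1, by omega, ?_⟩
      refine WordRamsey.of_reads (C := Q) (Θ := Sym2 A) _ (fun q => [(q, false), (q, true)]) 1
        (fun p => ?_) (fun θ => [θ, θ]) _ (fun i q => ?_) hM'
      · rcases p with ⟨q', b'⟩
        have : ∀ q : Q, @List.count (Q × Bool) instBEqOfDecidableEq (q', b')
            [(q, false), (q, true)] = if q = q' then 1 else 0 := by
          intro q
          simp only [List.count_cons, List.count_nil, beq_iff_eq, Prod.mk.injEq]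
          by_cases hq : q = q'
          · subst hq
            cases b' <;> simp
          · simp [hq]
        simp only [this]
        simp
      · simp only [List.map_cons, List.map_nil, φ, W1, Bool.not_false, Bool.not_true]
        congr 2
        exact Sym2.eq_swap
    have h2 : WR W1 := by
      refine mergeWR φ _ Prod.swap W1 rfl (fun l => by simp) (fun i q b => ?_) (fun l => ?_)
        (fun i p i' p' h => ?_) h1
      · simp [W1]
      · simp only [φ, Prod.fst_swap, Prod.snd_swap]
        exact Sym2.eq_swap
      · simp only [φ, Sym2.eq_iff] at h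
        rcases h with ⟨h3, h4⟩ | ⟨h3, h4⟩
        · left
          exact Prod.ext h3.symm h4.symm
        · right
          exact Prod.ext h4.symm h3.symm
    obtain ⟨M, hM, hM'⟩ := h2
    refine ⟨M * 2, by omega, ?_⟩
    exact WordRamsey.of_reads (C := Q × Bool) (Θ := A × A) W (fun s => [s, (s.1, !s.2)]) 2
      flip_cover (fun θ => [θ.1, θ.2]) W1 (fun i s => by simp [W1]) hM'
  · have hQ : IsEmpty (Q × Bool) := ⟨fun p => hA ⟨W (Classical.arbitrary ι) p⟩⟩
    exact ⟨1, one_pos, WordRamsey.const _ (W (Classical.arbitrary ι)) fun i => by
      funext p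
      exact (hQ.false p).elim⟩

end Merge

section Rows

variable {ι Q A Λ : Type}

/-- The content of a row. -/
def cont {m : ℕ} (r : Fin m → A) : Sym A m := ⟨univ.val.map r, by simp⟩

theorem cont_val {m : ℕ} (r : Fin m → A) : (cont r).1 = univ.val.map r := rfl

theorem mem_cont {m : ℕ} (r : Fin m → A) (j : Fin m) : r j ∈ (cont r).1 :=
  Multiset.mem_map.mpr ⟨j, mem_univ_val j, rfl⟩

/-- Splitting one entry off a row. -/
theorem map_univ_succAbove {N : ℕ} (f : Fin (N + 1) → A) (p : Fin (N + 1)) :
    univ.val.map f = f p ::ₘ univ.val.map (fun j => f (p.succAbove j)) := by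
  rw [Fin.univ_succAbove N p]
  simp [Finset.cons_val, Multiset.map_map]
  exact List.Perm.refl _

/-- Rows merge to their contents. -/
def RowMerge (m : ℕ) : Prop :=
  ∀ (ι Q A : Type) [Nonempty ι] [Fintype Q] [DecidableEq Q] [Fintype A] [DecidableEq A]
    (W : ι → Q × Fin m → A), WR (fun i q => cont (fun j => W i (q, j))) → WR W

theorem rowMerge_one : RowMerge 1 := by
  intro ι Q A _ _ _ _ _ W h
  classical
  by_cases hA : Nonempty A
  · have h1 : WR (fun i q => W i (q, 0)) := by
      have := WR.letterMap (fun s : Sym A 1 => Sym.oneEquiv.symm s) h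
      have h2 : ∀ i q, Sym.oneEquiv.symm (cont (fun j => W i (q, j))) = W i (q, 0) := by
        intro i q
        rw [Equiv.symm_apply_eq]
        apply Subtype.ext
        simp [cont, Sym.oneEquiv]
        rfl
      simpa only [h2] using this
    obtain ⟨M, hM, hM'⟩ := h1
    refine ⟨M * 1, by omega, ?_⟩
    refine WordRamsey.of_reads (C := Q) (Θ := A) W (fun q => [(q, 0)]) 1
      (fun p => ?_) (fun θ => [θ]) _ (fun i q => by simp) hM'
    rcases p with ⟨q', j⟩
    have hj : j = 0 := Subsingleton.elim _ _
    subst hj
    have : ∀ q : Q, @List.count (Q × Fin 1) instBEqOfDecidableEq (q', 0) [(q, 0)] =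
        if q = q' then 1 else 0 := by
      intro q
      simp [List.count_cons]
    simp only [this]
    simp
  · have hQ : IsEmpty (Q × Fin 1) := ⟨fun p => hA ⟨W (Classical.arbitrary ι) p⟩⟩
    exact ⟨1, one_pos, WordRamsey.const _ (W (Classical.arbitrary ι)) fun i => by
      funext p
      exact (hQ.false p).elim⟩

/-- Every multiset of the right size is the content of a row. -/
theorem exists_row {m : ℕ} (s : Multiset A) (hs : Multiset.card s = m) :
    ∃ R : Fin m → A, univ.val.map R = s := by
  induction s using Multiset.induction_on generalizing m with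
  | empty =>
    simp at hs
    subst hs
    exact ⟨Fin.elim0, by simp⟩
  | cons a s ih =>
    rw [Multiset.card_cons] at hs
    subst hs
    obtain ⟨R, hR⟩ := ih rfl
    refine ⟨Fin.cons a R, ?_⟩
    rw [map_univ_succAbove _ 0]
    simp [hR]

/-- The count of the labels in the step. -/
theorem count_succAbove {N : ℕ} (r : Fin (N + 2)) :
    (univ.filter (fun z : Fin (N + 2) × Fin (N + 1) => z.1.succAbove z.2 = r)).card = N + 1 := by
  have h1 : (univ.filter (fun z : Fin (N + 2) × Fin (N + 1) => z.1.succAbove z.2 = r)).card =
      ((univ.filter (fun z : Fin (N + 2) × Fin (N + 1) => z.1.succAbove z.2 = r)).image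
        Prod.fst).card := by
    symm
    apply card_image_of_injOn
    rintro ⟨p, j⟩ hz ⟨p', j'⟩ hz' hpp
    simp only [coe_filter, mem_univ, true_and, Set.mem_setOf_eq] at hz hz'
    simp only at hpp
    subst hpp
    have : j = j' := Fin.succAbove_right_injective (hz.trans hz'.symm)
    rw [this]
  rw [h1]
  have h2 : (univ.filter (fun z : Fin (N + 2) × Fin (N + 1) => z.1.succAbove z.2 = r)).image
      Prod.fst = univ.erase r := by
    ext p
    simp only [mem_image, mem_filter, mem_univ, true_and, mem_erase, and_true, Prod.exists,
      exists_and_right, exists_eq_right]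
    constructor
    · rintro ⟨j, hj⟩ rfl
      exact Fin.succAbove_ne p j hj
    · intro hp
      obtain ⟨j, hj⟩ := Fin.exists_succAbove_eq (Ne.symm hp)
      exact ⟨j, hj⟩
  rw [h2, card_erase_of_mem (mem_univ r)]
  simp

/-- One step of the induction: the labelling. -/
def stepLabel {Q Λ : Type} {N : ℕ} (R : Fin N → Λ) :
    ((Q × Fin (N + 2)) × Bool) × Fin (N + 1) → (Q × Fin (N + 2)) ⊕ Λ
  | ((x, false), j) => Fin.cons (α := fun _ => (Q × Fin (N + 2)) ⊕ Λ) (Sum.inl x)
      (fun k => Sum.inr (R k)) j
  | ((x, true), j) => Sum.inl (x.1, x.2.succAbove j)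

theorem stepLabel_count {Q Λ : Type} [Fintype Q] [DecidableEq Q] [DecidableEq Λ] {N : ℕ}
    (R : Fin N → Λ) (y : Q × Fin (N + 2)) :
    (univ.filter (fun s => stepLabel R s = Sum.inl y)).card = N + 2 := by
  classical
  rcases y with ⟨q, r⟩
  let g : Fin (N + 2) × Fin (N + 1) → ((Q × Fin (N + 2)) × Bool) × Fin (N + 1) :=
    fun z => (((q, z.1), true), z.2)
  have hg : Function.Injective g := by
    rintro ⟨a, b⟩ ⟨c, d⟩ h
    simp only [g, Prod.mk.injEq, true_and, and_true] at h
    exact Prod.ext h.1 h.2
  have h1 : univ.filter (fun s => stepLabel R s = Sum.inl (q, r)) =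
      insert (((q, r), false), 0)
        ((univ.filter (fun z : Fin (N + 2) × Fin (N + 1) => z.1.succAbove z.2 = r)).image g) := by
    ext s
    rcases s with ⟨⟨⟨q', p⟩, b⟩, j⟩
    simp only [mem_filter, mem_univ, true_and, mem_insert, mem_image, Prod.exists, g,
      Prod.mk.injEq]
    cases b
    · refine Fin.cases ?_ (fun k => ?_) j
      · simp [stepLabel]
      · simp [stepLabel]
    · simp only [stepLabel, Sum.inl.injEq, Prod.mk.injEq, Bool.true_eq_false, and_false,
        false_and, false_or, and_true, true_and]
      constructor
      · rintro ⟨rfl, rfl⟩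
        exact ⟨p, j, rfl, ⟨rfl, rfl⟩, rfl⟩
      · rintro ⟨a, b, hab, ⟨rfl, rfl⟩, rfl⟩
        exact ⟨rfl, hab⟩
  rw [h1, card_insert_of_notMem, card_image_of_injective _ hg, count_succAbove]
  simp [g]

/-- Deleting a letter from a content, totally defined. -/
def eraseTot {n : ℕ} [DecidableEq Λ] (s : Sym Λ (n + 1)) (l : Λ) : Sym Λ n :=
  if h : l ∈ s then s.erase l h else Sym.replicate n l

theorem eraseTot_val {n : ℕ} [DecidableEq Λ] (s : Sym Λ (n + 1)) (l : Λ) (h : l ∈ s.1) :
    (eraseTot s l).1 = s.1.erase l := by
  have h' : l ∈ s := h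
  simp only [eraseTot, dif_pos h']
  rfl

theorem cont_succAbove {N : ℕ} [DecidableEq Λ] (f : Fin (N + 1) → Λ) (p : Fin (N + 1)) :
    cont (fun j => f (p.succAbove j)) = eraseTot (cont f) (f p) := by
  apply Subtype.ext
  rw [eraseTot_val _ _ (mem_cont f p), cont_val, cont_val, map_univ_succAbove f p,
    Multiset.erase_cons_head]

theorem ofFn_count {m : ℕ} [DecidableEq Q] (q : Q) (p : Q × Fin m) :
    @List.count (Q × Fin m) instBEqOfDecidableEq p (List.ofFn fun j => (q, j)) =
      if q = p.1 then 1 else 0 := by
  have hnd : (List.ofFn fun j : Fin m => (q, j)).Nodup :=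
    List.nodup_ofFn.mpr fun a b h => (Prod.mk.inj h).2
  rw [@List.Nodup.count _ instBEqOfDecidableEq _ p _ hnd]
  by_cases h : q = p.1
  · subst h
    rw [if_pos, if_pos rfl]
    rw [List.mem_ofFn]
    exact ⟨p.2, rfl⟩
  · rw [if_neg, if_neg h]
    rw [List.mem_ofFn]
    rintro ⟨j, hj⟩
    exact h (congrArg Prod.fst hj)

/-- The induction step of the merge. -/
theorem rowMerge_progress {N : ℕ} (hm : RowMerge (N + 1)) [Nonempty ι] [Fintype Q] [DecidableEq Q]
    [Fintype A] [DecidableEq A] (W : ι → Q × Fin (N + 2) → A)
    (h0 : WR (fun i q => cont (fun j => W i (q, j)))) :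
    ∀ (n : ℕ) (Λ : Type) [Fintype Λ] [DecidableEq Λ] (ψ : A → Sym A (N + 2) → Λ),
      (∑ t : Sym A (N + 2), (t.1.toFinset.image (fun a => ψ a t)).card) = n →
      WR (fun i (x : Q × Fin (N + 2)) => ψ (W i x) (cont (fun j => W i (x.1, j)))) := by
  classical
  intro n
  induction n using Nat.strong_induction_on with
  | _ n ih =>
    intro Λ _ _ ψ hn
    let θ : ι → Q → Sym A (N + 2) := fun i q => cont (fun j => W i (q, j))
    let V : ι → Q × Fin (N + 2) → Λ := fun i x => ψ (W i x) (θ i x.1)
    change WR V
    have hmemW : ∀ i x, W i x ∈ (θ i x.1).1 := by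
      rintro i ⟨q, j⟩
      exact mem_cont (fun j => W i (q, j)) j
    by_cases hΛ : Nonempty Λ
    swap
    · have hQ : IsEmpty (Q × Fin (N + 2)) := ⟨fun p => hΛ ⟨V (Classical.arbitrary ι) p⟩⟩
      exact ⟨1, one_pos, WordRamsey.const _ (V (Classical.arbitrary ι)) fun i => by
        funext p
        exact (hQ.false p).elim⟩
    by_cases hconst : ∀ t : Sym A (N + 2), ∀ a ∈ t.1, ∀ b ∈ t.1, ψ a t = ψ b t
    · -- all letters of a content agree
      have hne : ∀ t : Sym A (N + 2), ∃ a, a ∈ t.1 := by
        intro t
        apply Multiset.card_pos_iff_exists_mem.mp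
        rw [t.2]
        omega
      let g : Sym A (N + 2) → Λ := fun t => ψ (hne t).choose t
      have hV : ∀ i x, V i x = g (θ i x.1) := by
        intro i x
        exact hconst _ _ (hmemW i x) _ (hne _).choose_spec
      obtain ⟨M, hM, hM'⟩ := WR.letterMap g h0
      refine ⟨M * 1, by omega, ?_⟩
      refine WordRamsey.of_reads (C := Q) (Θ := Λ) V (fun q => List.ofFn fun j => (q, j)) 1
        (fun p => ?_) (fun θ => List.replicate (N + 2) θ) _ (fun i q => ?_) hM'
      · simp only [ofFn_count]
        simp
      · rw [List.map_ofFn, ← List.ofFn_const]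
        congr 1
        funext j
        exact (hV i (q, j)).symm
    · simp only [not_forall] at hconst
      obtain ⟨t0, x, hx, y, hy, hxy⟩ := hconst
      let Ω : Sym A (N + 2) → Sym Λ (N + 2) := fun t => Sym.map (fun a => ψ a t) t
      have hΩval : ∀ t, (Ω t).1 = t.1.map (fun a => ψ a t) := fun t => rfl
      have hΩ : ∀ i q, Ω (θ i q) = cont (fun j => V i (q, j)) := by
        intro i q
        apply Subtype.ext
        rw [hΩval, cont_val]
        change Multiset.map _ (univ.val.map _) = _
        rw [Multiset.map_map]
        rfl
      let u : Λ := ψ x t0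
      let v : Λ := ψ y t0
      have huv : u ≠ v := hxy
      have hu : u ∈ (Ω t0).1 := by
        rw [hΩval]
        exact Multiset.mem_map_of_mem _ hx
      have hv : v ∈ (Ω t0).1 := by
        rw [hΩval]
        exact Multiset.mem_map_of_mem _ hy
      have hv' : v ∈ (Ω t0).1.erase u := (Multiset.mem_erase_of_ne huv.symm).mpr hv
      let s0 : Multiset Λ := ((Ω t0).1.erase u).erase v
      have hs0 : Multiset.card s0 = N := by
        have h1 := Multiset.card_erase_of_mem hv'
        have h2 := Multiset.card_erase_of_mem hu
        have h3 : Multiset.card (Ω t0).1 = N + 2 := (Ω t0).2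
        simp only [s0]
        rw [h1, h2, h3]
        simp
      obtain ⟨R, hR⟩ := exists_row s0 hs0
      let consR : Λ → Sym Λ (N + 1) := fun l => cont (Fin.cons l R : Fin (N + 1) → Λ)
      have hconsR : ∀ l, (consR l).1 = l ::ₘ s0 := by
        intro l
        simp only [consR, cont_val]
        rw [map_univ_succAbove _ 0, ← hR]
        simp
      let F : Sym A (N + 2) → Λ → Sym2 (Sym Λ (N + 1)) :=
        fun t l => s(consR l, eraseTot (Ω t) l)
      let ψ' : A → Sym A (N + 2) → Sym2 (Sym Λ (N + 1)) := fun a t => F t (ψ a t)
      have hFuv : F t0 u = F t0 v := by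
        have hΩ1 : (Ω t0).1 = u ::ₘ v ::ₘ s0 := by
          rw [Multiset.cons_erase hv', Multiset.cons_erase hu]
        have h1 : eraseTot (Ω t0) u = consR v := by
          apply Subtype.ext
          rw [eraseTot_val _ _ hu, hconsR, hΩ1, Multiset.erase_cons_head]
        have h2 : eraseTot (Ω t0) v = consR u := by
          apply Subtype.ext
          rw [eraseTot_val _ _ hv, hconsR, hΩ1, Multiset.cons_swap, Multiset.erase_cons_head]
        simp only [F, h1, h2]
        exact Sym2.eq_swap
      have hle : ∀ t ∈ (univ : Finset (Sym A (N + 2))),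
          (t.1.toFinset.image (fun a => ψ' a t)).card ≤
            (t.1.toFinset.image (fun a => ψ a t)).card := by
        intro t _
        have : t.1.toFinset.image (fun a => ψ' a t) =
            (t.1.toFinset.image (fun a => ψ a t)).image (F t) := by
          rw [image_image]
          rfl
        rw [this]
        exact card_image_le
      have hlt : (t0.1.toFinset.image (fun a => ψ' a t0)).card <
          (t0.1.toFinset.image (fun a => ψ a t0)).card := by
        have h1 : t0.1.toFinset.image (fun a => ψ' a t0) =
            (t0.1.toFinset.image (fun a => ψ a t0)).image (F t0) := by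
          rw [image_image]
          rfl
        rw [h1]
        apply lt_of_le_of_ne card_image_le
        intro h2
        have h3 := card_image_iff.mp h2
        apply huv
        apply h3 _ _ hFuv
        · exact mem_coe.mpr (mem_image_of_mem _ (Multiset.mem_toFinset.mpr hx))
        · exact mem_coe.mpr (mem_image_of_mem _ (Multiset.mem_toFinset.mpr hy))
      have hsum : (∑ t : Sym A (N + 2), (t.1.toFinset.image (fun a => ψ' a t)).card) < n := by
        rw [← hn]
        exact sum_lt_sum hle ⟨t0, mem_univ _, hlt⟩
      have hV' := ih _ hsum (Sym2 (Sym Λ (N + 1))) ψ' rfl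
      -- the rows of the next family
      let X : ι → ((Q × Fin (N + 2)) × Bool) × Fin (N + 1) → Λ :=
        fun i s => Sum.elim (V i) id (stepLabel R s)
      let Z : ι → (Q × Fin (N + 2)) × Bool → Sym Λ (N + 1) :=
        fun i s => cont (fun j => X i (s, j))
      have hZf : ∀ i x, Z i (x, false) = consR (V i x) := by
        intro i x
        simp only [Z, consR]
        congr 1
        funext j
        refine Fin.cases ?_ (fun k => ?_) j
        · simp [X, stepLabel]
        · simp [X, stepLabel]
      have hZt : ∀ i x, Z i (x, true) = eraseTot (Ω (θ i x.1)) (V i x) := by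
        rintro i ⟨q, p⟩
        rw [hΩ]
        have h1 : cont (fun j => V i (q, p.succAbove j)) =
            eraseTot (cont fun j => V i (q, j)) (V i (q, p)) :=
          cont_succAbove (fun j => V i (q, j)) p
        change _ = eraseTot (cont fun j => V i (q, j)) (V i (q, p))
        rw [← h1]
        rfl
      have hZ : WR Z := by
        apply sym2WR
        have : (fun i x => s(Z i (x, false), Z i (x, true))) =
            fun i (x : Q × Fin (N + 2)) => ψ' (W i x) (cont (fun j => W i (x.1, j))) := by
          funext i x
          rw [hZf, hZt]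
        rw [this]
        exact hV'
      have hX : WR X := hm ι ((Q × Fin (N + 2)) × Bool) Λ X hZ
      obtain ⟨M, hM, hM'⟩ := hX
      refine ⟨M * (N + 2), by positivity, ?_⟩
      exact WordRamsey.of_subst V (stepLabel R) (N + 2) (fun y => stepLabel_count R y) hM'

theorem rowMerge_succ {N : ℕ} (hm : RowMerge (N + 1)) : RowMerge (N + 2) := by
  intro ι Q A _ _ _ _ _ W h
  exact rowMerge_progress hm W h _ A (fun a _ => a) rfl

theorem rowMerge : ∀ N : ℕ, RowMerge (N + 1)
  | 0 => rowMerge_one
  | N + 1 => rowMerge_succ (rowMerge N)

/-- Every finite family of words on `Fin N` that are rearrangements of each other is word Ramsey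
with some positive multiplicity. -/
theorem wordRamsey_of_rearrangements {N : ℕ} [Nonempty ι] [Fintype A] [DecidableEq A]
    (W : ι → Fin N → A) (h : ∀ i j, univ.val.map (W i) = univ.val.map (W j)) : WR W := by
  classical
  cases N with
  | zero =>
    exact ⟨1, one_pos, WordRamsey.const _ (W (Classical.arbitrary ι)) fun i => by
      funext p
      exact p.elim0⟩
  | succ m =>
    have h1 : WR (fun i (x : Unit × Fin (m + 1)) => W i x.2) := by
      apply rowMerge m
      refine ⟨1, one_pos, WordRamsey.const _
        (fun _ => cont (W (Classical.arbitrary ι))) fun i => ?_⟩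
      funext q
      apply Subtype.ext
      exact h i _
    obtain ⟨M, hM, hM'⟩ := h1
    refine ⟨M * 1, by omega, ?_⟩
    refine WordRamsey.of_subst W (fun x : Unit × Fin (m + 1) => Sum.inl x.2) 1 (fun p => ?_) hM'
    have : univ.filter (fun s : Unit × Fin (m + 1) => (Sum.inl s.2 : Fin (m + 1) ⊕ A) = Sum.inl p) =
        {((), p)} := by
      ext s
      simp [Prod.ext_iff]
    rw [this, card_singleton]

end Rows

end Vale.Agent.Lib.P058
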