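import Mathlib
import Vale.Agent.Lib.P058.Defs

/-!
# A Ramsey set has a signed balanced array

A *column* of a finite set `A` is a real function on `A` which respects every affine dependency of
`A`.  A *signed balanced array* of `A` is a finite list of columns with rational weights of any
sign, such that all rows have the same signed content and such that the weighted sum of squares of
differences of two rows is the squared distance of the two points.

Main result: a finite Ramsey set has a signed balanced array.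
If no array exists, linear algebra over `ℚ` gives wild functions `f a : ℝ → ℚ`, from which one
builds a colouring with no monochromatic copy.
-/

open Finset

namespace Vale.Agent.Lib.P058.Signed

/-- Euclidean space. -/
abbrev E (d : ℕ) : Type := EuclideanSpace ℝ (Fin d)

/-- A column of `A`: a real function which respects every affine dependency of `A`. -/
def IsColumn {d : ℕ} (A : Finset (E d)) (c : E d → ℝ) : Prop :=
  ∀ w : E d → ℝ, ∑ a ∈ A, w a = 0 → ∑ a ∈ A, w a • a = 0 → ∑ a ∈ A, w a * c a = 0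

open scoped Classical in
/-- A signed balanced array of `A`: finitely many columns `c l` of `A` and rational weights `m l`
of any sign such that all rows have the same signed content, and
`∑ l, m l * (c l a - c l b) ^ 2 = dist a b ^ 2` for all `a b ∈ A`. -/
def HasSignedArray {d : ℕ} (A : Finset (E d)) : Prop :=
  ∃ (n : ℕ) (m : Fin n → ℚ) (c : Fin n → E d → ℝ),
    (∀ l, IsColumn A (c l)) ∧
    (∀ a ∈ A, ∀ b ∈ A, ∀ s : ℝ, ∑ l with c l a = s, m l = ∑ l with c l b = s, m l) ∧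
    (∀ a ∈ A, ∀ b ∈ A, ∑ l, (m l : ℝ) * (c l a - c l b) ^ 2 = dist a b ^ 2)

/-- The squared norm of a combination with weight sum zero, from the distances only. -/
theorem norm_sq_combo {V α : Type*} [NormedAddCommGroup V] [InnerProductSpace ℝ V] (A : Finset α)
    (p : α → V) (w : α → ℝ) (hw : ∑ a ∈ A, w a = 0) :
    ‖∑ a ∈ A, w a • p a‖ ^ 2 = -(1 / 2) * ∑ a ∈ A, ∑ b ∈ A, w a * w b * dist (p a) (p b) ^ 2 := by
  have key : ∀ a b, inner ℝ (p a) (p b) = (‖p a‖ ^ 2 + ‖p b‖ ^ 2 - dist (p a) (p b) ^ 2) / 2 := by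
    intro a b
    rw [dist_eq_norm, norm_sub_sq_real]
    ring
  have h1 : ‖∑ a ∈ A, w a • p a‖ ^ 2 = ∑ a ∈ A, ∑ b ∈ A, w a * w b * inner ℝ (p a) (p b) := by
    rw [← real_inner_self_eq_norm_sq, sum_inner]
    refine sum_congr rfl fun a _ => ?_
    rw [inner_sum]
    refine sum_congr rfl fun b _ => ?_
    rw [real_inner_smul_left, real_inner_smul_right]
    ring
  have h2 : ∑ a ∈ A, ∑ b ∈ A, w a * w b * (‖p a‖ ^ 2 / 2) = 0 := by
    refine sum_eq_zero fun a _ => ?_
    have : ∑ b ∈ A, w a * w b * (‖p a‖ ^ 2 / 2) = w a * (‖p a‖ ^ 2 / 2) * ∑ b ∈ A, w b := by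
      rw [mul_sum]
      refine sum_congr rfl fun b _ => ?_
      ring
    rw [this, hw, mul_zero]
  have h3 : ∑ a ∈ A, ∑ b ∈ A, w a * w b * (‖p b‖ ^ 2 / 2) = 0 := by
    rw [sum_comm]
    refine sum_eq_zero fun a _ => ?_
    have : ∑ b ∈ A, w b * w a * (‖p a‖ ^ 2 / 2) = w a * (‖p a‖ ^ 2 / 2) * ∑ b ∈ A, w b := by
      rw [mul_sum]
      refine sum_congr rfl fun b _ => ?_
      ring
    rw [this, hw, mul_zero]
  rw [h1, mul_sum]
  have h4 : ∀ a ∈ A, ∀ b ∈ A, w a * w b * inner ℝ (p a) (p b) =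
      w a * w b * (‖p a‖ ^ 2 / 2) + w a * w b * (‖p b‖ ^ 2 / 2)
        + -(1 / 2) * (w a * w b * dist (p a) (p b) ^ 2) := by
    intro a _ b _
    rw [key]
    ring
  calc ∑ a ∈ A, ∑ b ∈ A, w a * w b * inner ℝ (p a) (p b)
      = ∑ a ∈ A, ∑ b ∈ A, (w a * w b * (‖p a‖ ^ 2 / 2) + w a * w b * (‖p b‖ ^ 2 / 2)
        + -(1 / 2) * (w a * w b * dist (p a) (p b) ^ 2)) :=
        sum_congr rfl fun a ha => sum_congr rfl fun b hb => h4 a ha b hb
    _ = (∑ a ∈ A, ∑ b ∈ A, w a * w b * (‖p a‖ ^ 2 / 2))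
        + (∑ a ∈ A, ∑ b ∈ A, w a * w b * (‖p b‖ ^ 2 / 2))
        + ∑ a ∈ A, -(1 / 2) * ∑ b ∈ A, w a * w b * dist (p a) (p b) ^ 2 := by
        rw [← sum_add_distrib, ← sum_add_distrib]
        refine sum_congr rfl fun a _ => ?_
        rw [← sum_add_distrib, mul_sum, ← sum_add_distrib]
    _ = _ := by rw [h2, h3, zero_add, zero_add]

/-- The coordinates of a distance preserving image are columns. -/
theorem isColumn_coord {d D : ℕ} (A : Finset (E d)) (f : E d → E D)
    (hf : ∀ a ∈ A, ∀ b ∈ A, dist (f a) (f b) = dist a b) (q : Fin D) :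
    IsColumn A (fun a => f a q) := by
  intro w h0 h1
  have h2 := norm_sq_combo A f w h0
  have h3 := norm_sq_combo A (fun a : E d => a) w h0
  have h4 : ∑ a ∈ A, ∑ b ∈ A, w a * w b * dist (f a) (f b) ^ 2
      = ∑ a ∈ A, ∑ b ∈ A, w a * w b * dist a b ^ 2 :=
    sum_congr rfl fun a ha => sum_congr rfl fun b hb => by rw [hf a ha b hb]
  rw [h4, ← h3, h1, norm_zero] at h2
  have h5 : ∑ a ∈ A, w a • f a = 0 := by
    have : ‖∑ a ∈ A, w a • f a‖ = 0 := by
      have h6 : ‖∑ a ∈ A, w a • f a‖ ^ 2 = 0 := by rw [h2]; norm_num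
      exact pow_eq_zero_iff (two_ne_zero) |>.mp h6
    exact norm_eq_zero.mp this
  have h6 := congrArg (fun y : E D => y q) h5
  simpa [Finset.sum_apply, PiLp.smul_apply] using h6

/-- Squared distance in coordinates. -/
theorem dist_sq_eq {D : ℕ} (x y : E D) : dist x y ^ 2 = ∑ q, (x q - y q) ^ 2 := by
  rw [EuclideanSpace.dist_eq, Real.sq_sqrt (Finset.sum_nonneg fun _ _ => sq_nonneg _)]
  simp [Real.dist_eq, sq_abs]

/-- The ambient `ℚ`-vector space of the duality argument. -/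
abbrev VV {d : ℕ} (A : Finset (E d)) : Type := (A × A → (ℝ →₀ ℚ)) × (A × A → ℝ)

/-- First kind of evaluation. -/
noncomputable def ev1 {d : ℕ} (A : Finset (E d)) (p : A × A) (s : ℝ) : VV A →ₗ[ℚ] ℚ :=
  Finsupp.lapply s ∘ₗ LinearMap.proj p ∘ₗ LinearMap.fst ℚ _ _

/-- Second kind of evaluation. -/
noncomputable def ev2 {d : ℕ} (A : Finset (E d)) (p : A × A) : VV A →ₗ[ℚ] ℝ :=
  LinearMap.proj p ∘ₗ LinearMap.snd ℚ _ _

open scoped Classical in
/-- Linear algebra over `ℚ`: if there is no signed balanced array, there is a certificate. -/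
theorem exists_certificate {d : ℕ} (A : Finset (E d)) (hno : ¬ HasSignedArray A) :
    ∃ (f : A → ℝ → ℚ) (g : A × A → ℝ →ₗ[ℚ] ℚ),
      (∀ s, ∑ a, f a s = 0) ∧
      (∀ c : E d → ℝ, IsColumn A c →
        ∑ a : A, f a (c a) + ∑ p : A × A, g p ((c p.1 - c p.2) ^ 2) = 0) ∧
      ∑ p : A × A, g p (dist (p.1 : E d) (p.2 : E d) ^ 2) ≠ 0 := by
  let vec : (E d → ℝ) → VV A := fun c =>
    (fun p => Finsupp.single (c p.1) 1 - Finsupp.single (c p.2) 1, fun p => (c p.1 - c p.2) ^ 2)
  let T : VV A := (0, fun p => dist (p.1 : E d) (p.2 : E d) ^ 2)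
  let W : Submodule ℚ (VV A) := Submodule.span ℚ {v | ∃ c, IsColumn A c ∧ v = vec c}
  have hT : T ∉ W := by
    intro h
    rw [Submodule.mem_span_set'] at h
    obtain ⟨n, m, v, hs⟩ := h
    choose c hc1 hc2 using (fun i => (v i).2)
    apply hno
    refine ⟨n, m, c, hc1, ?_, ?_⟩
    · intro a ha b hb s
      have h1 := congrArg (ev1 A (⟨a, ha⟩, ⟨b, hb⟩) s) hs
      rw [map_sum] at h1
      simp only [map_smul, hc2] at h1
      have h2 : ∀ i, ev1 A (⟨a, ha⟩, ⟨b, hb⟩) s (vec (c i))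
          = (if c i a = s then (1 : ℚ) else 0) - (if c i b = s then (1 : ℚ) else 0) := by
        intro i
        simp [ev1, vec, Finsupp.single_apply]
      have h3 : ev1 A (⟨a, ha⟩, ⟨b, hb⟩) s T = 0 := by
        simp [ev1, T]
      simp only [h2, h3, smul_eq_mul] at h1
      have h5 : ∑ l, ((if c l a = s then m l else 0) - (if c l b = s then m l else 0)) = 0 := by
        refine Eq.trans (Finset.sum_congr rfl fun i _ => ?_) h1
        split_ifs <;> ring
      rw [Finset.sum_filter, Finset.sum_filter]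
      rw [Finset.sum_sub_distrib] at h5
      linarith
    · intro a ha b hb
      have h1 := congrArg (ev2 A (⟨a, ha⟩, ⟨b, hb⟩)) hs
      rw [map_sum] at h1
      simp only [map_smul, hc2] at h1
      have h2 : ∀ i, ev2 A (⟨a, ha⟩, ⟨b, hb⟩) (vec (c i)) = (c i a - c i b) ^ 2 := by
        intro i
        simp [ev2, vec]
      have h3 : ev2 A (⟨a, ha⟩, ⟨b, hb⟩) T = dist a b ^ 2 := by
        simp [ev2, T]
      simp only [h2, h3, Rat.smul_def] at h1
      exact h1
  obtain ⟨Φ, hΦ1, hΦ2⟩ := Submodule.exists_le_ker_of_notMem hT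
  let u : A × A → (ℝ →₀ ℚ) →ₗ[ℚ] ℚ := fun p =>
    Φ ∘ₗ LinearMap.inl ℚ _ _ ∘ₗ LinearMap.single ℚ (fun _ : A × A => (ℝ →₀ ℚ)) p
  let g : A × A → ℝ →ₗ[ℚ] ℚ := fun p =>
    Φ ∘ₗ LinearMap.inr ℚ _ _ ∘ₗ LinearMap.single ℚ (fun _ : A × A => ℝ) p
  have hexp : ∀ v : VV A, Φ v = ∑ p, u p (v.1 p) + ∑ p, g p (v.2 p) := by
    intro v
    have a1 : (∑ p, Pi.single p (v.1 p) : A × A → (ℝ →₀ ℚ)) = v.1 := Finset.univ_sum_single v.1
    have a2 : (∑ p, Pi.single p (v.2 p) : A × A → ℝ) = v.2 := Finset.univ_sum_single v.2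
    have hv : v = LinearMap.inl ℚ (A × A → (ℝ →₀ ℚ)) (A × A → ℝ)
          (∑ p, LinearMap.single ℚ (fun _ : A × A => (ℝ →₀ ℚ)) p (v.1 p))
        + LinearMap.inr ℚ (A × A → (ℝ →₀ ℚ)) (A × A → ℝ)
          (∑ p, LinearMap.single ℚ (fun _ : A × A => ℝ) p (v.2 p)) := by
      have b1 : (∑ p, LinearMap.single ℚ (fun _ : A × A => (ℝ →₀ ℚ)) p (v.1 p)) = v.1 := a1
      have b2 : (∑ p, LinearMap.single ℚ (fun _ : A × A => ℝ) p (v.2 p)) = v.2 := a2
      rw [b1, b2]
      refine Prod.ext ?_ ?_ <;> simp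
    conv_lhs => rw [hv]
    simp only [map_add, map_sum, u, g, LinearMap.comp_apply]
  let f : A → ℝ → ℚ := fun a s =>
    ∑ b : A, (u (a, b) (Finsupp.single s 1) - u (b, a) (Finsupp.single s 1))
  refine ⟨f, g, ?_, ?_, ?_⟩
  · intro s
    simp only [f, Finset.sum_sub_distrib]
    rw [sub_eq_zero]
    exact Finset.sum_comm
  · intro c hc
    have h0 : Φ (vec c) = 0 := by
      have : vec c ∈ W := Submodule.subset_span ⟨c, hc, rfl⟩
      exact hΦ2 this
    rw [hexp] at h0
    have h1 : ∑ p : A × A, u p ((vec c).1 p) = ∑ a : A, f a (c a) := by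
      simp only [vec, f, map_sub, Fintype.sum_prod_type, Finset.sum_sub_distrib]
      congr 1
      exact Finset.sum_comm
    rw [h1] at h0
    exact h0
  · have h1 := hexp T
    simp only [T, Pi.zero_apply, map_zero, Finset.sum_const_zero, zero_add] at h1
    rw [← h1]
    exact hΦ1

/-- **A finite Ramsey set has a signed balanced array.** -/
theorem hasSignedArray_of_isRamsey {d : ℕ} (A : Finset (E d)) (hR : IsRamsey (A : Set (E d))) :
    HasSignedArray A := by
  classical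
  by_contra hno
  have hne : A.Nonempty := by
    by_contra hne
    rw [not_nonempty_iff_eq_empty] at hne
    subst hne
    exact hno ⟨0, Fin.elim0, Fin.elim0, fun l => l.elim0, by simp, by simp⟩
  obtain ⟨f, g, hf0, hcol, hκ⟩ := exists_certificate A hno
  set κ : ℚ := ∑ p : A × A, g p (dist (p.1 : E d) (p.2 : E d) ^ 2) with hκdef
  set n : ℕ := Fintype.card A with hn
  have hnpos : 0 < n := Fintype.card_pos_iff.mpr ⟨⟨hne.choose, hne.choose_spec⟩⟩
  let N : ℕ := 8 * n
  haveI : NeZero N := ⟨by simp only [N]; omega⟩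
  let F : ∀ {D : ℕ}, E D → A → ℚ := fun y a => ∑ q, f a (y q)
  let col : ∀ {D : ℕ}, E D → (A → ZMod N) := fun y a =>
    ((⌊(4 * n : ℚ) * (F y a / κ)⌋ : ℤ) : ZMod N)
  let e := Fintype.equivFin (A → ZMod N)
  have hr : 2 ≤ Fintype.card (A → ZMod N) := by
    rw [Fintype.card_fun, ZMod.card]
    have h1 : N ≤ N ^ Fintype.card A := Nat.le_self_pow (by omega) N
    have h2 : 8 ≤ N := by simp only [N]; omega
    omega
  obtain ⟨D, -, hc⟩ := hR _ hr
  obtain ⟨φ, hφ, k, hk⟩ := hc (fun y => e (col y))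
  -- the identity on a copy
  have S1 : ∑ a : A, F (φ a) a = -κ := by
    have h1 : ∀ q : Fin D, ∑ a : A, f a (φ a q)
        + ∑ p : A × A, g p ((φ p.1 q - φ p.2 q) ^ 2) = 0 := fun q =>
      hcol _ (isColumn_coord A φ hφ q)
    have h2 := Finset.sum_eq_zero (s := (Finset.univ : Finset (Fin D))) fun q _ => h1 q
    rw [Finset.sum_add_distrib] at h2
    have h3 : ∑ q : Fin D, ∑ p : A × A, g p ((φ p.1 q - φ p.2 q) ^ 2) = κ := by
      rw [Finset.sum_comm, hκdef]
      refine Finset.sum_congr rfl fun p _ => ?_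
      rw [← map_sum, ← dist_sq_eq, hφ _ p.1.2 _ p.2.2]
    have h4 : ∑ q : Fin D, ∑ a : A, f a (φ a q) = ∑ a : A, F (φ a) a := Finset.sum_comm
    rw [h3, h4] at h2
    linarith
  have S2 : ∀ y : E D, ∑ a : A, F y a = 0 := by
    intro y
    have : ∑ a : A, ∑ q, f a (y q) = ∑ q, ∑ a : A, f a (y q) := Finset.sum_comm
    simp only [F]
    rw [this]
    exact Finset.sum_eq_zero fun q _ => hf0 _
  -- all colours agree
  let a₀ : A := ⟨hne.choose, hne.choose_spec⟩
  have hsame : ∀ a : A, col (φ a) a = col (φ a₀) a := by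
    intro a
    have h1 : e (col (φ a)) = e (col (φ a₀)) := by
      rw [show e (col (φ a)) = k from hk a (by simp), show e (col (φ a₀)) = k from
        hk a₀ (by simp [a₀, hne.choose_spec])]
    rw [e.injective h1]
  let X : A → ℚ := fun a => (4 * n : ℚ) * (F (φ a) a / κ)
  let Y : A → ℚ := fun a => (4 * n : ℚ) * (F (φ a₀) a / κ)
  have hK : ∀ a : A, ∃ K : ℤ, ⌊Y a⌋ - ⌊X a⌋ = (N : ℤ) * K := by
    intro a
    have h1 := hsame a
    simp only [col] at h1
    have h2 := (ZMod.intCast_eq_intCast_iff_dvd_sub _ _ _).mp h1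
    exact h2
  choose K hK using hK
  have hsumX : ∑ a, X a = -(4 * n : ℚ) := by
    simp only [X]
    rw [← Finset.mul_sum, ← Finset.sum_div, S1, neg_div, div_self hκ]
    ring
  have hsumY : ∑ a, Y a = 0 := by
    simp only [Y]
    rw [← Finset.mul_sum, ← Finset.sum_div, S2, zero_div, mul_zero]
  have hfr : ∀ a : A, X a - Y a = -((N : ℚ) * (K a : ℚ)) + (Int.fract (X a) - Int.fract (Y a)) := by
    intro a
    have h1 : ((⌊Y a⌋ : ℤ) : ℚ) - ((⌊X a⌋ : ℤ) : ℚ) = (N : ℚ) * (K a : ℚ) := by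
      have := congrArg (fun z : ℤ => (z : ℚ)) (hK a)
      push_cast at this
      exact this
    have h2 := Int.floor_add_fract (X a)
    have h3 := Int.floor_add_fract (Y a)
    linarith
  have hE : ∑ a, (Int.fract (X a) - Int.fract (Y a)) =
      (4 * n : ℚ) * (2 * ((∑ a, K a : ℤ) : ℚ) - 1) := by
    have h1 : ∑ a, (X a - Y a) = ∑ a, (-((N : ℚ) * (K a : ℚ)) + (Int.fract (X a) - Int.fract (Y a))) :=
      Finset.sum_congr rfl fun a _ => hfr a
    rw [Finset.sum_sub_distrib, hsumX, hsumY, Finset.sum_add_distrib, Finset.sum_neg_distrib,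
      ← Finset.mul_sum] at h1
    have h2 : (N : ℚ) = 8 * n := by simp [N]
    rw [h2] at h1
    push_cast
    linarith
  have hlt : |∑ a, (Int.fract (X a) - Int.fract (Y a))| < n := by
    calc |∑ a, (Int.fract (X a) - Int.fract (Y a))|
        ≤ ∑ a, |Int.fract (X a) - Int.fract (Y a)| := Finset.abs_sum_le_sum_abs _ _
      _ < ∑ _a : A, (1 : ℚ) := by
        refine Finset.sum_lt_sum_of_nonempty ⟨a₀, Finset.mem_univ _⟩ fun a _ => ?_
        rw [abs_lt]
        have h1 := Int.fract_nonneg (X a)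
        have h2 := Int.fract_lt_one (X a)
        have h3 := Int.fract_nonneg (Y a)
        have h4 := Int.fract_lt_one (Y a)
        constructor <;> linarith
      _ = n := by simp [hn]
  rw [hE, abs_mul] at hlt
  have hnQ : (0 : ℚ) < n := by exact_mod_cast hnpos
  have h5 : |(4 * n : ℚ)| = 4 * n := abs_of_pos (by positivity)
  rw [h5] at hlt
  have h6 : (1 : ℚ) ≤ |2 * ((∑ a, K a : ℤ) : ℚ) - 1| := by
    have h7 : (2 * (∑ a, K a) - 1 : ℤ) ≠ 0 := by omega
    have h8 : (1 : ℤ) ≤ |2 * (∑ a, K a) - 1| := Int.one_le_abs h7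
    have h9 : ((|2 * (∑ a, K a) - 1| : ℤ) : ℚ) = |2 * ((∑ a, K a : ℤ) : ℚ) - 1| := by
      push_cast
      rfl
    rw [← h9]
    exact_mod_cast h8
  nlinarith

end Vale.Agent.Lib.P058.Signed
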