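import Mathlib

/-!
# Binary trees with labelled leaves
-/

namespace Vale.Agent.Lib.P058

/-- Rooted binary trees with leaves labelled in `α`. -/
inductive BTree (α : Type) : Type
  | leaf (a : α) : BTree α
  | node (l r : BTree α) : BTree α

namespace BTree

variable {α β : Type}

/-- Relabel the leaves. -/
def map (f : α → β) : BTree α → BTree β
  | leaf a => leaf (f a)
  | node l r => node (map f l) (map f r)

/-- Substitute trees for the leaves. -/
def bind (f : α → BTree β) : BTree α → BTree β
  | leaf a => f a
  | node l r => node (bind f l) (bind f r)

/-- The leaf labels from left to right. -/
def leaves : BTree α → List α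
  | leaf a => [a]
  | node l r => leaves l ++ leaves r

/-- All leaves are at depth exactly `d`. -/
inductive Complete : ℕ → BTree α → Prop
  | leaf (a : α) : Complete 0 (leaf a)
  | node {d : ℕ} {l r : BTree α} : Complete d l → Complete d r → Complete (d + 1) (node l r)

/-- Isomorphism of labelled unordered rooted trees: the equivalence relation generated by swapping
the two children of a node, compatible with the tree structure. -/
inductive Iso : BTree α → BTree α → Prop
  | refl (t : BTree α) : Iso t t
  | symm {s t : BTree α} : Iso s t → Iso t s
  | trans {s t u : BTree α} : Iso s t → Iso t u → Iso s u
  | congr {l l' r r' : BTree α} : Iso l l' → Iso r r' → Iso (node l r) (node l' r')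
  | swap (l r : BTree α) : Iso (node l r) (node r l)

end BTree

/-- Addresses of the leaves of the complete binary tree of depth `d`. -/
def Addr : ℕ → Type
  | 0 => Unit
  | d + 1 => Bool × Addr d

namespace BTree

variable {α : Type}

/-- The label at an address, for a tree of depth at most `d` (a leaf reached early absorbs the
rest of the address; a node reached at address end reads its left spine). -/
def fn : (d : ℕ) → BTree α → Addr d → α
  | _, leaf a, _ => a
  | 0, node l _, x => fn 0 l x
  | d + 1, node l r, (s, x) => if s then fn d r x else fn d l x

end BTree

end Vale.Agent.Lib.P058
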