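import Mathlib
import Vale.Agent.Lib.P058.FormulaBridge

/-!
# Every subtransitive set lies in a finite set with a transitive 2-group of isometries
-/

set_option linter.unusedVariables false
set_option linter.unusedSectionVars false

namespace Vale.Agent.Lib.P058

open Finset

/-- A family embeds up to the scale `t` in one orbit of a 2-group of coordinate permutations. -/
def EmbTwo {ι : Type} {d : ℕ} (x : ι → EuclideanSpace ℝ (Fin d)) : Prop :=
  ∃ (P : Type) (_ : Fintype P) (_ : DecidableEq P) (G : Subgroup (Equiv.Perm P)) (y : P → ℝ) (t : ℝ)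
    (f : ι → Equiv.Perm P), IsPGroup 2 G ∧ 0 < t ∧ (∀ i, f i ∈ G) ∧
    ∀ i j, dist (orbitPoint y (f i)) (orbitPoint y (f j)) = t * dist (x i) (x j)

theorem EmbTwo.comp {ι κ : Type} {d : ℕ} {x : ι → EuclideanSpace ℝ (Fin d)} (h : EmbTwo x)
    (φ : κ → ι) : EmbTwo (fun j => x (φ j)) := by
  obtain ⟨P, i1, i2, G, y, t, f, hG, ht, hf, hd⟩ := h
  exact ⟨P, i1, i2, G, y, t, fun j => f (φ j), hG, ht, fun j => hf _, fun i j => hd _ _⟩

theorem EmbTwo.of_scale {ι : Type} {d d' : ℕ} {x : ι → EuclideanSpace ℝ (Fin d)}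
    {x' : ι → EuclideanSpace ℝ (Fin d')} (h : EmbTwo x) {s : ℝ} (hs : 0 < s)
    (hd : ∀ i j, dist (x i) (x j) = s * dist (x' i) (x' j)) : EmbTwo x' := by
  obtain ⟨P, i1, i2, G, y, t, f, hG, ht, hf, hdd⟩ := h
  exact ⟨P, i1, i2, G, y, t * s, f, hG, mul_pos ht hs, hf, fun i j => by
    rw [hdd, hd, mul_assoc]⟩

/-- Permutation orbits embed in 2-group orbits. -/
theorem permFamily_emb {N : ℕ} (h : FormulaStmt N (Fin N)) (v : Fin N → ℝ) :
    EmbTwo (permFamily v) := by
  classical
  obtain ⟨P, i1, i2, A, F, b, hb, hA, hcount, hF⟩ := h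
  choose g hgA hg using fun σ : Equiv.Perm (Fin N) => hF id σ
  let y : P → ℝ := fun x => v (Sum.elim id id (F x))
  refine ⟨P, i1, i2, A, y, Real.sqrt b, g, hA, Real.sqrt_pos.mpr (by exact_mod_cast hb), hgA,
    fun σ τ => ?_⟩
  have hleaf : ∀ (σ : Equiv.Perm (Fin N)) (x : P),
      y ((g σ)⁻¹ x) = v (Sum.elim σ id (F x)) := by
    intro σ x
    have h1 := hg σ ((g σ)⁻¹ x)
    rw [show g σ ((g σ)⁻¹ x) = x from (g σ).apply_symm_apply x] at h1
    simp only [y]
    have h2 : Sum.elim (id : Fin N → Fin N) id (F ((g σ)⁻¹ x)) = Sum.elim (id ∘ σ) id (F x) :=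
      h1.symm
    rw [h2]
    rfl
  have hsq : dist (orbitPoint y (g σ)) (orbitPoint y (g τ)) ^ 2 =
      b * dist (permFamily v σ) (permFamily v τ) ^ 2 := by
    rw [dist_orbitPoint_sq, EuclideanSpace.dist_eq,
      Real.sq_sqrt (Finset.sum_nonneg fun _ _ => sq_nonneg _)]
    simp only [Real.dist_eq, sq_abs, permFamily, hleaf]
    have hsplit : ∀ x : P, (v (Sum.elim σ id (F x)) - v (Sum.elim τ id (F x))) ^ 2 =
        ∑ i, if F x = Sum.inl i then (v (σ i) - v (τ i)) ^ 2 else 0 := by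
      intro x
      rcases hx : F x with i | c
      · simp
      · simp
    simp only [hsplit]
    rw [Finset.sum_comm, Finset.mul_sum]
    refine Finset.sum_congr rfl fun i _ => ?_
    rw [← Finset.sum_filter, Finset.sum_const, hcount i, nsmul_eq_mul]
  have h3 : (Real.sqrt b * dist (permFamily v σ) (permFamily v τ)) ^ 2 =
      b * dist (permFamily v σ) (permFamily v τ) ^ 2 := by
    rw [mul_pow, Real.sq_sqrt (by positivity)]
  exact (pow_left_inj₀ dist_nonneg (by positivity) two_ne_zero).mp (hsq.trans h3.symm)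

/-- Subtransitive sets embed up to scale in a 2-group orbit. -/
theorem emb_of_isSubtransitive
    (R : ∀ (N : ℕ) (v : Fin N → ℝ), EmbTwo (permFamily v))
    {d : ℕ} {A : Set (EuclideanSpace ℝ (Fin d))} (hA : IsSubtransitive A) :
    EmbTwo (fun a : A => (a : EuclideanSpace ℝ (Fin d))) := by
  classical
  obtain ⟨hAfin, n, X, ⟨hXfin, hXtr⟩, f, hf, hfX⟩ := hA
  have : Finite X := hXfin
  have : Fintype X := Fintype.ofFinite X
  by_cases hne : IsEmpty A
  · -- empty family
    exact ⟨Unit, inferInstance, inferInstance, ⊥, fun _ => 0, 1, fun a => (hne.false a).elim,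
      IsPGroup.of_bot, one_pos, fun a => (hne.false a).elim, fun a => (hne.false a).elim⟩
  · rw [not_isEmpty_iff] at hne
    obtain ⟨a0⟩ := hne
    let x0 : X := ⟨f a0, hfX a0 a0.2⟩
    let Γ := distPerm X
    have : Fintype Γ := Fintype.ofFinite Γ
    have : Nonempty Γ := ⟨1⟩
    let N := Fintype.card (Γ × Fin n)
    let e : (Γ × Fin n) ≃ Fin N := Fintype.equivFin _
    let v : Fin N → ℝ := fun q =>
      ((e.symm q).1.1 x0 : EuclideanSpace ℝ (Fin n)) (e.symm q).2
    let σ : Γ → Equiv.Perm (Fin N) := fun g =>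
      e.symm.trans ((Equiv.prodCongr (Equiv.mulRight g) (Equiv.refl _)).trans e)
    have htr : ∀ x : X, ∃ g : Γ, g.1 x0 = x := by
      intro x
      obtain ⟨φ, hφ, hφx⟩ := hXtr x0 x0.2 x x.2
      have hmem : ∀ y : X, φ y ∈ X := by
        intro y
        have hy : φ y ∈ φ '' X := ⟨y, y.2, rfl⟩
        rwa [hφ] at hy
      have hsurj : ∀ y : X, ∃ z : X, φ z = y := by
        intro y
        have hy : (y : EuclideanSpace ℝ (Fin n)) ∈ φ '' X := by
          rw [hφ]
          exact y.2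
        obtain ⟨z, hz, hzy⟩ := hy
        exact ⟨⟨z, hz⟩, hzy⟩
      let p : X → X := fun y => ⟨φ y, hmem y⟩
      have hinj : Function.Injective p := by
        intro a b hab
        have : φ a = φ b := congrArg Subtype.val hab
        exact Subtype.ext (φ.injective this)
      have hbij : Function.Bijective p := by
        refine ⟨hinj, fun y => ?_⟩
        obtain ⟨z, hz⟩ := hsurj y
        exact ⟨z, Subtype.ext hz⟩
      let γ : Equiv.Perm X := Equiv.ofBijective p hbij
      have hγ : γ ∈ distPerm X := by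
        intro a b
        show dist (φ a) (φ b) = _
        exact φ.dist_eq _ _
      exact ⟨⟨γ, hγ⟩, Subtype.ext hφx⟩
    choose G hG using htr
    have hval : ∀ (g : Γ) (q : Fin N), v (σ g q) =
        ((e.symm q).1.1 (g.1 x0) : EuclideanSpace ℝ (Fin n)) (e.symm q).2 := by
      intro g q
      simp [v, σ]
    have hdist2 : ∀ g h : Γ, dist (permFamily v (σ g)) (permFamily v (σ h)) ^ 2 =
        (Fintype.card Γ : ℝ) *
          dist (g.1 x0 : EuclideanSpace ℝ (Fin n)) (h.1 x0) ^ 2 := by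
      intro g h
      rw [EuclideanSpace.dist_eq, Real.sq_sqrt (Finset.sum_nonneg fun _ _ => sq_nonneg _)]
      simp only [permFamily, Real.dist_eq, sq_abs, hval]
      let F : Γ × Fin n → ℝ := fun t =>
        (((t.1.1 (g.1 x0) : EuclideanSpace ℝ (Fin n)) t.2) -
          ((t.1.1 (h.1 x0) : EuclideanSpace ℝ (Fin n)) t.2)) ^ 2
      have h1 : ∑ q, F (e.symm q) = ∑ t, F t := Equiv.sum_comp e.symm F
      refine h1.trans ?_
      rw [Fintype.sum_prod_type]
      have h2 : ∀ γ : Γ, ∑ i, F (γ, i) =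
          dist (g.1 x0 : EuclideanSpace ℝ (Fin n)) (h.1 x0) ^ 2 := by
        intro γ
        have := γ.2 (g.1 x0) (h.1 x0)
        rw [← this, EuclideanSpace.dist_eq,
          Real.sq_sqrt (Finset.sum_nonneg fun _ _ => sq_nonneg _)]
        simp [F, Real.dist_eq, sq_abs]
      simp only [h2, sum_const, card_univ, nsmul_eq_mul]
    have hcard : (0 : ℝ) < Fintype.card Γ := by
      exact_mod_cast Fintype.card_pos
    let s : ℝ := Real.sqrt (Fintype.card Γ)
    have hs : 0 < s := Real.sqrt_pos.mpr hcard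
    have hfam := EmbTwo.comp (R N v) (fun a : A => σ (G ⟨f a, hfX a a.2⟩))
    refine EmbTwo.of_scale hfam hs ?_
    intro a b
    have h3 := hdist2 (G ⟨f a, hfX a a.2⟩) (G ⟨f b, hfX b b.2⟩)
    rw [hG, hG] at h3
    have h4 : dist (f a) (f b) = dist (a : EuclideanSpace ℝ (Fin d)) b := hf a a.2 b b.2
    simp only at h3
    rw [h4] at h3
    have h5 : (s * dist (a : EuclideanSpace ℝ (Fin d)) b) ^ 2 =
        dist (permFamily v (σ (G ⟨f a, hfX a a.2⟩))) (permFamily v (σ (G ⟨f b, hfX b b.2⟩))) ^ 2 := by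
      rw [h3, mul_pow, Real.sq_sqrt hcard.le]
    have h6 := (pow_left_inj₀ (mul_nonneg hs.le dist_nonneg) dist_nonneg (two_ne_zero)).mp h5
    exact h6.symm

section Iso

variable {P : Type} [Fintype P]

/-- The coordinate permutation attached to `g`, as an isometry. -/
noncomputable def coordIso (g : Equiv.Perm P) :
    EuclideanSpace ℝ (Fin (Fintype.card P)) ≃ᵢ EuclideanSpace ℝ (Fin (Fintype.card P)) :=
  IsometryEquiv.mk'
    (fun v => WithLp.toLp 2 (fun q => v (Fintype.equivFin P (g⁻¹ ((Fintype.equivFin P).symm q)))))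
    (fun v => WithLp.toLp 2 (fun q => v (Fintype.equivFin P (g ((Fintype.equivFin P).symm q)))))
    (by
      intro v
      ext q
      simp)
    (Isometry.of_dist_eq (by
      intro v w
      rw [EuclideanSpace.dist_eq, EuclideanSpace.dist_eq]
      congr 1
      let t : Fin (Fintype.card P) ≃ Fin (Fintype.card P) :=
        (Fintype.equivFin P).symm.trans ((g⁻¹ : Equiv.Perm P).trans (Fintype.equivFin P))
      exact Equiv.sum_comp t (fun q => dist (v q) (w q) ^ 2)))

theorem coordIso_apply (g : Equiv.Perm P) (v : EuclideanSpace ℝ (Fin (Fintype.card P)))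
    (q : Fin (Fintype.card P)) :
    coordIso g v q = v (Fintype.equivFin P (g⁻¹ ((Fintype.equivFin P).symm q))) := rfl

theorem coordIso_orbitPoint (g h : Equiv.Perm P) (y : P → ℝ) :
    coordIso g (orbitPoint y h) = orbitPoint y (g * h) := by
  ext q
  simp [coordIso_apply, orbitPoint]

/-- The coordinate permutations as a homomorphism. -/
noncomputable def coordHom : Equiv.Perm P →* (EuclideanSpace ℝ (Fin (Fintype.card P)) ≃ᵢ
    EuclideanSpace ℝ (Fin (Fintype.card P))) where
  toFun := coordIso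
  map_one' := by
    ext v q
    rw [coordIso_apply]
    simp only [inv_one, Equiv.Perm.coe_one, id, Equiv.apply_symm_apply, IsometryEquiv.coe_one]
  map_mul' := by
    intro a b
    ext v q
    rw [coordIso_apply, IsometryEquiv.mul_apply, coordIso_apply, coordIso_apply]
    simp only [mul_inv_rev, Equiv.Perm.coe_mul, Function.comp_apply, Equiv.symm_apply_apply]

end Iso

/-- Every subtransitive set is congruent to a subset of a finite set on which a finite 2-group of
isometries acts transitively. -/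
theorem exists_twoGroup_embedding {d : ℕ} {A : Set (EuclideanSpace ℝ (Fin d))}
    (hA : IsSubtransitive A) :
    ∃ (n : ℕ) (G : Subgroup (EuclideanSpace ℝ (Fin n) ≃ᵢ EuclideanSpace ℝ (Fin n)))
      (X : Set (EuclideanSpace ℝ (Fin n))), Finite G ∧ IsPGroup 2 G ∧ X.Finite ∧
      (∀ g ∈ G, g '' X = X) ∧ (∀ x ∈ X, ∀ y ∈ X, ∃ g ∈ G, g x = y) ∧
      ∃ f : EuclideanSpace ℝ (Fin d) → EuclideanSpace ℝ (Fin n),
        (∀ a ∈ A, ∀ b ∈ A, dist (f a) (f b) = dist a b) ∧ ∀ a ∈ A, f a ∈ X := by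
  classical
  obtain ⟨P, i1, i2, G, y, t, f, hG, ht, hf, hd⟩ :=
    emb_of_isSubtransitive (fun N v => permFamily_emb (formulaStmt N) v) hA
  let y' : P → ℝ := fun x => t⁻¹ * y x
  have hscale : ∀ g g' : Equiv.Perm P, dist (orbitPoint y' g) (orbitPoint y' g') =
      t⁻¹ * dist (orbitPoint y g) (orbitPoint y g') := by
    intro g g'
    have h1 : dist (orbitPoint y' g) (orbitPoint y' g') ^ 2 =
        (t⁻¹ * dist (orbitPoint y g) (orbitPoint y g')) ^ 2 := by
      rw [dist_orbitPoint_sq, mul_pow, dist_orbitPoint_sq, Finset.mul_sum]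
      refine Finset.sum_congr rfl fun x _ => ?_
      simp only [y']
      ring
    exact (pow_left_inj₀ dist_nonneg (by positivity) two_ne_zero).mp h1
  let X : Set (EuclideanSpace ℝ (Fin (Fintype.card P))) := orbitPoint y' '' (G : Set (Equiv.Perm P))
  refine ⟨Fintype.card P, G.map coordHom, X, ?_, ?_, ?_, ?_, ?_, ?_⟩
  · exact Finite.of_surjective (fun g : G => (⟨coordHom g.1, Subgroup.mem_map_of_mem _ g.2⟩ :
      G.map coordHom)) (by
        rintro ⟨_, g, hg, rfl⟩
        exact ⟨⟨g, hg⟩, rfl⟩)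
  · rintro ⟨_, g, hg, rfl⟩
    obtain ⟨k, hk⟩ := hG ⟨g, hg⟩
    refine ⟨k, Subtype.ext ?_⟩
    have hk' : g ^ 2 ^ k = 1 := by
      have := congrArg Subtype.val hk
      simpa using this
    simp only [Subgroup.coe_pow, Subgroup.coe_one]
    rw [← map_pow, hk', map_one]
  · exact (Set.toFinite _).image _
  · rintro _ ⟨g, hg, rfl⟩
    ext z
    constructor
    · rintro ⟨_, ⟨h, hh, rfl⟩, rfl⟩
      exact ⟨g * h, G.mul_mem hg hh, (coordIso_orbitPoint g h y').symm⟩
    · rintro ⟨h, hh, rfl⟩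
      refine ⟨orbitPoint y' (g⁻¹ * h), ⟨g⁻¹ * h, G.mul_mem (G.inv_mem hg) hh, rfl⟩, ?_⟩
      show coordIso g (orbitPoint y' (g⁻¹ * h)) = orbitPoint y' h
      rw [coordIso_orbitPoint, mul_inv_cancel_left]
  · rintro _ ⟨a, ha, rfl⟩ _ ⟨b, hb, rfl⟩
    refine ⟨coordHom (b * a⁻¹), Subgroup.mem_map_of_mem _ (G.mul_mem hb (G.inv_mem ha)), ?_⟩
    show coordIso (b * a⁻¹) (orbitPoint y' a) = orbitPoint y' b
    rw [coordIso_orbitPoint, inv_mul_cancel_right]
  · refine ⟨fun a => if h : a ∈ A then orbitPoint y' (f ⟨a, h⟩) else 0, ?_, ?_⟩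
    · intro a ha b hb
      simp only [ha, hb, dif_pos]
      rw [hscale, hd, ← mul_assoc, inv_mul_cancel₀ ht.ne', one_mul]
    · intro a ha
      simp only [ha, dif_pos]
      exact ⟨_, hf _, rfl⟩

end Vale.Agent.Lib.P058
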