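import Mathlib

/-!
# Balanced formulas whose values under rearrangements lie in one orbit of a 2-group

For every `N` and every finite alphabet `S` there are a finite set `P` of positions, a subgroup
`A` of `Perm P` all of whose elements have order a power of two, and a formula `F : P → Fin N ⊕ S`
(each position carries a variable or a constant) in which every variable occurs equally often,
such that rearranging the arguments of `F` only moves its value by an element of `A`.
-/

set_option linter.unusedVariables false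
set_option linter.unusedSectionVars false

namespace Vale.Agent.Lib.P058.Wreath

open Finset
open scoped Classical

variable {P P' S : Type}

/-- Two words on `P` are related when an element of `A` carries one to the other. -/
def Rel (A : Subgroup (Equiv.Perm P)) (f f' : P → S) : Prop := ∃ g ∈ A, ∀ x, f (g x) = f' x

theorem Rel.refl (A : Subgroup (Equiv.Perm P)) (f : P → S) : Rel A f f :=
  ⟨1, A.one_mem, fun _ => rfl⟩

theorem Rel.symm {A : Subgroup (Equiv.Perm P)} {f f' : P → S} (h : Rel A f f') : Rel A f' f := by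
  obtain ⟨g, hg, hx⟩ := h
  refine ⟨g⁻¹, A.inv_mem hg, fun x => ?_⟩
  rw [← hx]
  simp

theorem Rel.trans {A : Subgroup (Equiv.Perm P)} {f f' f'' : P → S} (h : Rel A f f')
    (h' : Rel A f' f'') : Rel A f f'' := by
  obtain ⟨g, hg, hx⟩ := h
  obtain ⟨g', hg', hx'⟩ := h'
  refine ⟨g * g', A.mul_mem hg hg', fun x => ?_⟩
  rw [← hx', ← hx]
  rfl

/-- The relation `Rel` as a setoid. -/
def relSetoid (A : Subgroup (Equiv.Perm P)) (S : Type) : Setoid (P → S) :=
  ⟨Rel A, ⟨Rel.refl A, Rel.symm, Rel.trans⟩⟩

/-- The permutation of `P' × P` acting by `g'` on the first coordinate and by `h y` on the fibre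
over `y`. -/
def mkWr (g' : Equiv.Perm P') (h : P' → Equiv.Perm P) : Equiv.Perm (P' × P) where
  toFun y := (g' y.1, h y.1 y.2)
  invFun y := (g'.symm y.1, (h (g'.symm y.1)).symm y.2)
  left_inv y := by simp
  right_inv y := by simp

@[simp] theorem mkWr_apply (g' : Equiv.Perm P') (h : P' → Equiv.Perm P) (y : P' × P) :
    mkWr g' h y = (g' y.1, h y.1 y.2) := rfl

theorem mkWr_mul (g₁ g₂ : Equiv.Perm P') (h₁ h₂ : P' → Equiv.Perm P) :
    mkWr g₁ h₁ * mkWr g₂ h₂ = mkWr (g₁ * g₂) (fun y => h₁ (g₂ y) * h₂ y) := by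
  ext y <;> simp [mkWr]

theorem mkWr_one : mkWr (1 : Equiv.Perm P') (fun _ => (1 : Equiv.Perm P)) = 1 := by
  ext y <;> simp [mkWr]

/-- The wreath product of two groups of permutations, acting on the product of the two sets. -/
def wr (A' : Subgroup (Equiv.Perm P')) (A : Subgroup (Equiv.Perm P)) :
    Subgroup (Equiv.Perm (P' × P)) where
  carrier := {G | ∃ g' ∈ A', ∃ h : P' → Equiv.Perm P, (∀ y, h y ∈ A) ∧ G = mkWr g' h}
  mul_mem' := by
    rintro _ _ ⟨g₁, hg₁, h₁, hh₁, rfl⟩ ⟨g₂, hg₂, h₂, hh₂, rfl⟩
    exact ⟨g₁ * g₂, A'.mul_mem hg₁ hg₂, fun y => h₁ (g₂ y) * h₂ y,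
      fun y => A.mul_mem (hh₁ _) (hh₂ _), mkWr_mul _ _ _ _⟩
  one_mem' := ⟨1, A'.one_mem, fun _ => 1, fun _ => A.one_mem, mkWr_one.symm⟩
  inv_mem' := by
    rintro _ ⟨g, hg, h, hh, rfl⟩
    refine ⟨g⁻¹, A'.inv_mem hg, fun y => (h (g⁻¹ y))⁻¹, fun y => A.inv_mem (hh _), ?_⟩
    rw [inv_eq_iff_mul_eq_one, mkWr_mul]
    simp only [mul_inv_cancel]
    exact mkWr_one

theorem mkWr_mem {A' : Subgroup (Equiv.Perm P')} {A : Subgroup (Equiv.Perm P)}
    {g' : Equiv.Perm P'} {h : P' → Equiv.Perm P} (hg : g' ∈ A') (hh : ∀ y, h y ∈ A) :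
    mkWr g' h ∈ wr A' A := ⟨g', hg, h, hh, rfl⟩

theorem mkWr_pow {A : Subgroup (Equiv.Perm P)} (g : Equiv.Perm P') (h : P' → Equiv.Perm P)
    (hh : ∀ y, h y ∈ A) (n : ℕ) :
    ∃ k : P' → Equiv.Perm P, (∀ y, k y ∈ A) ∧ mkWr g h ^ n = mkWr (g ^ n) k := by
  induction n with
  | zero => exact ⟨fun _ => 1, fun _ => A.one_mem, by simpa using mkWr_one.symm⟩
  | succ n ih =>
    obtain ⟨k, hk, he⟩ := ih
    refine ⟨fun y => k (g y) * h y, fun y => A.mul_mem (hk _) (hh _), ?_⟩
    rw [pow_succ, he, mkWr_mul, pow_succ]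

theorem mkWr_one_pow (k : P' → Equiv.Perm P) (n : ℕ) :
    mkWr (1 : Equiv.Perm P') k ^ n = mkWr 1 (fun y => k y ^ n) := by
  induction n with
  | zero => simpa using mkWr_one.symm
  | succ n ih =>
    rw [pow_succ, ih, mkWr_mul]
    simp [pow_succ]

/-- Wreath products of 2-groups of permutations of finite sets are 2-groups. -/
theorem isPGroup_wr [Finite P'] {A' : Subgroup (Equiv.Perm P')} {A : Subgroup (Equiv.Perm P)}
    (hA' : IsPGroup 2 A') (hA : IsPGroup 2 A) : IsPGroup 2 (wr A' A) := by
  rintro ⟨_, g', hg', h, hh, rfl⟩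
  obtain ⟨k₁, hk₁⟩ := hA' ⟨g', hg'⟩
  have hk₁' : g' ^ 2 ^ k₁ = 1 := by
    simpa using congrArg Subtype.val hk₁
  obtain ⟨k, hk, he⟩ := mkWr_pow (A := A) g' h hh (2 ^ k₁)
  rw [hk₁'] at he
  have hex : ∀ y, ∃ m : ℕ, k y ^ 2 ^ m = 1 := by
    intro y
    obtain ⟨m, hm⟩ := hA ⟨k y, hk y⟩
    exact ⟨m, by simpa using congrArg Subtype.val hm⟩
  choose m hm using hex
  obtain ⟨K, hK⟩ := Finite.exists_le m
  have hpow : ∀ y, k y ^ 2 ^ K = 1 := by
    intro y
    have : K = m y + (K - m y) := by have := hK y; omega
    rw [this, pow_add, pow_mul, hm y, one_pow]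
  refine ⟨k₁ + K, ?_⟩
  apply Subtype.ext
  show mkWr g' h ^ 2 ^ (k₁ + K) = 1
  rw [pow_add, pow_mul, he, mkWr_one_pow]
  simp only [hpow]
  exact mkWr_one

theorem isPGroup_top_bool : IsPGroup 2 (⊤ : Subgroup (Equiv.Perm Bool)) := by
  rintro ⟨g, -⟩
  refine ⟨1, ?_⟩
  apply Subtype.ext
  have : ∀ g : Equiv.Perm Bool, g ^ 2 ^ 1 = 1 := by decide
  exact this g

theorem isPGroup_bot : IsPGroup 2 (⊥ : Subgroup (Equiv.Perm P)) := by
  rintro ⟨g, hg⟩
  refine ⟨0, ?_⟩
  apply Subtype.ext
  have : g = 1 := Subgroup.mem_bot.mp hg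
  simp [this]

/-- The value of a formula at a word of arguments. -/
def ev {N : ℕ} (F : P → Fin N ⊕ S) (w : Fin N → S) : P → S := fun x => Sum.elim w id (F x)

/-- The number of occurrences of the variable `r` in the formula `f`. -/
noncomputable def mult {N : ℕ} [Fintype P] (f : P → Fin N ⊕ S) (r : Fin N) : ℕ :=
  (univ.filter (fun x => f x = Sum.inl r)).card

/-- A balanced formula in `N` variables over `S` whose value under a rearrangement of the
arguments moves by an element of a 2-group. -/
structure Fm (N : ℕ) (S : Type) : Type 1 where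
  P : Type
  fin : Fintype P
  A : Subgroup (Equiv.Perm P)
  F : P → Fin N ⊕ S
  b : ℕ
  hb : 0 < b
  hA : IsPGroup 2 A
  hbal : ∀ i, mult F i = b
  hinv : ∀ (w : Fin N → S) (π : Equiv.Perm (Fin N)), Rel A (ev F (w ∘ π)) (ev F w)

attribute [instance] Fm.fin

/-- A tuple of formulas in `N + 2` variables over `S`, equivariant up to a 2-group. -/
structure St (N : ℕ) (S : Type) : Type 1 where
  P : Type
  fin : Fintype P
  A : Subgroup (Equiv.Perm P)
  T : Fin (N + 2) → P → Fin (N + 2) ⊕ S
  c : ℕ
  hc : 0 < c
  hA : IsPGroup 2 A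
  hbal : ∀ r, ∑ p, mult (T p) r = c
  hinv : ∀ (w : Fin (N + 2) → S) (σ : Equiv.Perm (Fin (N + 2))) (p : Fin (N + 2)),
    Rel A (ev (T (σ p)) w) (ev (T p) (w ∘ σ))

attribute [instance] St.fin

noncomputable section Step

variable {N : ℕ} {S : Type} [Finite S]

/-- The alphabet of the next level: words on the positions of the state, up to the group. -/
abbrev Qt (s : St N S) : Type := Quotient (relSetoid s.A S)

instance (s : St N S) : Finite (Qt s) := by
  have : Finite (s.P → S) := inferInstance
  exact Quotient.finite _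

variable (s : St N S) (D : Fm (N + 1) (Qt s))

/-- Substitute words for the variables of `D`, and representatives for its constants. -/
def comp (a : Fin (N + 1) → s.P → S) : D.P × s.P → S :=
  fun y => Sum.elim a Quotient.out (D.F y.1) y.2

theorem comp_block (a : Fin (N + 1) → s.P → S) (y : D.P) :
    (Quotient.mk (relSetoid s.A S) (fun x => comp s D a (y, x))) =
      ev D.F (fun j => Quotient.mk (relSetoid s.A S) (a j)) y := by
  simp only [comp, ev]
  cases h : D.F y with
  | inl j => simp
  | inr t => simp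

/-- Substituting related words, possibly rearranged, gives related words. -/
theorem comp_rel (a a' : Fin (N + 1) → s.P → S) (π : Equiv.Perm (Fin (N + 1)))
    (h : ∀ j, Rel s.A (a (π j)) (a' j)) :
    Rel (wr D.A s.A) (comp s D a') (comp s D a) := by
  obtain ⟨g', hg', hg⟩ := D.hinv (fun j => Quotient.mk (relSetoid s.A S) (a j)) π
  have ht : ((fun j => Quotient.mk (relSetoid s.A S) (a j)) ∘ π) =
      fun j => Quotient.mk (relSetoid s.A S) (a' j) := by
    funext j
    exact Quotient.sound (h j)
  rw [ht] at hg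
  have hb : ∀ y, Rel s.A (fun x => comp s D a' (g' y, x)) (fun x => comp s D a (y, x)) := by
    intro y
    apply Quotient.exact (s := relSetoid s.A S)
    rw [comp_block, comp_block]
    exact hg y
  choose k hk hkx using hb
  exact ⟨mkWr g' k, mkWr_mem hg' hk, fun z => hkx z.1 z.2⟩

/-- Two words side by side. -/
def symW {Y : Type} (f₀ f₁ : Y → S) : Bool × Y → S := fun z => cond z.1 (f₁ z.2) (f₀ z.2)

theorem symW_congr {Y : Type} {B : Subgroup (Equiv.Perm Y)} {f₀ f₀' f₁ f₁' : Y → S}
    (h₀ : Rel B f₀ f₀') (h₁ : Rel B f₁ f₁') :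
    Rel (wr (⊤ : Subgroup (Equiv.Perm Bool)) B) (symW f₀ f₁) (symW f₀' f₁') := by
  obtain ⟨g₀, hg₀, hx₀⟩ := h₀
  obtain ⟨g₁, hg₁, hx₁⟩ := h₁
  refine ⟨mkWr 1 (fun b => cond b g₁ g₀), mkWr_mem (Subgroup.mem_top _) ?_, ?_⟩
  · intro b
    cases b
    · exact hg₀
    · exact hg₁
  · rintro ⟨b, y⟩
    cases b
    · exact hx₀ y
    · exact hx₁ y

theorem symW_swap {Y : Type} (B : Subgroup (Equiv.Perm Y)) (f₀ f₁ : Y → S) :
    Rel (wr (⊤ : Subgroup (Equiv.Perm Bool)) B) (symW f₀ f₁) (symW f₁ f₀) := by
  refine ⟨mkWr (Equiv.swap true false) (fun _ => 1),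
    mkWr_mem (Subgroup.mem_top _) (fun _ => B.one_mem), ?_⟩
  rintro ⟨b, y⟩
  cases b <;> simp [symW]

/-- A formula for a substitution into `D`. -/
def compF (args : Fin (N + 1) → s.P → Fin (N + 2) ⊕ S) : D.P × s.P → Fin (N + 2) ⊕ S :=
  fun y => Sum.elim args (fun (t : Qt s) x => Sum.inr (Quotient.out t x)) (D.F y.1) y.2

theorem ev_compF (args : Fin (N + 1) → s.P → Fin (N + 2) ⊕ S) (w : Fin (N + 2) → S) :
    ev (compF s D args) w = comp s D (fun j => ev (args j) w) := by
  funext y
  simp only [ev, compF, comp]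
  cases h : D.F y.1 with
  | inl j => simp [ev]
  | inr t => simp

/-- The count of a variable in a substitution. -/
theorem mult_compF (args : Fin (N + 1) → s.P → Fin (N + 2) ⊕ S) (r : Fin (N + 2)) :
    mult (compF s D args) r = D.b * ∑ j, mult (args j) r := by
  have h1 : mult (compF s D args) r =
      ∑ y : D.P, ∑ j : Fin (N + 1), if D.F y = Sum.inl j then mult (args j) r else 0 := by
    rw [mult, card_filter, Fintype.sum_prod_type]
    refine sum_congr rfl fun y _ => ?_
    cases h : D.F y with
    | inl j₀ =>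
      have hL : ∀ x, compF s D args (y, x) = args j₀ x := by
        intro x
        simp [compF, h]
      rw [sum_eq_single j₀]
      · rw [if_pos rfl, mult, card_filter]
        exact sum_congr rfl fun x _ => by rw [hL]
      · intro j _ hj
        rw [if_neg]
        simpa using Ne.symm hj
      · simp
    | inr t =>
      simp [compF, h]
  rw [h1, sum_comm, mul_sum]
  refine sum_congr rfl fun j _ => ?_
  rw [sum_ite, sum_const_zero, add_zero, sum_const, smul_eq_mul, ← D.hbal j]
  congr 1
  unfold mult
  congr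

variable (R : Fin N → Qt s)

/-- The constant formula with value a representative of `t`. -/
def cst (t : Qt s) : s.P → Fin (N + 2) ⊕ S := fun x => Sum.inr (Quotient.out t x)

/-- The arguments of the first half: the formula itself, then constants. -/
def argsF (p : Fin (N + 2)) : Fin (N + 1) → s.P → Fin (N + 2) ⊕ S :=
  Fin.cases (s.T p) (fun j => cst s (R j))

/-- The arguments of the second half: the other formulas. -/
def argsS (p : Fin (N + 2)) : Fin (N + 1) → s.P → Fin (N + 2) ⊕ S :=
  fun j => s.T (p.succAbove j)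

/-- The new tuple of formulas. -/
def newT (p : Fin (N + 2)) : Bool × (D.P × s.P) → Fin (N + 2) ⊕ S :=
  fun z => cond z.1 (compF s D (argsS s p) z.2) (compF s D (argsF s R p) z.2)

theorem ev_newT (p : Fin (N + 2)) (w : Fin (N + 2) → S) :
    ev (newT s D R p) w =
      symW (comp s D (fun j => ev (argsF s R p j) w))
        (comp s D (fun j => ev (argsS s p j) w)) := by
  funext z
  rcases z with ⟨b, y⟩
  cases b
  · have := congrFun (ev_compF s D (argsF s R p) w) y
    simpa [ev, newT, symW] using this
  · have := congrFun (ev_compF s D (argsS s p) w) y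
    simpa [ev, newT, symW] using this

theorem mult_cst (t : Qt s) (r : Fin (N + 2)) : mult (cst s t) r = 0 := by
  simp [mult, cst]

theorem mult_newT (p r : Fin (N + 2)) : mult (newT s D R p) r = D.b * s.c := by
  have h1 : mult (newT s D R p) r =
      mult (compF s D (argsF s R p)) r + mult (compF s D (argsS s p)) r := by
    unfold mult
    rw [card_filter, Fintype.sum_prod_type, Fintype.sum_bool, card_filter, card_filter, add_comm]
    rfl
  rw [h1, mult_compF, mult_compF, ← mul_add, ← s.hbal r, Fin.sum_univ_succ,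
    Fin.sum_univ_succAbove (fun q => mult (s.T q) r) p]
  congr 1
  have h2 : ∀ j : Fin N, mult (argsF s R p j.succ) r = 0 := fun j => mult_cst s (R j) r
  simp only [h2, sum_const_zero, add_zero]
  rfl

theorem ev_cst (t : Qt s) (w : Fin (N + 2) → S) : ev (cst s t) w = Quotient.out t := rfl

theorem argsF_zero (p : Fin (N + 2)) : argsF s R p 0 = s.T p := rfl

theorem argsF_succ (p : Fin (N + 2)) (j : Fin N) : argsF s R p j.succ = cst s (R j) := rfl

/-- Rearranged arguments of the second half. -/
theorem exists_perm_succAbove {n : ℕ} (p : Fin (n + 1)) (ψ : Fin n → Fin (n + 1))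
    (hinj : Function.Injective ψ) (hne : ∀ j, ψ j ≠ p) :
    ∃ π : Equiv.Perm (Fin n), ∀ j, p.succAbove (π j) = ψ j := by
  have hex : ∀ j, ∃ i, p.succAbove i = ψ j := fun j => Fin.exists_succAbove_eq (hne j)
  choose f hf using hex
  have hfinj : Function.Injective f := by
    intro a b hab
    apply hinj
    rw [← hf a, ← hf b, hab]
  refine ⟨Equiv.ofBijective f (Finite.injective_iff_bijective.mp hfinj), fun j => ?_⟩
  simpa using hf j

theorem relF_of (p q : Fin (N + 2)) (w w' : Fin (N + 2) → S)
    (h : Rel s.A (ev (s.T p) w) (ev (s.T q) w')) :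
    Rel (wr D.A s.A) (comp s D (fun j => ev (argsF s R p j) w))
      (comp s D (fun j => ev (argsF s R q j) w')) := by
  apply Rel.symm
  apply comp_rel s D _ _ 1
  intro j
  refine Fin.cases ?_ (fun j => ?_) j
  · exact h
  · exact Rel.refl _ _

/-- One step of the construction. -/
def stepSt : St N S where
  P := Bool × (D.P × s.P)
  fin := inferInstance
  A := wr (⊤ : Subgroup (Equiv.Perm Bool)) (wr D.A s.A)
  T := newT s D R
  c := (N + 2) * (D.b * s.c)
  hc := by
    have := D.hb
    have := s.hc
    positivity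
  hA := isPGroup_wr isPGroup_top_bool (isPGroup_wr D.hA s.hA)
  hbal := by
    intro r
    simp only [mult_newT, sum_const, card_univ, Fintype.card_fin, smul_eq_mul]
  hinv := by
    intro w σ p
    rw [ev_newT, ev_newT]
    apply symW_congr
    · exact relF_of s D R _ _ _ _ (s.hinv w σ p)
    · obtain ⟨π, hπ⟩ := exists_perm_succAbove (σ p) (fun j => σ (p.succAbove j))
        (fun a b hab => Fin.succAbove_right_injective (σ.injective hab))
        (fun j h => Fin.succAbove_ne p j (σ.injective h))
      apply Rel.symm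
      apply comp_rel s D _ _ π
      intro j
      simp only [argsS, hπ]
      exact s.hinv w σ (p.succAbove j)

/-- Related formulas stay related after a step. -/
theorem step_mono (w : Fin (N + 2) → S) (p q : Fin (N + 2))
    (h : Rel s.A (ev (s.T p) w) (ev (s.T q) w)) :
    Rel (stepSt s D R).A (ev ((stepSt s D R).T p) w) (ev ((stepSt s D R).T q) w) := by
  show Rel (wr (⊤ : Subgroup (Equiv.Perm Bool)) (wr D.A s.A)) (ev (newT s D R p) w)
    (ev (newT s D R q) w)
  rw [ev_newT, ev_newT]
  apply symW_congr
  · exact relF_of s D R _ _ _ _ h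
  · by_cases hpq : p = q
    · subst hpq
      exact Rel.refl _ _
    · obtain ⟨π, hπ⟩ := exists_perm_succAbove p (fun j => Equiv.swap p q (q.succAbove j))
        (fun a b hab => Fin.succAbove_right_injective ((Equiv.swap p q).injective hab))
        (fun j hj => Fin.succAbove_ne q j (by
          have := Equiv.swap_apply_eq_iff.mp hj
          rw [Equiv.swap_apply_left] at this
          exact this))
      apply Rel.symm
      apply comp_rel s D _ _ π
      intro j
      simp only [argsS, hπ]
      by_cases hj : q.succAbove j = p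
      · rw [hj, Equiv.swap_apply_left]
        exact Rel.symm h
      · rw [Equiv.swap_apply_of_ne_of_ne hj (Fin.succAbove_ne q j)]
        exact Rel.refl _ _

/-- The second half of one formula against the first half of the other. -/
theorem cross_rel (w : Fin (N + 2) → S) (p q : Fin (N + 2)) (hpq : p ≠ q)
    (e : Fin N → Fin (N + 2)) (heinj : Function.Injective e) (hep : ∀ j, e j ≠ p)
    (heq : ∀ j, e j ≠ q) (hR : ∀ j, R j = Quotient.mk (relSetoid s.A S) (ev (s.T (e j)) w)) :
    Rel (wr D.A s.A) (comp s D (fun j => ev (argsF s R p j) w))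
      (comp s D (fun j => ev (argsS s q j) w)) := by
  let ψ : Fin (N + 1) → Fin (N + 2) := Fin.cases p e
  have hψinj : Function.Injective ψ := by
    intro a b
    refine Fin.cases ?_ (fun a => ?_) a <;> refine Fin.cases ?_ (fun b => ?_) b
    · intro _
      rfl
    · intro h
      exact absurd h.symm (hep b)
    · intro h
      exact absurd h (hep a)
    · intro h
      exact congrArg Fin.succ (heinj h)
  have hψq : ∀ j, ψ j ≠ q := by
    intro j
    refine Fin.cases ?_ (fun j => ?_) j
    · exact hpq
    · exact heq j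
  obtain ⟨π, hπ⟩ := exists_perm_succAbove q ψ hψinj hψq
  apply comp_rel s D _ _ π
  intro j
  simp only [argsS, hπ]
  refine Fin.cases ?_ (fun j => ?_) j
  · exact Rel.refl _ _
  · show Rel s.A (ev (s.T (e j)) w) (ev (argsF s R p j.succ) w)
    rw [argsF_succ, ev_cst, hR j]
    exact Rel.symm (Quotient.mk_out (s := relSetoid s.A S) (ev (s.T (e j)) w))

/-- A suitable choice of constants merges two formulas at a word. -/
theorem step_merge (w : Fin (N + 2) → S) (p q : Fin (N + 2)) (hpq : p ≠ q)
    (e : Fin N → Fin (N + 2)) (heinj : Function.Injective e) (hep : ∀ j, e j ≠ p)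
    (heq : ∀ j, e j ≠ q) (hR : ∀ j, R j = Quotient.mk (relSetoid s.A S) (ev (s.T (e j)) w)) :
    Rel (stepSt s D R).A (ev ((stepSt s D R).T p) w) (ev ((stepSt s D R).T q) w) := by
  show Rel (wr (⊤ : Subgroup (Equiv.Perm Bool)) (wr D.A s.A)) (ev (newT s D R p) w)
    (ev (newT s D R q) w)
  rw [ev_newT, ev_newT]
  refine Rel.trans (symW_congr (cross_rel s D R w p q hpq e heinj hep heq hR)
    (Rel.symm (cross_rel s D R w q p hpq.symm e heinj heq hep hR))) ?_
  exact symW_swap _ _ _

end Step

noncomputable section Loop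

variable {N : ℕ} {S : Type}

/-- The number of triples (word, two indices) at which two formulas of the state are not related
yet. -/
def unrel [Fintype S] (s : St N S) : ℕ :=
  (univ.filter (fun τ : (Fin (N + 2) → S) × Fin (N + 2) × Fin (N + 2) =>
    ¬ Rel s.A (ev (s.T τ.2.1) τ.1) (ev (s.T τ.2.2) τ.1))).card

/-- The loop of the induction: all formulas can be made related at every word. -/
theorem exists_final [Finite S] (IH : ∀ (S' : Type) [Finite S'], Nonempty (Fm (N + 1) S'))
    [Fintype S] (n : ℕ) :
    ∀ s : St N S, unrel s = n →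
      ∃ s' : St N S, ∀ w p q, Rel s'.A (ev (s'.T p) w) (ev (s'.T q) w) := by
  induction n using Nat.strong_induction_on with
  | _ n ih =>
    intro s hs
    by_cases hall : ∀ w p q, Rel s.A (ev (s.T p) w) (ev (s.T q) w)
    · exact ⟨s, hall⟩
    · push Not at hall
      obtain ⟨w, p, q, hnr⟩ := hall
      have hpq : p ≠ q := by
        rintro rfl
        exact hnr (Rel.refl _ _)
      obtain ⟨j₀, hj₀⟩ := Fin.exists_succAbove_eq hpq.symm
      obtain ⟨D⟩ := IH (Qt s)
      let e : Fin N → Fin (N + 2) := fun j => p.succAbove (j₀.succAbove j)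
      have heinj : Function.Injective e := fun a b hab =>
        Fin.succAbove_right_injective (Fin.succAbove_right_injective hab)
      have hep : ∀ j, e j ≠ p := fun j => Fin.succAbove_ne p _
      have heq : ∀ j, e j ≠ q := by
        intro j h
        rw [← hj₀] at h
        exact Fin.succAbove_ne j₀ j (Fin.succAbove_right_injective h)
      let R : Fin N → Qt s := fun j => Quotient.mk (relSetoid s.A S) (ev (s.T (e j)) w)
      have hlt : unrel (stepSt s D R) < n := by
        rw [← hs]
        apply card_lt_card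
        rw [Finset.ssubset_iff_of_subset]
        · refine ⟨(w, p, q), ?_, ?_⟩
          · simpa using hnr
          · simp only [mem_filter, mem_univ, true_and, not_not]
            exact step_merge s D R w p q hpq e heinj hep heq (fun _ => rfl)
        · intro τ hτ
          simp only [mem_filter, mem_univ, true_and] at hτ ⊢
          exact fun h => hτ (step_mono s D R _ _ _ h)
      exact ih _ hlt _ rfl

/-- The state where each formula is a single variable. -/
def initSt (N : ℕ) (S : Type) : St N S where
  P := Unit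
  fin := inferInstance
  A := ⊥
  T := fun p _ => Sum.inl p
  c := 1
  hc := one_pos
  hA := isPGroup_bot
  hbal := by
    intro r
    have : ∀ p : Fin (N + 2), mult (fun _ : Unit => (Sum.inl p : Fin (N + 2) ⊕ S)) r =
        if p = r then 1 else 0 := by
      intro p
      by_cases h : p = r
      · subst h
        simp [mult]
      · simp [mult, h]
    simp only [this]
    simp
  hinv := fun w σ p => ⟨1, Subgroup.one_mem _, fun _ => rfl⟩

/-- The main theorem in structure form. -/
theorem nonempty_fm (N : ℕ) : ∀ (S : Type) [Finite S], Nonempty (Fm (N + 1) S) := by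
  induction N with
  | zero =>
    intro S _
    refine ⟨⟨Unit, inferInstance, ⊥, fun _ => Sum.inl 0, 1, one_pos, isPGroup_bot, ?_, ?_⟩⟩
    · intro i
      have : i = 0 := Fin.ext (by have := i.2; simp only [Fin.val_zero]; omega)
      subst this
      simp [mult]
    · intro w π
      have : π = 1 := Equiv.ext fun x => Fin.ext (by
        have := (π x).2
        have := x.2
        simp only [Equiv.Perm.coe_one, id_eq]
        omega)
      subst this
      exact Rel.refl _ _
  | succ N IH =>
    intro S _
    by_cases hS : Nonempty S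
    · letI : Fintype S := Fintype.ofFinite S
      obtain ⟨s', hs'⟩ := exists_final IH _ (initSt N S) rfl
      obtain ⟨D⟩ := IH (Qt s')
      obtain ⟨x₀⟩ := hS
      let R : Fin N → Qt s' := fun _ => Quotient.mk (relSetoid s'.A S) (fun _ => x₀)
      refine ⟨⟨(stepSt s' D R).P, (stepSt s' D R).fin, (stepSt s' D R).A,
        (stepSt s' D R).T 0, D.b * s'.c, Nat.mul_pos D.hb s'.hc, (stepSt s' D R).hA,
        fun i => mult_newT s' D R 0 i, fun w π => ?_⟩⟩
      have h1 := (stepSt s' D R).hinv w π 0
      have h2 := step_mono s' D R w 0 (π 0) (hs' w 0 (π 0))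
      exact Rel.trans (Rel.symm h1) (Rel.symm h2)
    · refine ⟨⟨Fin (N + 2), inferInstance, ⊥, Sum.inl, 1, one_pos, isPGroup_bot, ?_, ?_⟩⟩
      · intro i
        simp [mult, Finset.filter_eq']
      · intro w π
        exact absurd ⟨w 0⟩ hS

end Loop

/-- **Balanced formulas with values in one orbit of a 2-group.** For every `N ≥ 1` and every
finite alphabet `S` there are a finite set `P`, a subgroup `A` of `Perm P` whose elements all have
order a power of two, a labelling `F` of `P` by variables and constants, in which each variable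
occurs exactly `b ≥ 1` times, such that for every word `w` and every rearrangement `π` of its
letters, the values of `F` at `w ∘ π` and at `w` differ by an element of `A`. -/
theorem exists_formula (N : ℕ) (S : Type) [Finite S] :
    ∃ (P : Type) (_ : Fintype P) (A : Subgroup (Equiv.Perm P)) (F : P → Fin (N + 1) ⊕ S) (b : ℕ),
      0 < b ∧ IsPGroup 2 A ∧ (∀ i, (univ.filter (fun x => F x = Sum.inl i)).card = b) ∧
      ∀ (w : Fin (N + 1) → S) (π : Equiv.Perm (Fin (N + 1))),
        ∃ g ∈ A, ∀ x, Sum.elim (w ∘ π) id (F (g x)) = Sum.elim w id (F x) := by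
  obtain ⟨D⟩ := nonempty_fm N S
  exact ⟨D.P, D.fin, D.A, D.F, D.b, D.hb, D.hA, D.hbal, D.hinv⟩

end Vale.Agent.Lib.P058.Wreath
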